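import Crest.Agent.R066.Defs

/-! Row 66: averaging operators on a finite group, the Heisenberg estimate, trickle-down and the
swap bound. -/

set_option autoImplicit false
set_option linter.unusedSectionVars false

namespace Crest.Agent.R066

open Finset

variable {G : Type} [Group G] [Fintype G]

open Classical in
theorem avg_apply (H : Subgroup G) (f : EuclideanSpace ℝ G) (g : G) :
    avg H f g = (∑ h : H, f (g * h)) / (Nat.card H : ℝ) := rfl

/-- right translation of functions. -/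
noncomputable def rtr (x : G) : EuclideanSpace ℝ G →ₗ[ℝ] EuclideanSpace ℝ G where
  toFun f := WithLp.toLp 2 fun g => f (g * x)
  map_add' f₁ f₂ := by
    ext g
    simp
  map_smul' a f := by
    ext g
    simp

theorem rtr_apply (x : G) (f : EuclideanSpace ℝ G) (g : G) : rtr x f g = f (g * x) := rfl

theorem rtr_mul (x y : G) (f : EuclideanSpace ℝ G) : rtr (x * y) f = rtr x (rtr y f) := by
  ext g
  simp [rtr_apply, mul_assoc]

theorem rtr_one (f : EuclideanSpace ℝ G) : rtr 1 f = f := by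
  ext g
  simp [rtr_apply]

theorem inner_eq_sum (f g : EuclideanSpace ℝ G) : inner ℝ f g = ∑ x, f x * g x := by
  simp [PiLp.inner_apply, mul_comm]

theorem inner_rtr (x : G) (f g : EuclideanSpace ℝ G) :
    inner ℝ (rtr x f) g = inner ℝ f (rtr x⁻¹ g) := by
  rw [inner_eq_sum, inner_eq_sum]
  refine Fintype.sum_equiv (Equiv.mulRight x) _ _ fun y => ?_
  simp [rtr_apply]

theorem card_subgroup_pos (H : Subgroup G) : (0 : ℝ) < (Nat.card H : ℝ) := by
  have : 0 < Nat.card H := Nat.card_pos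
  exact_mod_cast this

open Classical in
theorem avg_eq_sum (H : Subgroup G) (f : EuclideanSpace ℝ G) :
    avg H f = ((Nat.card H : ℝ)⁻¹) • ∑ h : H, rtr (h : G) f := by
  ext g
  rw [avg_apply]
  simp [rtr_apply, div_eq_inv_mul]

theorem rtr_of_rinv {H : Subgroup G} {f : EuclideanSpace ℝ G} (h : RInv H f) {x : G}
    (hx : x ∈ H) : rtr x f = f := by
  ext g
  exact h g x hx

theorem rinv_avg (H : Subgroup G) (f : EuclideanSpace ℝ G) : RInv H (avg H f) := by
  classical
  intro g x hx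
  rw [avg_apply, avg_apply]
  congr 1
  refine Fintype.sum_equiv (Equiv.mulLeft (⟨x, hx⟩ : H)) _ _ fun y => ?_
  simp [mul_assoc]

theorem avg_of_rinv {H : Subgroup G} {f : EuclideanSpace ℝ G} (h : RInv H f) : avg H f = f := by
  classical
  ext g
  rw [avg_apply]
  have h1 : ∀ y : H, f (g * y) = f g := fun y => h g y y.2
  have h2 := card_subgroup_pos H
  simp only [h1, Finset.sum_const, Finset.card_univ, nsmul_eq_mul]
  rw [← Nat.card_eq_fintype_card]
  field_simp

theorem RInv.mono {H H' : Subgroup G} {f : EuclideanSpace ℝ G} (h : RInv H f) (hle : H' ≤ H) :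
    RInv H' f := fun g x hx => h g x (hle hx)

theorem inner_avg (H : Subgroup G) (f g : EuclideanSpace ℝ G) :
    inner ℝ (avg H f) g = inner ℝ f (avg H g) := by
  classical
  rw [avg_eq_sum, avg_eq_sum, inner_smul_left, inner_smul_right, sum_inner, inner_sum]
  simp only [conj_trivial]
  congr 1
  refine Fintype.sum_equiv (Equiv.inv H) _ _ fun y => ?_
  rw [inner_rtr]
  simp

theorem avg_avg (H : Subgroup G) (f : EuclideanSpace ℝ G) : avg H (avg H f) = avg H f :=
  avg_of_rinv (rinv_avg H f)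

theorem inner_avg_self (H : Subgroup G) (f : EuclideanSpace ℝ G) :
    inner ℝ (avg H f) f = ‖avg H f‖ ^ 2 := by
  rw [← real_inner_self_eq_norm_sq, inner_avg H f (avg H f), avg_avg, real_inner_comm]

theorem norm_sub_avg_sq' (H : Subgroup G) (f : EuclideanSpace ℝ G) :
    ‖f - avg H f‖ ^ 2 = ‖f‖ ^ 2 - ‖avg H f‖ ^ 2 := by
  rw [norm_sub_sq_real, real_inner_comm, inner_avg_self]
  ring

theorem norm_avg_le (H : Subgroup G) (f : EuclideanSpace ℝ G) : ‖avg H f‖ ≤ ‖f‖ := by
  have h1 := norm_sub_avg_sq' H f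
  have h2 : 0 ≤ ‖f - avg H f‖ ^ 2 := sq_nonneg _
  exact (pow_le_pow_iff_left₀ (norm_nonneg _) (norm_nonneg _) two_ne_zero).1 (by linarith)

theorem norm_sub_avg_sq (H : Subgroup G) (f : EuclideanSpace ℝ G) :
    ‖f - avg H f‖ ^ 2 = ‖f‖ ^ 2 - ‖avg H f‖ ^ 2 := norm_sub_avg_sq' H f

theorem avg_avg_of_le {H H' : Subgroup G} (h : H' ≤ H) (f : EuclideanSpace ℝ G) :
    avg H (avg H' f) = avg H f := by
  refine ext_inner_right ℝ fun g => ?_
  rw [inner_avg, inner_avg, avg_of_rinv ((rinv_avg H g).mono h), inner_avg]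

theorem avg_avg_of_ge {H H' : Subgroup G} (h : H' ≤ H) (f : EuclideanSpace ℝ G) :
    avg H' (avg H f) = avg H f := avg_of_rinv ((rinv_avg H f).mono h)

theorem avg_rtr {H : Subgroup G} {x : G} (hx : x ∈ H) (f : EuclideanSpace ℝ G) :
    avg H (rtr x f) = avg H f := by
  refine ext_inner_right ℝ fun g => ?_
  rw [inner_avg, inner_rtr, rtr_of_rinv (rinv_avg H g) (H.inv_mem hx), inner_avg]

/-- if `C = A B` then averaging over `C` is averaging over `B` and then over `A`. -/
theorem avg_mul {A B C : Subgroup G} (hA : A ≤ C) (hB : B ≤ C)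
    (h : ∀ x ∈ C, ∃ a ∈ A, ∃ b ∈ B, x = a * b) (f : EuclideanSpace ℝ G) :
    avg C f = avg A (avg B f) := by
  classical
  have key : ∀ x : C, avg A (rtr (x : G) (avg B f)) = avg A (avg B f) := by
    intro x
    obtain ⟨a, ha, b, hb, hx⟩ := h x x.2
    rw [hx, rtr_mul, avg_rtr ha, rtr_of_rinv (rinv_avg B f) hb]
  have h1 : avg A (avg C (avg B f)) = avg C f := by
    rw [avg_avg_of_ge hA, avg_avg_of_le hB]
  have h2 := card_subgroup_pos C
  rw [← h1, avg_eq_sum C (avg B f), map_smul, map_sum]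
  simp only [key, Finset.sum_const, Finset.card_univ]
  rw [← Nat.card_eq_fintype_card, ← Nat.cast_smul_eq_nsmul ℝ, smul_smul,
    inv_mul_cancel₀ h2.ne', one_smul]

/-- averaging over a subgroup commuting with `D` preserves `D`-invariance. -/
theorem RInv.avg_of_commute {D Z : Subgroup G} {f : EuclideanSpace ℝ G} (h : RInv D f)
    (hc : ∀ d ∈ D, ∀ z ∈ Z, d * z = z * d) : RInv D (avg Z f) := by
  classical
  intro g d hd
  rw [avg_apply, avg_apply]
  congr 1
  refine Finset.sum_congr rfl fun z _ => ?_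
  rw [mul_assoc, hc d hd z z.2, ← mul_assoc, h _ d hd]

theorem avg_mono (H : Subgroup G) {f g : EuclideanSpace ℝ G} (h : ∀ x, f x ≤ g x) (x : G) :
    avg H f x ≤ avg H g x := by
  classical
  rw [avg_apply, avg_apply]
  exact div_le_div_of_nonneg_right (Finset.sum_le_sum fun y _ => h _) (card_subgroup_pos H).le

theorem avg_nonneg (H : Subgroup G) {f : EuclideanSpace ℝ G} (h : ∀ x, 0 ≤ f x) (x : G) :
    0 ≤ avg H f x := by
  classical
  rw [avg_apply]
  exact div_nonneg (Finset.sum_nonneg fun y _ => h _) (card_subgroup_pos H).le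

/-- Heisenberg estimate. `A`, `D`, `Z` are subgroups, `Z` commutes with `A` and `D`, and for
`a ≠ 1` in `A` the commutators with `D` run bijectively through `Z`. -/
theorem heis {A D Z : Subgroup G} (hZA : ∀ z ∈ Z, ∀ a ∈ A, z * a = a * z)
    (hZD : ∀ z ∈ Z, ∀ d ∈ D, z * d = d * z)
    (hcomm : ∀ a ∈ A, a ≠ 1 → ∃ e : D ≃ Z, ∀ d : D, (d : G)⁻¹ * a * d = a * (e d : G))
    {f : EuclideanSpace ℝ G} (hf : RInv D f) :
    ‖avg A (f - avg Z f)‖ ≤ ‖f‖ / Real.sqrt (Nat.card A) := by
  classical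
  have _ := hZA
  set f1 := f - avg Z f with hf1
  have hZf : RInv D (avg Z f) := hf.avg_of_commute fun d hd z hz => (hZD z hz d hd).symm
  have hD : RInv D f1 := by
    intro g d hd
    have e1 := hf g d hd
    have e2 := hZf g d hd
    simp only [hf1, PiLp.sub_apply, e1, e2]
  have hZ0 : avg Z f1 = 0 := by
    rw [hf1, map_sub, avg_avg, sub_self]
  have hZs : ∑ z : Z, rtr (z : G) f1 = 0 := by
    rw [avg_eq_sum] at hZ0
    exact (smul_eq_zero.1 hZ0).resolve_left (inv_ne_zero (card_subgroup_pos Z).ne')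
  have hne : ∀ a : A, a ≠ 1 → inner ℝ (rtr (a : G) f1) f1 = 0 := by
    intro a ha
    obtain ⟨e, he⟩ := hcomm a a.2 (fun h => ha (Subtype.ext h))
    have h1 : ∀ d : D, inner ℝ (rtr (a : G) (rtr (e d : G) f1)) f1
        = inner ℝ (rtr (a : G) f1) f1 := by
      intro d
      rw [← rtr_mul, ← he d, rtr_mul, rtr_mul, rtr_of_rinv hD d.2, inner_rtr, inv_inv,
        rtr_of_rinv hD d.2]
    have h2 : ∑ d : D, inner ℝ (rtr (a : G) (rtr (e d : G) f1)) f1 = 0 := by
      rw [← sum_inner, ← map_sum,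
        Fintype.sum_equiv e (fun d : D => rtr (e d : G) f1) (fun z : Z => rtr (z : G) f1)
          (fun _ => rfl), hZs, map_zero, inner_zero_left]
    simp only [h1, Finset.sum_const, Finset.card_univ, nsmul_eq_mul] at h2
    have h3 : (0 : ℝ) < (Fintype.card D : ℝ) := by
      rw [← Nat.card_eq_fintype_card]
      exact card_subgroup_pos D
    exact (mul_eq_zero.1 h2).resolve_left h3.ne'
  have hA := card_subgroup_pos A
  have hsq : ‖avg A f1‖ ^ 2 = ‖f1‖ ^ 2 / (Nat.card A : ℝ) := by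
    rw [← inner_avg_self, avg_eq_sum, inner_smul_left, sum_inner,
      Finset.sum_eq_single (1 : A) (fun a _ ha => hne a ha) (by simp)]
    simp only [conj_trivial, OneMemClass.coe_one, rtr_one, real_inner_self_eq_norm_sq]
    rw [div_eq_inv_mul]
  have hle : ‖f1‖ ^ 2 ≤ ‖f‖ ^ 2 := by
    rw [hf1, norm_sub_avg_sq]
    linarith [sq_nonneg ‖avg Z f‖]
  refine (pow_le_pow_iff_left₀ (norm_nonneg _) (by positivity) two_ne_zero).1 ?_
  rw [hsq, div_pow, Real.sq_sqrt hA.le]
  exact div_le_div_of_nonneg_right hle hA.le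

section partite
variable {ι : Type} [Fintype ι] [DecidableEq ι] (K : ι → Subgroup G)

theorem mem_KJ {J : Finset ι} {g : G} : g ∈ KJ K J ↔ ∀ i ∈ J, g ∈ K i := by
  simp [KJ, Subgroup.mem_iInf]

theorem KJ_anti {J J' : Finset ι} (h : J ⊆ J') : KJ K J' ≤ KJ K J :=
  fun _ hg => (mem_KJ K).2 fun i hi => (mem_KJ K).1 hg i (h hi)

theorem KJ_empty : KJ K ∅ = ⊤ := by simp [KJ]

theorem KJ_singleton (i : ι) : KJ K {i} = K i := by simp [KJ]

end partite

end Crest.Agent.R066
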