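import Crest.Agent.R066.Defs

/-! Row 66: basic chain calculus in characteristic two. -/

set_option autoImplicit false
set_option linter.unusedSectionVars false

namespace Crest.Agent.R066

open Finset

variable {k : Type} [Field k] {α β : Type} [DecidableEq α] [DecidableEq β]

theorem mem_sup {𝒜 : Set (Finset α)} {z : Ch k α} :
    z ∈ Sup k 𝒜 ↔ ∀ σ, z σ ≠ 0 → σ ∈ 𝒜 := by
  rw [Finsupp.mem_supported]
  constructor
  · intro h σ hσ; exact h (Finsupp.mem_support_iff.2 hσ)
  · intro h σ hσ; exact h σ (Finsupp.mem_support_iff.1 hσ)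

theorem sup_mono {𝒜 ℬ : Set (Finset α)} (h : 𝒜 ⊆ ℬ) : Sup k 𝒜 ≤ Sup k ℬ :=
  Finsupp.supported_mono h

theorem single_mem_sup {𝒜 : Set (Finset α)} {σ : Finset α} (h : σ ∈ 𝒜) (a : k) :
    (Finsupp.single σ a : Ch k α) ∈ Sup k 𝒜 := Finsupp.single_mem_supported k a h

/-- induction principle for chains supported on `𝒜`. -/
theorem sup_induction {𝒜 : Set (Finset α)} {P : Ch k α → Prop} (h0 : P 0)
    (hadd : ∀ x y, P x → P y → P (x + y))
    (hs : ∀ σ ∈ 𝒜, ∀ a : k, P (Finsupp.single σ a)) {z : Ch k α} (hz : z ∈ Sup k 𝒜) : P z := by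
  rw [← Finsupp.sum_single z, Finsupp.sum]
  apply Finset.sum_induction _ P hadd h0
  intro σ hσ
  exact hs σ (mem_sup.1 hz σ (Finsupp.mem_support_iff.1 hσ)) _

/-- two linear maps agreeing on the simplices of `𝒜` agree on chains supported there. -/
theorem eq_on_sup {M : Type} [AddCommGroup M] [Module k M] {𝒜 : Set (Finset α)}
    (f g : Ch k α →ₗ[k] M) (h : ∀ σ ∈ 𝒜, f (Finsupp.single σ 1) = g (Finsupp.single σ 1))
    {z : Ch k α} (hz : z ∈ Sup k 𝒜) : f z = g z := by
  refine sup_induction (P := fun z => f z = g z) (by simp) ?_ ?_ hz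
  · intro x y hx hy; simp [hx, hy]
  · intro σ hσ a
    have : (Finsupp.single σ a : Ch k α) = a • Finsupp.single σ 1 := by simp
    rw [this, map_smul, map_smul, h σ hσ]

theorem map_mem_of_sup {M : Type} [AddCommGroup M] [Module k M] {𝒜 : Set (Finset α)}
    (f : Ch k α →ₗ[k] M) (S : Submodule k M) (h : ∀ σ ∈ 𝒜, f (Finsupp.single σ 1) ∈ S)
    {z : Ch k α} (hz : z ∈ Sup k 𝒜) : f z ∈ S := by
  refine sup_induction (P := fun z => f z ∈ S) (by simp) ?_ ?_ hz
  · intro x y hx hy; rw [map_add]; exact S.add_mem hx hy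
  · intro σ hσ a
    have : (Finsupp.single σ a : Ch k α) = a • Finsupp.single σ 1 := by simp
    rw [this, map_smul]; exact S.smul_mem _ (h σ hσ)

theorem bd_single (σ : Finset α) (a : k) :
    bd k (Finsupp.single σ a) = ∑ x ∈ σ, Finsupp.single (σ.erase x) a := by
  simp [bd, Finsupp.linearCombination_single, Finset.smul_sum]

theorem add_self_ch [CharP k 2] (z : Ch k α) : z + z = 0 := by
  ext σ; simp [CharTwo.add_self_eq_zero]

theorem neg_ch [CharP k 2] (z : Ch k α) : -z = z := by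
  rw [neg_eq_iff_add_eq_zero, add_self_ch]

theorem sub_ch [CharP k 2] (z w : Ch k α) : z - w = z + w := by
  rw [sub_eq_add_neg, neg_ch]

theorem bd_bd [CharP k 2] (z : Ch k α) : bd k (bd k z) = 0 := by
  have : (bd k ∘ₗ bd k : Ch k α →ₗ[k] Ch k α) z = (0 : Ch k α →ₗ[k] Ch k α) z := by
    refine eq_on_sup (𝒜 := Set.univ) _ _ ?_ (mem_sup.2 fun _ _ => trivial)
    intro σ _
    simp only [LinearMap.comp_apply, bd_single, map_sum, LinearMap.zero_apply]
    rw [Finset.sum_sigma']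
    refine Finset.sum_involution (fun p _ => ⟨p.2, p.1⟩) ?_ ?_ ?_ ?_
    · rintro ⟨x, y⟩ _
      simp only
      rw [Finset.erase_right_comm]; exact add_self_ch _
    · rintro ⟨x, y⟩ h _ e
      simp only [Finset.mem_sigma, Finset.mem_erase] at h
      simp only [Sigma.mk.injEq] at e
      exact h.2.1 e.1
    · rintro ⟨x, y⟩ h
      simp only [Finset.mem_sigma, Finset.mem_erase] at h ⊢
      exact ⟨h.2.2, Ne.symm h.2.1, h.1⟩
    · rintro ⟨x, y⟩ _; rfl
  simpa using this

theorem bd_mem_sup {𝒜 ℬ : Set (Finset α)} (h : ∀ σ ∈ 𝒜, ∀ x ∈ σ, σ.erase x ∈ ℬ) {z : Ch k α}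
    (hz : z ∈ Sup k 𝒜) : bd k z ∈ Sup k ℬ := by
  refine map_mem_of_sup _ _ ?_ hz
  intro σ hσ
  rw [bd_single]
  exact Submodule.sum_mem _ fun x hx => single_mem_sup (h σ hσ x hx) _

theorem push_single (f : α → β) (σ : Finset α) (a : k) :
    push k f (Finsupp.single σ a) = Finsupp.single (σ.image f) a := by
  simp [push, Finsupp.mapDomain_single]

theorem push_mem_sup (f : α → β) {𝒜 : Set (Finset α)} {ℬ : Set (Finset β)}
    (h : ∀ σ ∈ 𝒜, σ.image f ∈ ℬ) {z : Ch k α} (hz : z ∈ Sup k 𝒜) : push k f z ∈ Sup k ℬ := by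
  refine map_mem_of_sup _ _ ?_ hz
  intro σ hσ
  rw [push_single]; exact single_mem_sup (h σ hσ) _

theorem image_erase_of_injOn {f : α → β} {σ : Finset α} (h : Set.InjOn f σ) {x : α} (hx : x ∈ σ) :
    (σ.erase x).image f = (σ.image f).erase (f x) := by
  ext y
  simp only [Finset.mem_image, Finset.mem_erase]
  constructor
  · rintro ⟨u, ⟨hu, hu'⟩, rfl⟩
    exact ⟨fun e => hu (h hu' hx e), u, hu', rfl⟩
  · rintro ⟨hy, u, hu, rfl⟩
    exact ⟨u, ⟨fun e => hy (by rw [e]), hu⟩, rfl⟩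

theorem bd_push (f : α → β) {𝒜 : Set (Finset α)} (h : ∀ σ ∈ 𝒜, Set.InjOn f σ) {z : Ch k α}
    (hz : z ∈ Sup k 𝒜) : bd k (push k f z) = push k f (bd k z) := by
  have : (bd k ∘ₗ push k f) z = (push k f ∘ₗ bd k) z := by
    refine eq_on_sup _ _ ?_ hz
    intro σ hσ
    simp only [LinearMap.comp_apply, push_single, bd_single, map_sum]
    rw [Finset.sum_image (h σ hσ)]
    apply Finset.sum_congr rfl
    intro x hx
    rw [image_erase_of_injOn (h σ hσ) hx]
  simpa using this

theorem bd_push_of_injective {f : α → β} (h : Function.Injective f) (z : Ch k α) :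
    bd k (push k f z) = push k f (bd k z) :=
  bd_push f (𝒜 := Set.univ) (fun _ _ => h.injOn) (mem_sup.2 fun _ _ => trivial)

theorem push_push {γ : Type} [DecidableEq γ] (f : α → β) (g : β → γ) (z : Ch k α) :
    push k g (push k f z) = push k (g ∘ f) z := by
  have : (push k g ∘ₗ push k f) z = push k (g ∘ f) z := by
    refine eq_on_sup (𝒜 := Set.univ) _ _ ?_ (mem_sup.2 fun _ _ => trivial)
    intro σ _
    simp only [LinearMap.comp_apply, push_single, Finset.image_image]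
  simpa using this

theorem push_eq_self {f : α → α} {𝒜 : Set (Finset α)} (h : ∀ σ ∈ 𝒜, σ.image f = σ) {z : Ch k α}
    (hz : z ∈ Sup k 𝒜) : push k f z = z := by
  have : push k f z = (LinearMap.id : Ch k α →ₗ[k] Ch k α) z := by
    refine eq_on_sup _ _ ?_ hz
    intro σ hσ
    rw [push_single, h σ hσ]; rfl
  simpa using this

theorem push_congr {f g : α → β} {𝒜 : Set (Finset α)} (h : ∀ σ ∈ 𝒜, σ.image f = σ.image g)
    {z : Ch k α} (hz : z ∈ Sup k 𝒜) : push k f z = push k g z := by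
  refine eq_on_sup _ _ ?_ hz
  intro σ hσ
  rw [push_single, push_single, h σ hσ]

theorem push_id (z : Ch k α) : push k (fun x => x) z = z :=
  push_eq_self (𝒜 := Set.univ) (fun _ _ => Finset.image_id') (mem_sup.2 fun _ _ => trivial)

theorem support_push_card (f : α → β) (z : Ch k α) :
    (push k f z).support.card ≤ z.support.card :=
  (Finset.card_le_card Finsupp.mapDomain_support).trans Finset.card_image_le

theorem Bounds.mono {𝒜 𝒜' ℬ ℬ' : Set (Finset α)} (h : Bounds k 𝒜 ℬ) (h1 : 𝒜' ⊆ 𝒜)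
    (h2 : ℬ ⊆ ℬ') : Bounds k 𝒜' ℬ' := by
  intro z hz hb
  obtain ⟨w, hw, e⟩ := h z (sup_mono h1 hz) hb
  exact ⟨w, sup_mono h2 hw, e⟩

theorem bounds_empty (ℬ : Set (Finset α)) : Bounds k ∅ ℬ := by
  intro z hz _
  have : z = 0 := by
    ext σ; by_contra h; exact mem_sup.1 hz σ h
  exact ⟨0, Submodule.zero_mem _, by simp [this]⟩

/-- transport of a filling property along vertex maps `ω`, `ν` with `ν ∘ ω = id`. -/
theorem Bounds.transport {𝒜 ℬ : Set (Finset α)} {𝒜' ℬ' : Set (Finset β)} (ω : α → β) (ν : β → α)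
    (h : Bounds k 𝒜' ℬ') (hω : ∀ σ ∈ 𝒜, σ.image ω ∈ 𝒜') (hνω : ∀ σ ∈ 𝒜, ∀ x ∈ σ, ν (ω x) = x)
    (hν : ∀ σ ∈ ℬ', σ.image ν ∈ ℬ) (hνi : ∀ σ ∈ ℬ', Set.InjOn ν σ) : Bounds k 𝒜 ℬ := by
  intro z hz hb
  have hi : ∀ σ ∈ 𝒜, Set.InjOn ω σ := fun σ hσ x hx y hy e => by
    rw [← hνω σ hσ x hx, e, hνω σ hσ y hy]
  obtain ⟨w, hw, e⟩ := h (push k ω z) (push_mem_sup ω hω hz) (by rw [bd_push ω hi hz, hb, map_zero])
  refine ⟨push k ν w, push_mem_sup ν hν hw, ?_⟩
  rw [bd_push ν hνi hw, e, push_push]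
  refine push_eq_self ?_ hz
  intro σ hσ
  ext x
  simp only [Finset.mem_image, Function.comp]
  constructor
  · rintro ⟨u, hu, rfl⟩; rwa [hνω σ hσ u hu]
  · intro hx; exact ⟨x, hx, hνω σ hσ x hx⟩

/-- coning with the apex `y`. -/
noncomputable def cone (k : Type) [Field k] (y : α) : Ch k α →ₗ[k] Ch k α :=
  Finsupp.linearCombination k fun σ : Finset α =>
    if y ∈ σ then 0 else Finsupp.single (insert y σ) (1 : k)

theorem cone_single (y : α) (σ : Finset α) :
    cone k y (Finsupp.single σ 1) = if y ∈ σ then 0 else Finsupp.single (insert y σ) (1 : k) := by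
  simp [cone, Finsupp.linearCombination_single]

theorem bd_cone_add [CharP k 2] (y : α) (z : Ch k α) : bd k (cone k y z) + cone k y (bd k z) = z := by
  have : (bd k ∘ₗ cone k y + cone k y ∘ₗ bd k : Ch k α →ₗ[k] Ch k α) z =
      (LinearMap.id : Ch k α →ₗ[k] Ch k α) z := by
    refine eq_on_sup (𝒜 := Set.univ) _ _ ?_ (mem_sup.2 fun _ _ => trivial)
    intro σ _
    simp only [LinearMap.add_apply, LinearMap.comp_apply, LinearMap.id_apply, bd_single, map_sum,
      cone_single]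
    by_cases hy : y ∈ σ
    · rw [if_pos hy, map_zero, zero_add, Finset.sum_eq_single y]
      · rw [if_neg (Finset.notMem_erase y σ), Finset.insert_erase hy]
      · intro x _ hxy; rw [if_pos (Finset.mem_erase.2 ⟨Ne.symm hxy, hy⟩)]
      · intro h; exact absurd hy h
    · rw [if_neg hy, bd_single, Finset.sum_insert hy, Finset.erase_insert hy, add_assoc,
        ← Finset.sum_add_distrib]
      rw [Finset.sum_eq_zero, add_zero]
      intro x hx
      rw [if_neg (fun h => hy (Finset.mem_of_mem_erase h)),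
        Finset.erase_insert_of_ne (fun e : y = x => hy (e ▸ hx))]
      exact add_self_ch _
  simpa using this

theorem bounds_of_cone [CharP k 2] {𝒜 ℬ : Set (Finset α)} (y : α)
    (h : ∀ σ ∈ 𝒜, y ∉ σ → insert y σ ∈ ℬ) : Bounds k 𝒜 ℬ := by
  intro z hz hb
  refine ⟨cone k y z, map_mem_of_sup _ _ ?_ hz, ?_⟩
  · intro σ hσ
    rw [cone_single]
    split_ifs with hy
    · exact Submodule.zero_mem _
    · exact single_mem_sup (h σ hσ hy) _
  · have := bd_cone_add y z
    rwa [hb, map_zero, add_zero] at this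

end Crest.Agent.R066
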