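import Crest.Agent.R066.Chain

/-! Row 66: cones, and cochains from chains. -/

set_option autoImplicit false
set_option linter.unusedSectionVars false

namespace Crest.Agent.R066

open Finset

variable {k : Type} [Field k] {α β : Type} [DecidableEq α] [DecidableEq β]

theorem lc_bd_single (c : Finset α → Ch k α) (σ : Finset α) :
    Finsupp.linearCombination k c (bd k (Finsupp.single σ 1)) = ∑ x ∈ σ, c (σ.erase x) := by
  simp [bd_single, map_sum, Finsupp.linearCombination_single]

theorem cone_identity {𝒜 : Set (Finset α)} (c : Finset α → Ch k α)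
    (h : ∀ σ ∈ 𝒜, bd k (c σ) + ∑ x ∈ σ, c (σ.erase x) = Finsupp.single σ 1) {z : Ch k α}
    (hz : z ∈ Sup k 𝒜) :
    bd k (Finsupp.linearCombination k c z) + Finsupp.linearCombination k c (bd k z) = z := by
  have : (bd k ∘ₗ Finsupp.linearCombination k c + Finsupp.linearCombination k c ∘ₗ bd k :
      Ch k α →ₗ[k] Ch k α) z = (LinearMap.id : Ch k α →ₗ[k] Ch k α) z := by
    refine eq_on_sup _ _ ?_ hz
    intro σ hσ
    simp only [LinearMap.add_apply, LinearMap.comp_apply, LinearMap.id_apply, lc_bd_single,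
      Finsupp.linearCombination_single, one_smul]
    exact h σ hσ
  simpa using this

theorem HasCone.bounds [CharP k 2] {Δ : Set (Finset α)} {n R : ℕ} (h : HasCone k Δ n R) {j : ℕ}
    (hj : j ≤ n) : Bounds k (Le Δ j) (Le Δ (j + 1)) := by
  obtain ⟨c, hc⟩ := h
  intro z hz hb
  refine ⟨Finsupp.linearCombination k c z, map_mem_of_sup _ _ ?_ hz, ?_⟩
  · intro σ hσ
    rw [Finsupp.linearCombination_single, one_smul]
    refine sup_mono ?_ (hc σ hσ.1 (hσ.2.trans hj)).1
    intro ρ hρ
    exact ⟨hρ.1, hρ.2.trans (Nat.succ_le_succ hσ.2)⟩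
  · have := cone_identity c (fun σ hσ => (hc σ hσ.1 (hσ.2.trans hj)).2.2) hz
    rwa [hb, map_zero, add_zero] at this

theorem HasCone.mono {Δ : Set (Finset α)} {n R n' R' : ℕ} (h : HasCone k Δ n R) (hn : n' ≤ n)
    (hR : R ≤ R') : HasCone k Δ n' R' := by
  obtain ⟨c, hc⟩ := h
  exact ⟨c, fun σ hσ hs => ⟨(hc σ hσ (hs.trans hn)).1, (hc σ hσ (hs.trans hn)).2.1.trans hR,
    (hc σ hσ (hs.trans hn)).2.2⟩⟩

/-- transport of a cone along vertex maps `ω`, `ν` with `ν ∘ ω = id`. -/
theorem HasCone.transport {Δ : Set (Finset α)} {Δ' : Set (Finset β)} {n R : ℕ} (ω : α → β)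
    (ν : β → α) (h : HasCone k Δ' n R) (hω : ∀ σ ∈ Δ, σ.image ω ∈ Δ')
    (hνω : ∀ σ ∈ Δ, ∀ x ∈ σ, ν (ω x) = x) (hν : ∀ σ ∈ Δ', σ.image ν ∈ Δ)
    (hνi : ∀ σ ∈ Δ', Set.InjOn ν σ) : HasCone k Δ n R := by
  obtain ⟨c, hc⟩ := h
  refine ⟨fun σ => push k ν (c (σ.image ω)), fun σ hσ hs => ?_⟩
  have hi : Set.InjOn ω σ := fun x hx y hy e => by
    rw [← hνω σ hσ x hx, e, hνω σ hσ y hy]
  have hcard : (σ.image ω).card = σ.card := Finset.card_image_of_injOn hi
  obtain ⟨h1, h2, h3⟩ := hc _ (hω σ hσ) (hcard ▸ hs)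
  refine ⟨push_mem_sup ν ?_ h1, (support_push_card _ _).trans h2, ?_⟩
  · intro ρ hρ
    exact ⟨hν ρ hρ.1, Finset.card_image_le.trans (hcard ▸ hρ.2)⟩
  · rw [bd_push ν (fun ρ hρ => hνi ρ hρ.1) h1]
    have e1 : ∑ x ∈ σ, push k ν (c ((σ.erase x).image ω)) =
        push k ν (∑ y ∈ σ.image ω, c ((σ.image ω).erase y)) := by
      rw [map_sum, Finset.sum_image hi]
      apply Finset.sum_congr rfl
      intro x hx
      rw [image_erase_of_injOn hi hx]
    rw [e1, ← map_add, h3, push_single]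
    congr 1
    ext x
    simp only [Finset.mem_image]
    constructor
    · rintro ⟨_, ⟨u, hu, rfl⟩, rfl⟩; rwa [hνω σ hσ u hu]
    · intro hx; exact ⟨_, ⟨x, hx, rfl⟩, hνω σ hσ x hx⟩

/-- the number of vertices needed at each level of the cone construction. -/
def coneN (φ : ℕ → ℕ) : ℕ → ℕ
  | 0 => 0
  | j + 1 => (j + 1) + (j + 1) * φ (coneN φ j)

theorem cone_levels [CharP k 2] {n : ℕ} {φ : ℕ → ℕ} {Δ : Set (Finset α)} (hΔ : Down Δ)
    (h : ∀ j ≤ n, BF k Δ n (coneN φ j) (φ (coneN φ j))) (j : ℕ) (hj : j ≤ n + 1) :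
    ∃ (c : Finset α → Ch k α) (B : Finset α → Finset α), ∀ σ ∈ Δ, σ.card < j →
      c σ ∈ Sup k {ρ | ρ ∈ Le Δ (σ.card + 1) ∧ ρ ⊆ B σ} ∧ (B σ).card ≤ φ (coneN φ σ.card) ∧
        bd k (c σ) + ∑ x ∈ σ, c (σ.erase x) = Finsupp.single σ 1 := by
  induction j with
  | zero => exact ⟨0, fun _ => ∅, fun _ _ h => absurd h (Nat.not_lt_zero _)⟩
  | succ j ih =>
    obtain ⟨c, B, hc⟩ := ih (by omega)
    have key : ∀ σ ∈ Δ, σ.card = j → ∃ (w : Ch k α) (B' : Finset α),
        w ∈ Sup k {ρ | ρ ∈ Le Δ (σ.card + 1) ∧ ρ ⊆ B'} ∧ B'.card ≤ φ (coneN φ σ.card) ∧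
          bd k w + ∑ x ∈ σ, c (σ.erase x) = Finsupp.single σ 1 := by
      intro σ hσ hcard
      have her : ∀ x ∈ σ, σ.erase x ∈ Δ ∧ (σ.erase x).card + 1 = j := fun x hx =>
        ⟨hΔ σ hσ _ (Finset.erase_subset _ _), by rw [Finset.card_erase_add_one hx, hcard]⟩
      have hA : (σ ∪ σ.biUnion fun x => B (σ.erase x)).card ≤ coneN φ j := by
        cases j with
        | zero => rw [Finset.card_eq_zero.1 hcard]; simp
        | succ j =>
          refine (Finset.card_union_le _ _).trans ?_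
          rw [coneN, hcard]
          refine Nat.add_le_add_left (Finset.card_biUnion_le.trans ?_) _
          rw [← hcard, ← smul_eq_mul]
          apply Finset.sum_le_card_nsmul
          intro x hx
          have h1 := (hc _ (her x hx).1 (by have := (her x hx).2; omega)).2.1
          have h2 : (σ.erase x).card = j := by have := (her x hx).2; omega
          rwa [h2] at h1
      obtain ⟨B', hB', hfill⟩ := h j (by omega) j (by omega) _ hA
      obtain ⟨w, hw, hbw⟩ := hfill (Finsupp.single σ 1 + ∑ x ∈ σ, c (σ.erase x)) (by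
        refine Submodule.add_mem _ (single_mem_sup ?_ _) (Submodule.sum_mem _ fun x hx => ?_)
        · exact ⟨⟨hσ, hcard.le⟩, Finset.subset_union_left⟩
        · refine sup_mono ?_ (hc _ (her x hx).1 (by have := (her x hx).2; omega)).1
          rintro ρ ⟨h1, h2⟩
          refine ⟨by rwa [(her x hx).2] at h1, h2.trans ?_⟩
          exact (Finset.subset_biUnion_of_mem (fun x => B (σ.erase x)) hx).trans
            Finset.subset_union_right) (by
        have := cone_identity (𝒜 := {ρ | ρ ∈ Δ ∧ ρ.card < j}) c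
          (fun ρ hρ => (hc ρ hρ.1 hρ.2).2.2) (z := bd k (Finsupp.single σ 1))
          (bd_mem_sup (𝒜 := {σ}) (by
            rintro _ rfl x hx
            exact ⟨(her x hx).1, by have := (her x hx).2; omega⟩) (single_mem_sup (Set.mem_singleton σ) _))
        rw [bd_bd, map_zero, add_zero, lc_bd_single] at this
        rw [map_add, this, add_self_ch])
      refine ⟨w, B', hcard ▸ hw, hcard ▸ hB', ?_⟩
      rw [hbw, add_assoc, add_self_ch, add_zero]
    choose! w B' hw using key
    refine ⟨fun σ => if σ.card = j then w σ else c σ, fun σ => if σ.card = j then B' σ else B σ,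
      fun σ hσ hs => ?_⟩
    have hsum : ∑ x ∈ σ, (if (σ.erase x).card = j then w (σ.erase x) else c (σ.erase x)) =
        ∑ x ∈ σ, c (σ.erase x) := by
      apply Finset.sum_congr rfl
      intro x hx
      rw [if_neg (by have := Finset.card_erase_add_one hx; omega)]
    simp only [hsum]
    by_cases hcard : σ.card = j
    · simp only [if_pos hcard]; exact hw σ hσ hcard
    · simp only [if_neg hcard]; exact hc σ hσ (by omega)

/-- bounded fillings give a bounded cone. -/
theorem cone_of_BF (n : ℕ) (φ : ℕ → ℕ) : ∃ M R : ℕ, ∀ (k : Type) [Field k] [CharP k 2]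
    (α : Type) [DecidableEq α] (Δ : Set (Finset α)), Down Δ → (∀ N ≤ M, BF k Δ n N (φ N)) →
      HasCone k Δ n R := by
  refine ⟨∑ j ∈ range (n + 1), coneN φ j, ∑ j ∈ range (n + 1), 2 ^ φ (coneN φ j), ?_⟩
  intro k _ _ α _ Δ hΔ h
  obtain ⟨c, B, hc⟩ := cone_levels (k := k) (n := n) (φ := φ) hΔ (fun j hj => h _
    (Finset.single_le_sum (f := coneN φ) (fun _ _ => Nat.zero_le _)
      (Finset.mem_range.2 (Nat.lt_succ_of_le hj)))) (n + 1) le_rfl
  refine ⟨c, fun σ hσ hs => ?_⟩
  obtain ⟨h1, h2, h3⟩ := hc σ hσ (Nat.lt_succ_of_le hs)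
  refine ⟨sup_mono (fun ρ hρ => hρ.1) h1, ?_, h3⟩
  calc (c σ).support.card ≤ (B σ).powerset.card := Finset.card_le_card fun ρ hρ =>
        Finset.mem_powerset.2 (mem_sup.1 h1 ρ (Finsupp.mem_support_iff.1 hρ)).2
    _ = 2 ^ (B σ).card := Finset.card_powerset _
    _ ≤ 2 ^ φ (coneN φ σ.card) := Nat.pow_le_pow_right (by norm_num) h2
    _ ≤ _ := Finset.single_le_sum (f := fun j => 2 ^ φ (coneN φ j)) (fun _ _ => Nat.zero_le _)
        (Finset.mem_range.2 (Nat.lt_succ_of_le hs))

theorem exists_factor {M N : Type} [AddCommGroup M] [Module k M] [AddCommGroup N] [Module k N]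
    (P : Submodule k M) (f : M →ₗ[k] N) (L : M →ₗ[k] k) (h : ∀ z ∈ P, f z = 0 → L z = 0) :
    ∃ g : N →ₗ[k] k, ∀ z ∈ P, g (f z) = L z := by
  have hker : (L ∘ₗ P.subtype) ∈ (LinearMap.ker (f ∘ₗ P.subtype)).dualAnnihilator := by
    rw [Submodule.mem_dualAnnihilator]
    rintro ⟨z, hz⟩ hb
    exact h z hz hb
  rw [← LinearMap.range_dualMap_eq_dualAnnihilator_ker] at hker
  obtain ⟨g, hg⟩ := hker
  exact ⟨g, fun z hz => LinearMap.congr_fun hg ⟨z, hz⟩⟩

/-- acyclicity over any field of characteristic two: `ZMod 2` cocycles are coboundaries. -/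
theorem cobd_of_bounds [CharP k 2] {Δ : Set (Finset α)} (hΔ : Down Δ) {j : ℕ}
    (h : Bounds k (Le Δ j) (Le Δ (j + 1))) (f : Finset α → ZMod 2)
    (hf : ∀ τ ∈ Δ, τ.card = j + 1 → cobd f τ = 0) :
    ∃ b : Finset α → ZMod 2, ∀ σ ∈ Δ, σ.card = j → f σ = cobd b σ := by
  let _ : Algebra (ZMod 2) k := ZMod.algebra k 2
  let L : Ch k α →ₗ[k] k := Finsupp.linearCombination k fun σ : Finset α =>
    if σ.card = j then algebraMap (ZMod 2) k (f σ) else 0
  have L_single : ∀ σ : Finset α, L (Finsupp.single σ 1) =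
      if σ.card = j then algebraMap (ZMod 2) k (f σ) else 0 := by
    intro σ; simp [L, Finsupp.linearCombination_single]
  have hker : ∀ z ∈ Sup k (Le Δ j), bd k z = 0 → L z = 0 := by
    intro z hz hb
    obtain ⟨w, hw, e⟩ := h z hz hb
    have : (L ∘ₗ bd k) w = (0 : Ch k α →ₗ[k] k) w := by
      refine eq_on_sup _ _ ?_ hw
      intro τ hτ
      simp only [LinearMap.comp_apply, bd_single, map_sum, L_single, LinearMap.zero_apply]
      by_cases hc : τ.card = j + 1
      · have := congrArg (algebraMap (ZMod 2) k) (hf τ hτ.1 hc)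
        rw [cobd, map_sum, map_zero] at this
        rw [← this]
        apply Finset.sum_congr rfl
        intro x hx
        rw [if_pos (by have := Finset.card_erase_add_one hx; omega)]
      · apply Finset.sum_eq_zero
        intro x hx
        rw [if_neg (by have := Finset.card_erase_add_one hx; omega)]
    simpa [e] using this
  obtain ⟨g, hg⟩ := exists_factor _ _ _ hker
  obtain ⟨r, hr⟩ := (Algebra.linearMap (ZMod 2) k).exists_leftInverse_of_injective
    (LinearMap.ker_eq_bot.2 (algebraMap (ZMod 2) k).injective)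
  refine ⟨fun σ => r (g (Finsupp.single σ 1)), fun σ hσ hc => ?_⟩
  have h1 := hg (Finsupp.single σ 1) (single_mem_sup (show _ ∈ Le Δ j from ⟨hσ, hc.le⟩) _)
  rw [bd_single, map_sum, L_single, if_pos hc] at h1
  rw [cobd, ← map_sum, h1]
  exact (LinearMap.congr_fun hr (f σ)).symm

/-- acyclicity in degree zero is connectivity. -/
theorem const_of_bounds [CharP k 2] {Δ : Set (Finset α)} (h : Bounds k (Le Δ 1) (Le Δ 2))
    {M : Type} (f : α → M) (hf : ∀ x y, {x, y} ∈ Δ → f x = f y) {x y : α} (hx : {x} ∈ Δ)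
    (hy : {y} ∈ Δ) : f x = f y := by
  classical
  let L : Ch k α →ₗ[k] k := Finsupp.linearCombination k fun σ : Finset α =>
    if σ.card = 1 then ∑ u ∈ σ, if f u = f x then 1 else 0 else 0
  have L_single : ∀ σ : Finset α, L (Finsupp.single σ 1) =
      if σ.card = 1 then ∑ u ∈ σ, if f u = f x then 1 else 0 else 0 := by
    intro σ; simp only [L, Finsupp.linearCombination_single, one_smul]
  obtain ⟨w, hw, e⟩ := h (Finsupp.single {x} 1 + Finsupp.single {y} 1)
    (Submodule.add_mem _ (single_mem_sup (show _ ∈ Le Δ 1 from ⟨hx, by simp⟩) _)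
      (single_mem_sup (show _ ∈ Le Δ 1 from ⟨hy, by simp⟩) _))
    (by simp [bd_single, add_self_ch])
  have : (L ∘ₗ bd k) w = (0 : Ch k α →ₗ[k] k) w := by
    refine eq_on_sup _ _ ?_ hw
    intro τ hτ
    simp only [LinearMap.comp_apply, bd_single, map_sum, L_single, LinearMap.zero_apply]
    by_cases hc : τ.card = 2
    · obtain ⟨u, v, huv, rfl⟩ := Finset.card_eq_two.1 hc
      have h1 : ({u, v} : Finset α).erase u = {v} := by
        ext a; simp only [Finset.mem_erase, Finset.mem_insert, Finset.mem_singleton]; grind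
      have h2 : ({u, v} : Finset α).erase v = {u} := by
        ext a; simp only [Finset.mem_erase, Finset.mem_insert, Finset.mem_singleton]; grind
      rw [Finset.sum_pair huv, h1, h2]
      simp only [Finset.card_singleton, if_true, Finset.sum_singleton, hf u v hτ.1,
        CharTwo.add_self_eq_zero]
    · apply Finset.sum_eq_zero
      intro a ha
      rw [if_neg (by have := Finset.card_erase_add_one ha; omega)]
  simp only [LinearMap.comp_apply, e, map_add, L_single, LinearMap.zero_apply] at this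
  by_contra hne
  simp only [Finset.card_singleton, if_true, Finset.sum_singleton, if_neg (Ne.symm hne),
    add_zero] at this
  exact one_ne_zero this

end Crest.Agent.R066
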