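import Crest.Agent.R066.Chain
import Crest.Agent.R066.Avg

/-! Row 66: basic facts on coset complexes. -/

set_option autoImplicit false
set_option linter.unusedSectionVars false

namespace Crest.Agent.R066

open Finset

variable {G : Type} [Group G] {ι : Type} [DecidableEq ι] (K : ι → Subgroup G)

theorem smul_vtx (h : G) (i : ι) (g : G) : h • vtx K i g = vtx K i (h * g) := rfl

theorem vtx_fst (i : ι) (g : G) : (vtx K i g).1 = i := rfl

theorem smul_fst (h : G) (x : Vtx K) : (h • x).1 = x.1 := by
  obtain ⟨i, q⟩ := x; rfl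

theorem exists_vtx (x : Vtx K) : ∃ g, x = vtx K x.1 g := by
  obtain ⟨i, q⟩ := x
  obtain ⟨g, rfl⟩ := QuotientGroup.mk_surjective q
  exact ⟨g, rfl⟩

theorem vtx_eq_iff {i : ι} {g h : G} : vtx K i g = vtx K i h ↔ g⁻¹ * h ∈ K i := by
  rw [← QuotientGroup.eq]
  constructor
  · intro e
    exact eq_of_heq (Sigma.mk.inj e).2
  · intro e; simp only [vtx, e]

theorem vtx_eq_iff' {i j : ι} {g h : G} : vtx K i g = vtx K j h ↔ i = j ∧ g⁻¹ * h ∈ K i := by
  constructor
  · intro e
    have : i = j := congrArg Sigma.fst e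
    subst this
    exact ⟨rfl, (vtx_eq_iff K).1 e⟩
  · rintro ⟨rfl, e⟩; exact (vtx_eq_iff K).2 e

theorem vtx_mul_mem {i : ι} (g : G) {h : G} (hh : h ∈ K i) : vtx K i (g * h) = vtx K i g := by
  rw [eq_comm, vtx_eq_iff]; simpa using hh

theorem mem_face {g : G} {J : Finset ι} {x : Vtx K} : x ∈ face K g J ↔ ∃ i ∈ J, x = vtx K i g := by
  simp only [face, Finset.mem_image, eq_comm]

theorem mem_face' {g : G} {J : Finset ι} {x : Vtx K} :
    x ∈ face K g J ↔ x.1 ∈ J ∧ x = vtx K x.1 g := by
  rw [mem_face]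
  constructor
  · rintro ⟨i, hi, rfl⟩; exact ⟨hi, rfl⟩
  · rintro ⟨h, e⟩; exact ⟨_, h, e⟩

theorem vtx_mem_face {g : G} {J : Finset ι} {i : ι} (hi : i ∈ J) : vtx K i g ∈ face K g J :=
  (mem_face K).2 ⟨i, hi, rfl⟩

theorem vtx_injective (g : G) : Function.Injective (fun i => vtx K i g) :=
  fun _ _ e => congrArg Sigma.fst e

theorem card_face (g : G) (J : Finset ι) : (face K g J).card = J.card :=
  Finset.card_image_of_injective _ (vtx_injective K g)

theorem image_fst_face (g : G) (J : Finset ι) : (face K g J).image (fun x => x.1) = J := by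
  simp [face, Finset.image_image, Function.comp_def, vtx_fst]

theorem image_smul_face (h g : G) (J : Finset ι) :
    (face K g J).image (fun x => h • x) = face K (h * g) J := by
  simp [face, Finset.image_image, Function.comp_def, smul_vtx]

theorem face_empty (g : G) : face K g ∅ = ∅ := by simp [face]

theorem face_insert (g : G) (i : ι) (J : Finset ι) :
    face K g (insert i J) = insert (vtx K i g) (face K g J) := by simp [face]

theorem face_union (g : G) (I J : Finset ι) : face K g (I ∪ J) = face K g I ∪ face K g J := by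
  simp [face, Finset.image_union]

theorem face_erase (g : G) (i : ι) (J : Finset ι) :
    face K g (J.erase i) = (face K g J).erase (vtx K i g) := by
  simp only [face]; exact Finset.image_erase (vtx_injective K g) J i

theorem face_mono (g : G) {I J : Finset ι} (h : I ⊆ J) : face K g I ⊆ face K g J :=
  Finset.image_subset_image h

theorem face_eq_iff {g h : G} {I J : Finset ι} :
    face K g I = face K h J ↔ I = J ∧ ∀ i ∈ I, g⁻¹ * h ∈ K i := by
  constructor
  · intro e
    have hIJ : I = J := by rw [← image_fst_face K g I, e, image_fst_face]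
    subst hIJ
    refine ⟨rfl, fun i hi => ?_⟩
    have := vtx_mem_face K (g := g) hi
    rw [e, mem_face'] at this
    exact (vtx_eq_iff K).1 this.2
  · rintro ⟨rfl, e⟩
    exact Finset.image_congr fun i hi => (vtx_eq_iff K).2 (e i hi)

theorem subset_face {g : G} {J : Finset ι} {σ : Finset (Vtx K)} (h : σ ⊆ face K g J) :
    σ = face K g (σ.image fun x => x.1) ∧ σ.image (fun x => x.1) ⊆ J := by
  constructor
  · ext x
    rw [mem_face']
    constructor
    · intro hx; exact ⟨Finset.mem_image_of_mem _ hx, ((mem_face' K).1 (h hx)).2⟩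
    · rintro ⟨hx, e⟩
      obtain ⟨y, hy, hyx⟩ := Finset.mem_image.1 hx
      rw [e, ← hyx, ← ((mem_face' K).1 (h hy)).2]; exact hy
  · intro i hi
    obtain ⟨y, hy, rfl⟩ := Finset.mem_image.1 hi
    exact ((mem_face' K).1 (h hy)).1

theorem Cx_down (H : Set G) (D : Finset ι) : Down (Cx K H D) := by
  rintro _ ⟨g, hg, J, hJ, rfl⟩ τ hτ
  exact ⟨g, hg, _, (subset_face K hτ).2.trans hJ, (subset_face K hτ).1⟩

theorem face_mem_Cx {H : Set G} {D : Finset ι} {g : G} (hg : g ∈ H) {J : Finset ι} (hJ : J ⊆ D) :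
    face K g J ∈ Cx K H D := ⟨g, hg, J, hJ, rfl⟩

theorem Cx_mono {H H' : Set G} {D D' : Finset ι} (h : H ⊆ H') (hD : D ⊆ D') :
    Cx K H D ⊆ Cx K H' D' := by
  rintro _ ⟨g, hg, J, hJ, rfl⟩
  exact ⟨g, h hg, J, hJ.trans hD, rfl⟩

theorem fst_injOn_of_mem_Cx {H : Set G} {D : Finset ι} {σ : Finset (Vtx K)} (h : σ ∈ Cx K H D) :
    Set.InjOn (fun x : Vtx K => x.1) σ := by
  obtain ⟨g, _, J, _, rfl⟩ := h
  intro x hx y hy e
  rw [((mem_face' K).1 hx).2, ((mem_face' K).1 hy).2]
  simp only at e
  rw [e]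

/-- the action of a group element on chains. -/
noncomputable def act (k : Type) [Field k] {α : Type} [DecidableEq α] [MulAction G α] (g : G) :
    Ch k α →ₗ[k] Ch k α := push k (fun x => g • x)

section act
variable {k : Type} [Field k] {α : Type} [DecidableEq α] [MulAction G α]

theorem bd_act (g : G) (z : Ch k α) : bd k (act k g z) = act k g (bd k z) :=
  bd_push_of_injective (MulAction.injective g) z

theorem act_act (g h : G) (z : Ch k α) : act k g (act k h z) = act k (g * h) z := by
  simp only [act, push_push, Function.comp_def, mul_smul]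

theorem act_one (z : Ch k α) : act k (1 : G) z = z := by
  simp only [act, one_smul]; exact push_id z

theorem act_single (g : G) (σ : Finset α) (a : k) :
    act k g (Finsupp.single σ a) = Finsupp.single (σ.image fun x => g • x) a := push_single _ _ _

/-- translate a filling property by a group element. -/
theorem Bounds.smul {𝒜 ℬ 𝒜' ℬ' : Set (Finset α)} (g : G) (h : Bounds k 𝒜' ℬ')
    (h1 : ∀ σ ∈ 𝒜, σ.image (fun x => g⁻¹ • x) ∈ 𝒜') (h2 : ∀ σ ∈ ℬ', σ.image (fun x => g • x) ∈ ℬ) :
    Bounds k 𝒜 ℬ :=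
  h.transport (fun x => g⁻¹ • x) (fun x => g • x) h1 (fun _ _ x _ => smul_inv_smul g x) h2
    (fun _ _ => (MulAction.injective g).injOn)

end act

end Crest.Agent.R066
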