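import Crest.Agent.R066.Push

/-! Row 66: the double complex argument. -/

set_option autoImplicit false
set_option linter.unusedSectionVars false

namespace Crest.Agent.R066

open Finset

variable {k : Type} [Field k] [CharP k 2] {α β : Type} [DecidableEq α] [DecidableEq β]

/-- the join complex attached to a relation. -/
def JoinCx (X : Set (Finset α)) (Y : Set (Finset β)) (r : α → β → Prop) : Set (Finset (α ⊕ β)) :=
  {ρ | ρ.toLeft ∈ X ∧ ρ.toRight ∈ Y ∧ ∀ x ∈ ρ.toLeft, ∀ y ∈ ρ.toRight, r x y}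

theorem card_toLeft_add (ρ : Finset (α ⊕ β)) : ρ.toLeft.card + ρ.toRight.card = ρ.card :=
  Finset.card_toLeft_add_card_toRight

open Classical in
theorem filter_isLeft (ρ : Finset (α ⊕ β)) :
    (ρ.filter (· ∈ Set.range (Sum.inl : α → α ⊕ β))).card = ρ.toLeft.card := by
  rw [← Finset.card_map (⟨Sum.inl, Sum.inl_injective⟩ : α ↪ α ⊕ β) (s := ρ.toLeft)]
  congr 1
  ext (x | y) <;> simp

open Classical in
theorem filter_isRight (ρ : Finset (α ⊕ β)) :
    (ρ.filter (· ∈ Set.range (Sum.inr : β → α ⊕ β))).card = ρ.toRight.card := by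
  rw [← Finset.card_map (⟨Sum.inr, Sum.inr_injective⟩ : β ↪ α ⊕ β) (s := ρ.toRight)]
  congr 1
  ext (x | y) <;> simp

theorem toLeft_image_inl (σ : Finset α) : (σ.image (Sum.inl : α → α ⊕ β)).toLeft = σ := by
  ext x; simp

theorem toRight_image_inl (σ : Finset α) : (σ.image (Sum.inl : α → α ⊕ β)).toRight = ∅ := by
  ext x; simp

theorem toLeft_image_inr (σ : Finset β) : (σ.image (Sum.inr : β → α ⊕ β)).toLeft = ∅ := by
  ext x; simp

theorem toRight_image_inr (σ : Finset β) : (σ.image (Sum.inr : β → α ⊕ β)).toRight = σ := by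
  ext x; simp

theorem eq_image_inl {ρ : Finset (α ⊕ β)} (h : ρ.toRight = ∅) : ρ = ρ.toLeft.image Sum.inl := by
  ext (x | y)
  · simp
  · have : y ∉ ρ.toRight := by simp [h]
    simpa using this

theorem eq_image_inr {ρ : Finset (α ⊕ β)} (h : ρ.toLeft = ∅) : ρ = ρ.toRight.image Sum.inr := by
  ext (x | y)
  · have : x ∉ ρ.toLeft := by simp [h]
    simpa using this
  · simp

/-- a filling property, pushed forward along an injective map. -/
theorem Bounds.image {γ : Type} [DecidableEq γ] {f : α → γ} (hf : Function.Injective f)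
    {𝒜 ℬ : Set (Finset α)} (h : Bounds k 𝒜 ℬ) :
    Bounds k ((Finset.image f) '' 𝒜) ((Finset.image f) '' ℬ) := by
  intro z hz hb
  have hz' : ∃ z' ∈ Sup k 𝒜, push k f z' = z := by
    refine sup_induction (P := fun z => ∃ z' ∈ Sup k 𝒜, push k f z' = z)
      ⟨0, Submodule.zero_mem _, map_zero _⟩ ?_ ?_ hz
    · rintro _ _ ⟨x, hx, rfl⟩ ⟨y, hy, rfl⟩
      exact ⟨x + y, Submodule.add_mem _ hx hy, map_add _ _ _⟩
    · rintro _ ⟨σ, hσ, rfl⟩ a
      exact ⟨_, single_mem_sup hσ a, push_single _ _ _⟩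
  obtain ⟨z', hz', rfl⟩ := hz'
  rw [bd_push_of_injective hf] at hb
  have hinj : Function.Injective (push k f) :=
    Finsupp.mapDomain_injective (Finset.image_injective hf)
  obtain ⟨w, hw, e⟩ := h z' hz' (hinj (by rw [hb, map_zero]))
  exact ⟨push k f w, push_mem_sup f (fun σ hσ => Set.mem_image_of_mem _ hσ) hw, by
    rw [bd_push_of_injective hf, e]⟩

theorem Bounds.of_image {γ : Type} [DecidableEq γ] {f : α → γ} (hf : Function.Injective f)
    {𝒜 ℬ : Set (Finset α)} (h : Bounds k ((Finset.image f) '' 𝒜) ((Finset.image f) '' ℬ)) :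
    Bounds k 𝒜 ℬ := by
  intro z hz hb
  obtain ⟨w, hw, e⟩ := h (push k f z) (push_mem_sup f (fun σ hσ => Set.mem_image_of_mem _ hσ) hz)
    (by rw [bd_push_of_injective hf, hb, map_zero])
  have hw' : ∃ w' ∈ Sup k ℬ, push k f w' = w := by
    refine sup_induction (P := fun z => ∃ z' ∈ Sup k ℬ, push k f z' = z)
      ⟨0, Submodule.zero_mem _, map_zero _⟩ ?_ ?_ hw
    · rintro _ _ ⟨x, hx, rfl⟩ ⟨y, hy, rfl⟩
      exact ⟨x + y, Submodule.add_mem _ hx hy, map_add _ _ _⟩
    · rintro _ ⟨σ, hσ, rfl⟩ a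
      exact ⟨_, single_mem_sup hσ a, push_single _ _ _⟩
  obtain ⟨w', hw', rfl⟩ := hw'
  rw [bd_push_of_injective hf] at e
  exact ⟨w', hw', Finsupp.mapDomain_injective (Finset.image_injective hf) e⟩

theorem cover_phase1 {X : Set (Finset α)} {Y : Set (Finset β)} (hX : Down X)
    (r : α → β → Prop) (n : ℕ)
    (h1 : ∀ σ ∈ X, ∀ j, σ.card + j ≤ n →
      Bounds k (Le {τ | τ ∈ Y ∧ ∀ x ∈ σ, ∀ y ∈ τ, r x y} j)
        (Le {τ | τ ∈ Y ∧ ∀ x ∈ σ, ∀ y ∈ τ, r x y} (j + 1))) (m : ℕ) :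
    Bounds k {ρ | ρ ∈ Le (JoinCx X Y r) n ∧ ρ.toLeft.card < m} (Le (JoinCx X Y r) (n + 1)) := by
  classical
  induction m with
  | zero => exact (bounds_empty _).mono (fun ρ h => absurd h.2 (Nat.not_lt_zero _)) subset_rfl
  | succ m ih =>
    intro z hz hb
    obtain ⟨u, hu, hu'⟩ := pushoff (k := k) (Set.range (Sum.inl : α → α ⊕ β)) m
      {ρ | ρ ∈ Le (JoinCx X Y r) n ∧ ρ.toLeft.card < m + 1}
      (fun τ => {ρ | τ.toLeft ∈ X ∧ m ≤ n ∧ ρ ∈ (Finset.image (Sum.inr : β → α ⊕ β)) ''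
        Le {τ' | τ' ∈ Y ∧ ∀ x ∈ τ.toLeft, ∀ y ∈ τ', r x y} (n - m + 1)})
      (fun σ hσ => by rw [filter_isLeft]; exact Nat.lt_succ_iff.1 hσ.2)
      (by rintro τ _ ⟨_, _, σ, _, rfl⟩ x hx; obtain ⟨y, _, rfl⟩ := Finset.mem_image.1 hx; simp)
      (by
        intro τ hτ hcard
        have hR : τ.toRight = ∅ := by
          ext y; simp only [Finset.mem_toRight, Finset.notMem_empty, iff_false]
          intro hy; simpa using hτ _ hy
        have hLc : τ.toLeft.card = m := by rw [← hcard, ← card_toLeft_add τ, hR]; simp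
        by_cases hc : τ.toLeft ∈ X ∧ m ≤ n
        · refine (h1 _ hc.1 (n - m) (by omega)).image Sum.inr_injective |>.mono ?_ ?_
          · rintro σ ⟨hσ, ⟨⟨hl, hr, hrel⟩, hcd⟩, _⟩
            have hL : σ.toLeft = ∅ := by
              ext y; simp only [Finset.mem_toLeft, Finset.notMem_empty, iff_false]
              intro hy; simpa using hσ _ hy
            rw [← card_toLeft_add] at hcd
            simp only [Finset.toLeft_union, Finset.toRight_union, hL, hR, Finset.union_empty,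
              Finset.empty_union] at hl hr hrel hcd
            exact ⟨σ.toRight, ⟨⟨hr, hrel⟩, by omega⟩, (eq_image_inr hL).symm⟩
          · intro ρ hρ; exact ⟨hc.1, hc.2, hρ⟩
        · refine (bounds_empty _).mono ?_ subset_rfl
          rintro σ ⟨_, ⟨⟨hl, _, _⟩, hcd⟩, _⟩
          apply hc
          refine ⟨hX _ hl _ (by rw [Finset.toLeft_union]; exact Finset.subset_union_left), ?_⟩
          exact hcard ▸ (Finset.card_le_card Finset.subset_union_left).trans hcd)
      hz (by rw [hb]; exact Submodule.zero_mem _)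
    have hfacts : ∀ τ : Finset (α ⊕ β), (∀ x ∈ τ, x ∈ Set.range (Sum.inl : α → α ⊕ β)) →
        τ.toRight = ∅ := by
      intro τ hτ
      ext y; simp only [Finset.mem_toRight, Finset.notMem_empty, iff_false]
      intro hy; simpa using hτ _ hy
    refine (ih (z + bd k u) (sup_mono ?_ hu') (by rw [map_add, hb, bd_bd, add_zero])).elim ?_
    swap
    · rintro w ⟨hw, e⟩
      refine ⟨w + u, Submodule.add_mem _ hw (sup_mono ?_ hu), by
        rw [map_add, e, add_assoc, add_self_ch, add_zero]⟩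
      rintro _ ⟨τ, hτ, hcard, _, ⟨hl, hmn, σ, ⟨⟨hY, hrel⟩, hcd⟩, rfl⟩, rfl⟩
      refine ⟨⟨?_, ?_, ?_⟩, ?_⟩
      · simpa [Finset.toLeft_union, toLeft_image_inr] using hl
      · simpa [Finset.toRight_union, toRight_image_inr, hfacts τ hτ] using hY
      · simpa [Finset.toLeft_union, toLeft_image_inr, Finset.toRight_union, toRight_image_inr,
          hfacts τ hτ] using hrel
      · refine (Finset.card_union_le _ _).trans ?_
        have := Finset.card_image_le (s := σ) (f := (Sum.inr : β → α ⊕ β))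
        omega
    · rintro ρ (⟨h, h'⟩ | ⟨τ, hτ, hcard, _, ⟨hl, hmn, σ, ⟨⟨hY, hrel⟩, hcd⟩, rfl⟩, x, hx, rfl⟩)
      · exact ⟨h.1, by rwa [filter_isLeft] at h'⟩
      · have hR := hfacts (τ.erase x) (fun y hy => hτ y (Finset.mem_of_mem_erase hy))
        have hsub : (τ.erase x).toLeft ⊆ τ.toLeft := Finset.toLeft_subset_toLeft (Finset.erase_subset _ _)
        have hce := Finset.card_erase_add_one hx
        refine ⟨⟨⟨?_, ?_, ?_⟩, ?_⟩, ?_⟩
        · simpa [Finset.toLeft_union, toLeft_image_inr] using hX _ hl _ hsub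
        · simpa [Finset.toRight_union, toRight_image_inr, hR] using hY
        · simp only [Finset.toLeft_union, toLeft_image_inr, Finset.toRight_union,
            toRight_image_inr, hR, Finset.union_empty, Finset.empty_union]
          exact fun a ha b hb => hrel a (hsub ha) b hb
        · refine (Finset.card_union_le _ _).trans ?_
          have := Finset.card_image_le (s := σ) (f := (Sum.inr : β → α ⊕ β))
          omega
        · simp only [Finset.toLeft_union, toLeft_image_inr, Finset.union_empty]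
          have := card_toLeft_add (τ.erase x)
          omega

theorem cover_phase2 {X : Set (Finset α)} {Y : Set (Finset β)} (hY : Down Y)
    (r : α → β → Prop) (n : ℕ)
    (h2 : ∀ τ ∈ Y, 2 ≤ τ.card → ∀ j, τ.card + j ≤ n + 1 →
      Bounds k (Le {σ | σ ∈ X ∧ ∀ x ∈ σ, ∀ y ∈ τ, r x y} j)
        (Le {σ | σ ∈ X ∧ ∀ x ∈ σ, ∀ y ∈ τ, r x y} (j + 1))) (m : ℕ) :
    ∀ w ∈ Sup k {ρ | ρ ∈ Le (JoinCx X Y r) (n + 1) ∧ ρ.toRight.card < m + 2},
      bd k w ∈ Sup k {ρ | ρ.toRight = ∅} →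
      ∃ w' ∈ Sup k {ρ | ρ ∈ Le (JoinCx X Y r) (n + 1) ∧ ρ.toRight.card < 2}, bd k w' = bd k w := by
  classical
  induction m with
  | zero => intro w hw _; exact ⟨w, hw, rfl⟩
  | succ m ih =>
    intro z hz hb
    obtain ⟨u, -, hu'⟩ := pushoff (k := k) (Set.range (Sum.inr : β → α ⊕ β)) (m + 2)
      {ρ | ρ ∈ Le (JoinCx X Y r) (n + 1) ∧ ρ.toRight.card < m + 1 + 2}
      (fun τ => {ρ | τ.toRight ∈ Y ∧ m + 2 ≤ n + 1 ∧ ρ ∈ (Finset.image (Sum.inl : α → α ⊕ β)) ''
        Le {σ | σ ∈ X ∧ ∀ x ∈ σ, ∀ y ∈ τ.toRight, r x y} (n + 1 - (m + 2) + 1)})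
      (fun σ hσ => by rw [filter_isRight]; exact Nat.lt_succ_iff.1 hσ.2)
      (by rintro τ _ ⟨_, _, σ, _, rfl⟩ x hx; obtain ⟨y, _, rfl⟩ := Finset.mem_image.1 hx; simp)
      (by
        intro τ hτ hcard
        have hR : τ.toLeft = ∅ := by
          ext y; simp only [Finset.mem_toLeft, Finset.notMem_empty, iff_false]
          intro hy; simpa using hτ _ hy
        have hLc : τ.toRight.card = m + 2 := by rw [← hcard, ← card_toLeft_add τ, hR]; simp
        by_cases hc : τ.toRight ∈ Y ∧ m + 2 ≤ n + 1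
        · refine (h2 _ hc.1 (by omega) (n + 1 - (m + 2)) (by omega)).image Sum.inl_injective
            |>.mono ?_ ?_
          · rintro σ ⟨hσ, ⟨⟨hl, hr, hrel⟩, hcd⟩, _⟩
            have hL : σ.toRight = ∅ := by
              ext y; simp only [Finset.mem_toRight, Finset.notMem_empty, iff_false]
              intro hy; simpa using hσ _ hy
            rw [← card_toLeft_add] at hcd
            simp only [Finset.toLeft_union, Finset.toRight_union, hL, hR, Finset.union_empty,
              Finset.empty_union] at hl hr hrel hcd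
            exact ⟨σ.toLeft, ⟨⟨hl, hrel⟩, by omega⟩, (eq_image_inl hL).symm⟩
          · intro ρ hρ; exact ⟨hc.1, hc.2, hρ⟩
        · refine (bounds_empty _).mono ?_ subset_rfl
          rintro σ ⟨_, ⟨⟨_, hl, _⟩, hcd⟩, _⟩
          apply hc
          refine ⟨hY _ hl _ (by rw [Finset.toRight_union]; exact Finset.subset_union_left), ?_⟩
          exact hcard ▸ (Finset.card_le_card Finset.subset_union_left).trans hcd)
      hz (sup_mono (fun ρ hρ => by
        have : ρ.toRight = ∅ := hρ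
        rw [Set.mem_ofPred_eq, filter_isRight, this]; simp) hb)
    have hfacts : ∀ τ : Finset (α ⊕ β), (∀ x ∈ τ, x ∈ Set.range (Sum.inr : β → α ⊕ β)) →
        τ.toLeft = ∅ := by
      intro τ hτ
      ext y; simp only [Finset.mem_toLeft, Finset.notMem_empty, iff_false]
      intro hy; simpa using hτ _ hy
    have e0 : bd k (z + bd k u) = bd k z := by rw [map_add, bd_bd, add_zero]
    refine (ih (z + bd k u) (sup_mono ?_ hu') (by rwa [e0])).elim ?_
    swap
    · rintro w ⟨hw, e⟩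
      exact ⟨w, hw, e.trans e0⟩
    · rintro ρ (⟨h, h'⟩ | ⟨τ, hτ, hcard, _, ⟨hl, hmn, σ, ⟨⟨hX, hrel⟩, hcd⟩, rfl⟩, x, hx, rfl⟩)
      · exact ⟨h.1, by rwa [filter_isRight] at h'⟩
      · have hR := hfacts (τ.erase x) (fun y hy => hτ y (Finset.mem_of_mem_erase hy))
        have hsub : (τ.erase x).toRight ⊆ τ.toRight :=
          Finset.toRight_subset_toRight (Finset.erase_subset _ _)
        have hce := Finset.card_erase_add_one hx
        refine ⟨⟨⟨?_, ?_, ?_⟩, ?_⟩, ?_⟩
        · simpa [Finset.toLeft_union, toLeft_image_inl, hR] using hX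
        · simpa [Finset.toRight_union, toRight_image_inl] using hY _ hl _ hsub
        · simp only [Finset.toLeft_union, toLeft_image_inl, Finset.toRight_union,
            toRight_image_inl, hR, Finset.union_empty, Finset.empty_union]
          exact fun a ha b hb => hrel a ha b (hsub hb)
        · refine (Finset.card_union_le _ _).trans ?_
          have := Finset.card_image_le (s := σ) (f := (Sum.inl : α → α ⊕ β))
          omega
        · simp only [Finset.toRight_union, toRight_image_inl, Finset.union_empty]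
          have := card_toLeft_add (τ.erase x)
          omega

theorem bounds_of_cover {X : Set (Finset α)} {Y : Set (Finset β)} (hX : Down X) (hY : Down Y)
    (hY0 : ∅ ∈ Y) (r : α → β → Prop) (n : ℕ)
    (h1 : ∀ σ ∈ X, ∀ j, σ.card + j ≤ n →
      Bounds k (Le {τ | τ ∈ Y ∧ ∀ x ∈ σ, ∀ y ∈ τ, r x y} j)
        (Le {τ | τ ∈ Y ∧ ∀ x ∈ σ, ∀ y ∈ τ, r x y} (j + 1)))
    (h2 : ∀ τ ∈ Y, 2 ≤ τ.card → ∀ j, τ.card + j ≤ n + 1 →
      Bounds k (Le {σ | σ ∈ X ∧ ∀ x ∈ σ, ∀ y ∈ τ, r x y} j)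
        (Le {σ | σ ∈ X ∧ ∀ x ∈ σ, ∀ y ∈ τ, r x y} (j + 1)))
    (h3 : ∀ y, {y} ∈ Y → Bounds k (Le {σ | σ ∈ X ∧ ∀ x ∈ σ, r x y} n) (Le X (n + 1))) :
    Bounds k (Le X n) (Le X (n + 1)) := by
  refine Bounds.of_image (f := (Sum.inl : α → α ⊕ β)) Sum.inl_injective ?_
  intro z hz hb
  have hzR : z ∈ Sup k {ρ : Finset (α ⊕ β) | ρ.toRight = ∅} :=
    sup_mono (by rintro _ ⟨σ, _, rfl⟩; exact toRight_image_inl σ) hz
  obtain ⟨w, hw, e⟩ := cover_phase1 (k := k) hX r n h1 (n + 1) z (sup_mono (by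
    rintro _ ⟨σ, hσ, rfl⟩
    refine ⟨⟨⟨?_, ?_, ?_⟩, Finset.card_image_le.trans hσ.2⟩, ?_⟩
    · rw [toLeft_image_inl]; exact hσ.1
    · rw [toRight_image_inl]; exact hY0
    · rw [toRight_image_inl]; simp
    · rw [toLeft_image_inl]; exact Nat.lt_succ_of_le hσ.2) hz) hb
  obtain ⟨w', hw', e'⟩ := cover_phase2 (k := k) hY r n h2 n w (sup_mono (by
    intro ρ hρ
    refine ⟨hρ, ?_⟩
    have := card_toLeft_add ρ
    have := hρ.2
    omega) hw) (by rwa [e])
  obtain ⟨u, -, hu'⟩ := pushoff_one (k := k) (Set.range (Sum.inr : β → α ⊕ β))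
    {ρ | ρ ∈ Le (JoinCx X Y r) (n + 1) ∧ ρ.toRight.card < 2}
    (fun _ => (Finset.image (Sum.inl : α → α ⊕ β)) '' Le X (n + 1))
    (by
      rintro σ hσ _ hx _ hy ⟨x, rfl⟩ ⟨y, rfl⟩
      rw [Finset.card_le_one.1 (Nat.lt_succ_iff.1 hσ.2) x (Finset.mem_toRight.2 hx) y
        (Finset.mem_toRight.2 hy)])
    (by rintro _ _ _ ⟨σ, _, rfl⟩ x hx; obtain ⟨y, _, rfl⟩ := Finset.mem_image.1 hx; simp)
    (by
      rintro _ ⟨y, rfl⟩
      have key : ∀ σ : Finset (α ⊕ β), (∀ x ∈ σ, x ∉ Set.range (Sum.inr : β → α ⊕ β)) →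
          σ.toRight = ∅ := by
        intro σ hσ
        ext y; simp only [Finset.mem_toRight, Finset.notMem_empty, iff_false]
        intro hy; simpa using hσ _ hy
      by_cases hy : {y} ∈ Y
      · refine ((h3 y hy).image Sum.inl_injective).mono ?_ subset_rfl
        rintro σ ⟨hσ, ⟨⟨hl, _, hrel⟩, hcd⟩, _⟩
        have hR := key σ hσ
        rw [← card_toLeft_add] at hcd
        simp only [Finset.toLeft_insert_inr, Finset.toRight_insert_inr, hR] at hl hrel hcd
        refine ⟨σ.toLeft, ⟨⟨hl, fun x hx => hrel x hx y (by simp)⟩, ?_⟩, (eq_image_inl hR).symm⟩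
        simp at hcd; omega
      · refine (bounds_empty _).mono ?_ subset_rfl
        rintro σ ⟨hσ, ⟨⟨_, hr, _⟩, _⟩, _⟩
        apply hy
        simpa [Finset.toRight_insert_inr, key σ hσ] using hr)
    hw' (by
      rw [e', e]
      refine sup_mono ?_ hzR
      rintro ρ hρ _ hx ⟨y, rfl⟩
      have : y ∈ ρ.toRight := Finset.mem_toRight.2 hx
      rw [show ρ.toRight = ∅ from hρ] at this
      simp at this)
  refine ⟨w' + bd k u, sup_mono ?_ hu', by rw [map_add, bd_bd, add_zero, e', e]⟩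
  rintro ρ (⟨⟨⟨⟨hl, _, _⟩, hcd⟩, _⟩, h⟩ | ⟨_, _, h⟩)
  · have hR : ρ.toRight = ∅ := by
      ext y; simp only [Finset.mem_toRight, Finset.notMem_empty, iff_false]
      intro hy; simpa using h _ hy
    refine ⟨ρ.toLeft, ⟨hl, ?_⟩, (eq_image_inl hR).symm⟩
    have := card_toLeft_add ρ
    omega
  · exact h

end Crest.Agent.R066
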