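import Crest.Agent.R066.LinkExp

/-! Row 66: small locally minimal cocycles vanish, and coboundary expansion in Hamming form. -/

set_option autoImplicit false
set_option linter.unusedSectionVars false

namespace Crest.Agent.R066

open Finset

section aux
variable {G : Type} [Group G] [Fintype G] {ι : Type} [Fintype ι] [DecidableEq ι]
  (K : ι → Subgroup G)

theorem dd_norm_mono {x y : EuclideanSpace ℝ G} (h0 : ∀ ω, 0 ≤ x ω) (h : ∀ ω, x ω ≤ y ω) :
    ‖x‖ ≤ ‖y‖ := by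
  rw [EuclideanSpace.norm_eq, EuclideanSpace.norm_eq]
  refine Real.sqrt_le_sqrt (Finset.sum_le_sum fun ω _ => ?_)
  rw [Real.norm_of_nonneg (h0 ω), Real.norm_of_nonneg ((h0 ω).trans (h ω))]
  exact pow_le_pow_left₀ (h0 ω) (h ω) 2

theorem dd_ind_nonneg (g : Finset (Vtx K) → ZMod 2) (J : Finset ι) (ω : G) : 0 ≤ ind K g J ω := by
  simp only [ind]
  split_ifs <;> norm_num

theorem dd_norm_ind_sq (g : Finset (Vtx K) → ZMod 2) (J : Finset ι) :
    ‖ind K g J‖ ^ 2 = ∑ ω, ind K g J ω := by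
  rw [EuclideanSpace.norm_sq_eq]
  refine Finset.sum_congr rfl fun ω _ => ?_
  simp only [ind]
  split_ifs <;> norm_num

theorem dd_sum_ind_le {κ : ℕ} (g : Finset (Vtx K) → ZMod 2) {J : Finset ι} (hJ : J.card = κ) :
    ∑ ω, ind K g J ω ≤ wt K κ g := by
  have h1 : ∑ ω, ind K g J ω = (#{ω | g (face K ω J) ≠ 0} : ℝ) := by
    rw [Finset.card_filter]
    push_cast
    refine Finset.sum_congr rfl fun ω _ => ?_
    simp only [ind]
    split_ifs <;> simp_all
  rw [h1, Nat.cast_le, wt]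
  refine Finset.card_le_card_of_injOn (fun ω => (ω, J)) (fun ω hω => ?_)
    fun _ _ _ _ h => (Prod.mk.inj h).1
  simpa [hJ] using hω

theorem dd_avg_top (f : EuclideanSpace ℝ G) (ω : G) :
    avg ⊤ f ω = (∑ x, f x) / Fintype.card G := by
  classical
  rw [avg_apply, Subgroup.card_top, Nat.card_eq_fintype_card]
  congr 1
  exact Fintype.sum_equiv (Subgroup.topEquiv.toEquiv.trans (Equiv.mulLeft ω)) _ _ fun _ => rfl

theorem dd_base {κ : ℕ} (g : Finset (Vtx K) → ZMod 2) {J : Finset ι} (hJ : J.card = κ) {t : ℝ}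
    (ht : 0 ≤ t) (h : (wt K κ g : ℝ) < t ^ 2 * Fintype.card G) :
    ‖avg (KJ K ∅) (ind K g J)‖ ≤ t * ‖ind K g J‖ := by
  have hN : (0 : ℝ) < Fintype.card G := by exact_mod_cast Fintype.card_pos
  refine (pow_le_pow_iff_left₀ (norm_nonneg _) (by positivity) two_ne_zero).1 ?_
  rw [KJ_empty, mul_pow, dd_norm_ind_sq, EuclideanSpace.norm_sq_eq]
  simp only [dd_avg_top, Real.norm_eq_abs, sq_abs, Finset.sum_const, Finset.card_univ,
    nsmul_eq_mul]
  have h1 := (dd_sum_ind_le K g hJ).trans h.le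
  have h2 : 0 ≤ ∑ ω, ind K g J ω := Finset.sum_nonneg fun ω _ => dd_ind_nonneg K g J ω
  rw [div_pow, mul_div_assoc', div_le_iff₀ (by positivity)]
  nlinarith [mul_le_mul_of_nonneg_left h1 (mul_nonneg h2 hN.le)]

theorem dd_step {R κ : ℕ} {lam : ℝ} (h0 : 0 ≤ lam) (hp : ∀ J, PairBd K J lam) (hc : LinkCones K R)
    (hκ : κ + 1 ≤ Fintype.card ι) {g : Finset (Vtx K) → ZMod 2} (hg : Cocyc K κ g)
    (hmin : LocMin K κ g) {A a : ℝ} (ha0 : 0 ≤ a) (hA0 : 0 ≤ A)
    (hA : ∀ J : Finset ι, J.card = κ → ‖ind K g J‖ ≤ A) {m : ℕ}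
    (ha : ∀ I J : Finset ι, I.card = m → I ⊆ J → J.card = κ → ‖avg (KJ K I) (ind K g J)‖ ≤ a)
    {I J : Finset ι} (hI : I.card = m + 1) (hIJ : I ⊆ J) (hJ : J.card = κ) :
    ‖avg (KJ K I) (ind K g J)‖ ≤ (2 ^ Fintype.card ι * R * (2 ^ Fintype.card ι * Fintype.card ι)) *
      (a + Fintype.card ι * lam * A) := by
  have hne : I.Nonempty := Finset.card_pos.1 (by omega)
  have hIκ : I.card ≤ κ := hJ ▸ Finset.card_le_card hIJ
  have hcone := hc I hne fun h => by
    rw [h, Finset.card_univ] at hIκ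
    omega
  set S := ((univ : Finset ι).powersetCard (κ + 1)).filter (I ⊆ ·) with hS
  have h1 : ‖avg (KJ K I) (ind K g J)‖ ≤ ‖(2 ^ Fintype.card ι * R : ℝ) •
      ∑ J' ∈ S, ∑ v ∈ I, avg (KJ K I) (ind K g (J'.erase v))‖ := by
    refine dd_norm_mono (avg_nonneg _ (dd_ind_nonneg K g J)) fun ω => ?_
    refine le_trans ?_ ((link_exp K hne hIκ hκ hcone hg hmin ω).trans (le_of_eq ?_))
    · exact Finset.single_le_sum (f := fun J => avg (KJ K I) (ind K g J) ω)
        (fun J _ => avg_nonneg _ (dd_ind_nonneg K g J) ω) (by simp [hJ, hIJ])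
    · simp [hS]
  have hb : 0 ≤ a + Fintype.card ι * lam * A := by positivity
  have h2 : ∀ J' ∈ S, ∀ v ∈ I,
      ‖avg (KJ K I) (ind K g (J'.erase v))‖ ≤ a + Fintype.card ι * lam * A := by
    intro J' hJ' v hv
    have hJ'' : J'.card = κ + 1 ∧ I ⊆ J' := by simpa [hS] using hJ'
    have hc' : (J'.erase v).card = κ := by rw [Finset.card_erase_of_mem (hJ''.2 hv), hJ''.1]; rfl
    have h3 := swap_bd K h0 hp (Finset.erase_subset_erase v hJ''.2) (Finset.notMem_erase v J')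
      (rinv_ind K g _)
    rw [Finset.insert_erase hv] at h3
    have h4 := ha (I.erase v) (J'.erase v) (by rw [Finset.card_erase_of_mem hv, hI]; rfl)
      (Finset.erase_subset_erase v hJ''.2) hc'
    have h5 : ((J'.erase v).card : ℝ) * lam * ‖ind K g (J'.erase v)‖ ≤ Fintype.card ι * lam * A := by
      have h6 : ((J'.erase v).card : ℝ) ≤ Fintype.card ι := by
        exact_mod_cast Finset.card_le_univ _
      have := hA _ hc'
      gcongr
    linarith [norm_sub_norm_le (avg (KJ K I) (ind K g (J'.erase v)))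
      (avg (KJ K (I.erase v)) (ind K g (J'.erase v)))]
  refine h1.trans ?_
  rw [norm_smul, Real.norm_of_nonneg (by positivity), mul_assoc _ _ (a + _)]
  refine mul_le_mul_of_nonneg_left ((norm_sum_le _ _).trans ?_) (by positivity)
  have h7 : (S.card : ℝ) ≤ 2 ^ Fintype.card ι := by
    have := Finset.card_le_univ S
    rw [Fintype.card_finset] at this
    exact_mod_cast this
  have h8 : (I.card : ℝ) ≤ Fintype.card ι := by exact_mod_cast Finset.card_le_univ _
  calc _ ≤ ∑ _J' ∈ S, ∑ _v ∈ I, (a + Fintype.card ι * lam * A) :=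
        Finset.sum_le_sum fun J' hJ' => (norm_sum_le _ _).trans
          (Finset.sum_le_sum fun v hv => h2 J' hJ' v hv)
    _ = S.card * I.card * (a + Fintype.card ι * lam * A) := by
        simp only [Finset.sum_const, nsmul_eq_mul, mul_assoc]
    _ ≤ _ := by gcongr

theorem dd_cobd_add {α : Type} [DecidableEq α] (f g : Finset α → ZMod 2) :
    cobd (f + g) = cobd f + cobd g := by
  funext τ
  simp [cobd, Finset.sum_add_distrib]

theorem dd_cobd_cobd {α : Type} [DecidableEq α] (f : Finset α → ZMod 2) (τ : Finset α) :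
    cobd (cobd f) τ = 0 := by
  have h : cobd (cobd f) τ = ∑ p ∈ τ.offDiag, f ((τ.erase p.1).erase p.2) := by
    simp only [cobd]
    rw [Finset.sum_sigma']
    refine Finset.sum_bij' (fun p _ => (p.1, p.2)) (fun p _ => ⟨p.1, p.2⟩) ?_ ?_ ?_ ?_ ?_ <;>
      simp +contextual [eq_comm]
  rw [h]
  refine Finset.sum_involution (fun p _ => p.swap) (fun p _ => ?_) (fun p hp _ h => ?_)
    (fun p hp => ?_) fun _ _ => rfl
  · rw [Prod.fst_swap, Prod.snd_swap, Finset.erase_right_comm]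
    exact CharTwo.add_self_eq_zero _
  · exact (Finset.mem_offDiag.1 hp).2.2 (congrArg Prod.snd h)
  · obtain ⟨h1, h2, h3⟩ := Finset.mem_offDiag.1 hp
    exact Finset.mem_offDiag.2 ⟨h2, h1, h3.symm⟩

open Classical in
theorem dd_star_le [Fintype (Vtx K)] {D₀ : ℕ} (hD : ∀ i, Nat.card (K i) ≤ D₀) (x : Vtx K) :
    #{σ : Finset (Vtx K) | σ ∈ Cx K Set.univ univ ∧ x ∈ σ} ≤ D₀ * 2 ^ Fintype.card ι := by
  obtain ⟨g₀, hg₀⟩ := exists_vtx K x
  refine le_trans ?_ (Nat.mul_le_mul_right _ (hD x.1))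
  rw [Nat.card_eq_fintype_card, ← Fintype.card_finset, ← Fintype.card_prod, ← Finset.card_univ]
  refine Finset.card_le_card_of_surjOn (fun p : K x.1 × Finset ι => face K (g₀ * p.1) p.2)
    fun σ hσ => ?_
  obtain ⟨⟨g, -, J, -, rfl⟩, hx⟩ : σ ∈ Cx K Set.univ univ ∧ x ∈ σ := by simpa using hσ
  have h1 := (vtx_eq_iff K).1 (hg₀.symm.trans ((mem_face' K).1 hx).2)
  exact ⟨(⟨_, h1⟩, J), by simp, by simp⟩

open Classical in
theorem dd_wt_le [Fintype (Vtx K)] {D₀ : ℕ} (hD : ∀ i, Nat.card (K i) ≤ D₀) (κ : ℕ)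
    (g : Finset (Vtx K) → ZMod 2) : wt K (κ + 1) g ≤
      D₀ * #{σ : Finset (Vtx K) | σ ∈ Cx K Set.univ univ ∧ σ.card = κ + 1 ∧ g σ ≠ 0} := by
  refine Finset.card_le_mul_card_image_of_maps_to (f := fun p : G × Finset ι => face K p.1 p.2)
    (fun p hp => ?_) _ fun σ hσ => ?_
  · have hp' : p.2.card = κ + 1 ∧ g (face K p.1 p.2) ≠ 0 := by simpa using hp
    simp only [mem_filter, mem_univ, true_and]
    exact ⟨face_mem_Cx K (Set.mem_univ _) (subset_univ _), by rw [card_face, hp'.1], hp'.2⟩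
  · obtain ⟨⟨g₀, -, J, -, rfl⟩, hc, -⟩ := (mem_filter.1 hσ).2
    rw [card_face] at hc
    obtain ⟨i, hi⟩ : J.Nonempty := Finset.card_pos.1 (by omega)
    refine le_trans ?_ (hD i)
    rw [Nat.card_eq_fintype_card, ← Finset.card_univ]
    refine Finset.card_le_card_of_surjOn (fun h : K i => (g₀ * h, J)) fun p hp => ?_
    have h1 := (face_eq_iff K).1 (mem_filter.1 (Finset.mem_coe.1 hp)).2.symm
    exact ⟨⟨_, h1.2 i hi⟩, by simp, by simp [h1.1]⟩

open Classical in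
theorem dd_descent [Fintype (Vtx K)] {D₀ : ℕ} (hD : ∀ i, Nat.card (K i) ≤ D₀) (κ : ℕ) (n : ℕ) :
    ∀ f : Finset (Vtx K) → ZMod 2, wt K κ (cobd f) = n → ∃ γ : Finset (Vtx K) → ZMod 2,
      LocMin K κ (cobd (f + γ)) ∧ wt K κ (cobd (f + γ)) ≤ n ∧
      #{σ : Finset (Vtx K) | σ ∈ Cx K Set.univ univ ∧ γ σ ≠ 0} ≤ D₀ * 2 ^ Fintype.card ι * n := by
  induction n using Nat.strong_induction_on with
  | _ n ih =>
  intro f hf
  by_cases hmin : LocMin K κ (cobd f)
  · exact ⟨0, by simpa using hmin, by simp [hf], by simp⟩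
  simp only [LocMin, not_forall, not_le] at hmin
  obtain ⟨x, γ₁, hγ₁, hlt⟩ := hmin
  rw [← dd_cobd_add, hf] at hlt
  obtain ⟨γ₂, h1, h2, h3⟩ := ih _ hlt (f + γ₁) rfl
  refine ⟨γ₁ + γ₂, by rwa [← add_assoc], by rw [← add_assoc]; omega, ?_⟩
  have h4 : #{σ : Finset (Vtx K) | σ ∈ Cx K Set.univ univ ∧ (γ₁ + γ₂) σ ≠ 0} ≤
      #{σ : Finset (Vtx K) | σ ∈ Cx K Set.univ univ ∧ x ∈ σ} +
        #{σ : Finset (Vtx K) | σ ∈ Cx K Set.univ univ ∧ γ₂ σ ≠ 0} := by
    refine le_trans (Finset.card_le_card fun σ hσ => ?_) (Finset.card_union_le _ _)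
    simp only [mem_filter, mem_univ, true_and, mem_union, Pi.add_apply] at hσ ⊢
    by_cases h : γ₁ σ = 0
    · exact Or.inr ⟨hσ.1, by simpa [h] using hσ.2⟩
    · exact Or.inl ⟨hσ.1, hγ₁ σ h⟩
  refine h4.trans ((add_le_add (dd_star_le K hD x) h3).trans ?_)
  rw [add_comm, ← Nat.mul_succ]
  exact Nat.mul_le_mul_left _ hlt

end aux

/-- small locally minimal cocycles vanish. -/
theorem small_locmin (c R : ℕ) : ∃ lam μ : ℝ, 0 < lam ∧ 0 < μ ∧
    ∀ (G : Type) [Group G] [Fintype G] (K : Fin c → Subgroup G),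
      (∀ J, PairBd K J lam) → LinkCones K R →
      ∀ κ : ℕ, 1 ≤ κ → κ + 1 ≤ c → ∀ g : Finset (Vtx K) → ZMod 2, Cocyc K κ g → LocMin K κ g →
        (wt K κ g : ℝ) < μ * Fintype.card G → wt K κ g = 0 := by
  set B : ℝ := 2 ^ c * R * (2 ^ c * c) + 1 with hB
  have hB1 : 1 ≤ B := le_add_of_nonneg_left (by positivity)
  have hB0 : 0 < B := by linarith
  refine ⟨(4 * B ^ c * (c * c + 1))⁻¹, ((4 * B ^ c)⁻¹) ^ 2, by positivity, by positivity, ?_⟩
  intro G _ _ K hp hc κ _ hκ g hg hmin hw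
  set lam : ℝ := (4 * B ^ c * (c * c + 1))⁻¹ with hlam
  have hlam0 : 0 ≤ lam := by positivity
  obtain ⟨J₀, hJ₀, hmax⟩ := Finset.exists_max_image ((univ : Finset (Fin c)).powersetCard κ)
    (fun J => ‖ind K g J‖) (Finset.powersetCard_nonempty.2 (by simp; omega))
  have hJ₀' : J₀.card = κ := by simpa using hJ₀
  set A := ‖ind K g J₀‖ with hA
  have hA0 : 0 ≤ A := norm_nonneg _
  have hA' : ∀ J : Finset (Fin c), J.card = κ → ‖ind K g J‖ ≤ A := fun J hJ =>
    hmax J (by simp [hJ])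
  have key : ∀ m : ℕ, ∀ I J : Finset (Fin c), I.card = m → I ⊆ J → J.card = κ →
      ‖avg (KJ K I) (ind K g J)‖ ≤ B ^ m * ((4 * B ^ c)⁻¹ * A + m * (c * lam * A)) := by
    intro m
    induction m with
    | zero =>
      intro I J hI _ hJ
      obtain rfl := Finset.card_eq_zero.1 hI
      refine (dd_base K g hJ (by positivity) hw).trans ?_
      simp only [pow_zero, Nat.cast_zero, zero_mul, add_zero, one_mul]
      exact mul_le_mul_of_nonneg_left (hA' J hJ) (by positivity)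
    | succ m ih =>
      intro I J hI hIJ hJ
      have h1 := dd_step K hlam0 hp hc (by simpa using hκ) hg hmin (by positivity) hA0 hA' ih hI
        hIJ hJ
      rw [Fintype.card_fin] at h1
      refine h1.trans ?_
      have h2 : c * lam * A ≤ B ^ m * (c * lam * A) :=
        le_mul_of_one_le_left (by positivity) (one_le_pow₀ hB1)
      calc _ ≤ B * (B ^ m * ((4 * B ^ c)⁻¹ * A + m * (c * lam * A)) + B ^ m * (c * lam * A)) := by
            gcongr
            linarith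
        _ = _ := by push_cast; ring
  have h1 := key κ J₀ J₀ hJ₀' le_rfl hJ₀'
  rw [avg_of_rinv (rinv_ind K g J₀)] at h1
  have h2 : B ^ κ * ((4 * B ^ c)⁻¹ * A + κ * (c * lam * A))
      ≤ B ^ c * ((4 * B ^ c)⁻¹ * A + (c * c + 1) * (lam * A)) := by
    have h3 : (κ : ℝ) ≤ c := by exact_mod_cast (by omega : κ ≤ c)
    have h4 : κ * (c * lam * A) ≤ (c * c + 1) * (lam * A) := by
      have h5 : 0 ≤ lam * A := by positivity
      nlinarith [mul_le_mul_of_nonneg_right h3 (mul_nonneg (Nat.cast_nonneg c) h5)]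
    gcongr
    omega
  have h3 : B ^ c * ((4 * B ^ c)⁻¹ * A + (c * c + 1) * (lam * A)) = A / 2 := by
    rw [hlam]
    field_simp
    ring
  have hA1 : A = 0 := by linarith
  rw [wt, Finset.card_eq_zero, Finset.filter_eq_empty_iff]
  intro p hp h
  have h4 : ind K g p.2 = 0 :=
    norm_le_zero_iff.1 ((hA' p.2 (by simpa using hp)).trans hA1.le)
  have h5 := congrArg (fun x : EuclideanSpace ℝ G => x p.1) h4
  simp [ind, h] at h5

open Classical in
/-- descent to a locally minimal cocycle gives coboundary expansion in Hamming form. -/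
theorem hamming_of_small (c D₀ : ℕ) (μ : ℝ) (hμ : 0 < μ) : ∃ C : ℕ,
    ∀ (G : Type) [Group G] [Fintype G] (K : Fin c → Subgroup G) [Fintype (Vtx K)],
      (∀ i, Nat.card (K i) ≤ D₀) → ∀ κ : ℕ, 1 ≤ κ → κ + 1 ≤ c →
      (∀ g : Finset (Vtx K) → ZMod 2, Cocyc K (κ + 1) g → LocMin K (κ + 1) g →
        (wt K (κ + 1) g : ℝ) < μ * Fintype.card G → wt K (κ + 1) g = 0) →
      (∀ f : Finset (Vtx K) → ZMod 2, Cocyc K κ f →
        ∃ b : Finset (Vtx K) → ZMod 2, ∀ σ ∈ Cx K Set.univ univ, σ.card = κ → f σ = cobd b σ) →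
      ∀ f : Finset (Vtx K) → ZMod 2, ∃ b : Finset (Vtx K) → ZMod 2,
        (univ.filter fun σ : Finset (Vtx K) =>
            σ ∈ Cx K Set.univ univ ∧ σ.card = κ ∧ f σ ≠ cobd b σ).card ≤
          C * (univ.filter fun σ : Finset (Vtx K) =>
            σ ∈ Cx K Set.univ univ ∧ σ.card = κ + 1 ∧ cobd f σ ≠ 0).card := by
  refine ⟨(D₀ * 2 ^ c + ⌈2 ^ c / μ⌉₊) * D₀, ?_⟩
  intro G _ _ K _ hD κ _ _ hsmall hcoh f
  rw [mul_assoc]
  have hw := dd_wt_le K hD κ (cobd f)
  by_cases h : (wt K (κ + 1) (cobd f) : ℝ) < μ * Fintype.card G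
  · obtain ⟨γ, h1, h2, h3⟩ := dd_descent K hD (κ + 1) _ f rfl
    have h4 := hsmall _ (fun ω J _ => dd_cobd_cobd _ _) h1
      (lt_of_le_of_lt (by exact_mod_cast h2) h)
    rw [wt, Finset.card_eq_zero, Finset.filter_eq_empty_iff] at h4
    obtain ⟨b, hb⟩ := hcoh (f + γ) fun ω J hJ => not_not.1 (@h4 (ω, J) (by simp [hJ]))
    refine ⟨b, le_trans (Finset.card_le_card fun σ hσ => ?_) (h3.trans ?_)⟩
    · simp only [mem_filter, mem_univ, true_and] at hσ ⊢
      refine ⟨hσ.1, fun h0 => hσ.2.2 ?_⟩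
      rw [← hb σ hσ.1 hσ.2.1, Pi.add_apply, h0, add_zero]
    · rw [Fintype.card_fin]
      exact Nat.mul_le_mul (Nat.le_add_right _ _) (by convert hw)
  · refine ⟨0, le_trans (b := Fintype.card G * 2 ^ c) ?_ ?_⟩
    · have e : Fintype.card G * 2 ^ c = #(univ : Finset (G × Finset (Fin c))) := by simp
      rw [e]
      refine Finset.card_le_card_of_surjOn (fun p : G × Finset (Fin c) => face K p.1 p.2)
        fun σ hσ => ?_
      obtain ⟨g, -, J, -, rfl⟩ := (mem_filter.1 (Finset.mem_coe.1 hσ)).2.1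
      exact ⟨(g, J), by simp, rfl⟩
    · refine le_trans ?_ (Nat.mul_le_mul (Nat.le_add_left _ _) (by convert hw))
      have h1 : (2 : ℝ) ^ c ≤ ⌈2 ^ c / μ⌉₊ * μ := (div_le_iff₀ hμ).1 (Nat.le_ceil _)
      have h2 : (Fintype.card G : ℝ) * 2 ^ c ≤ ⌈2 ^ c / μ⌉₊ * wt K (κ + 1) (cobd f) :=
        calc _ ≤ (Fintype.card G : ℝ) * (⌈2 ^ c / μ⌉₊ * μ) := by gcongr
          _ = ⌈2 ^ c / μ⌉₊ * (μ * Fintype.card G) := by ring
          _ ≤ _ := by gcongr; exact not_lt.1 h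
      exact_mod_cast h2

end Crest.Agent.R066
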