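import Mathlib

/-! Row 66 (bounded degree coboundary expanders): abstract definitions.
Chains of finite sets over a field of characteristic two, coset complexes, averaging operators,
posets of subspaces opposite to a flag. -/

set_option autoImplicit false

namespace Crest.Agent.R066

open Finset

/-! ### chains -/

/-- (augmented, unoriented) chains on the vertex type `α`. -/
abbrev Ch (k : Type) [Field k] (α : Type) : Type := Finset α →₀ k

section chains
variable (k : Type) [Field k] {α β : Type} [DecidableEq α] [DecidableEq β]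

/-- the unsigned boundary. -/
noncomputable def bd : Ch k α →ₗ[k] Ch k α :=
  Finsupp.linearCombination k (fun σ : Finset α => ∑ x ∈ σ, Finsupp.single (σ.erase x) (1 : k))

/-- chains supported on a set of simplices. -/
abbrev Sup (𝒜 : Set (Finset α)) : Submodule k (Ch k α) := Finsupp.supported k k 𝒜

/-- every cycle supported on `𝒜` is the boundary of a chain supported on `ℬ`. -/
def Bounds (𝒜 ℬ : Set (Finset α)) : Prop :=
  ∀ z ∈ Sup k 𝒜, bd k z = 0 → ∃ w ∈ Sup k ℬ, bd k w = z

/-- push-forward of chains along a vertex map. -/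
noncomputable def push (f : α → β) : Ch k α →ₗ[k] Ch k β :=
  Finsupp.lmapDomain k k (Finset.image f)

/-- simplices of `Δ` with at most `j` vertices. -/
def Le (Δ : Set (Finset α)) (j : ℕ) : Set (Finset α) := {σ | σ ∈ Δ ∧ σ.card ≤ j}

/-- closed under subsets. -/
def Down (Δ : Set (Finset α)) : Prop := ∀ σ ∈ Δ, ∀ τ, τ ⊆ σ → τ ∈ Δ

/-- a chain contraction of `Δ` on simplices with at most `n` vertices, each value having at most
`R` simplices. -/
def HasCone (Δ : Set (Finset α)) (n R : ℕ) : Prop :=
  ∃ c : Finset α → Ch k α, ∀ σ ∈ Δ, σ.card ≤ n →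
    c σ ∈ Sup k (Le Δ (σ.card + 1)) ∧ (c σ).support.card ≤ R ∧
      bd k (c σ) + ∑ x ∈ σ, c (σ.erase x) = Finsupp.single σ 1

/-- bounded filling: cycles on `N` vertices bound on `Φ` vertices. -/
def BF (Δ : Set (Finset α)) (n N Φ : ℕ) : Prop :=
  ∀ j ≤ n, ∀ A : Finset α, A.card ≤ N → ∃ B : Finset α, B.card ≤ Φ ∧
    Bounds k {σ | σ ∈ Le Δ j ∧ σ ⊆ A} {σ | σ ∈ Le Δ (j + 1) ∧ σ ⊆ B}

/-- the coboundary of a cochain (augmented). -/
def cobd {M : Type} [AddCommMonoid M] (f : Finset α → M) : Finset α → M :=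
  fun τ => ∑ x ∈ τ, f (τ.erase x)

end chains

/-! ### coset complexes -/

section coset
variable {G : Type} [Group G] {ι : Type}

/-- vertices of the coset complex. -/
def Vtx (K : ι → Subgroup G) : Type := Σ i : ι, G ⧸ K i

noncomputable instance (K : ι → Subgroup G) : DecidableEq (Vtx K) := Classical.decEq _

/-- the vertex of colour `i` of the chamber `g`. -/
def vtx (K : ι → Subgroup G) (i : ι) (g : G) : Vtx K := ⟨i, (g : G ⧸ K i)⟩

instance (K : ι → Subgroup G) : MulAction G (Vtx K) :=
  inferInstanceAs (MulAction G (Σ i : ι, G ⧸ K i))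

/-- the face of type `J` of the chamber `g`. -/
noncomputable def face (K : ι → Subgroup G) (g : G) (J : Finset ι) : Finset (Vtx K) :=
  J.image (fun i => vtx K i g)

/-- the stabiliser of the base face of type `J`. -/
def KJ (K : ι → Subgroup G) (J : Finset ι) : Subgroup G := ⨅ i ∈ J, K i

/-- the faces with colours in `D` of the chambers in `H`. -/
def Cx (K : ι → Subgroup G) (H : Set G) (D : Finset ι) : Set (Finset (Vtx K)) :=
  {σ | ∃ g ∈ H, ∃ J, J ⊆ D ∧ σ = face K g J}

end coset

/-! ### averaging operators -/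

section avg
variable {G : Type} [Group G] [Fintype G]

open Classical in
/-- average over right translates by `H`. -/
noncomputable def avg (H : Subgroup G) : EuclideanSpace ℝ G →ₗ[ℝ] EuclideanSpace ℝ G where
  toFun f := WithLp.toLp 2 fun g => (∑ h : H, f (g * h)) / (Nat.card H : ℝ)
  map_add' f₁ f₂ := by
    ext g
    simp [Finset.sum_add_distrib, add_div]
  map_smul' a f := by
    ext g
    simp [mul_div_assoc, ← Finset.mul_sum]

/-- right invariance under `H`. -/
def RInv (H : Subgroup G) (f : EuclideanSpace ℝ G) : Prop := ∀ g : G, ∀ h ∈ H, f (g * h) = f g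

/-- spectral bound between the colours `i`, `j` in the links of faces of type `J`. -/
def PairBd {ι : Type} [DecidableEq ι] (K : ι → Subgroup G) (J : Finset ι) (lam : ℝ) : Prop :=
  ∀ i j : ι, i ∉ J → j ∉ J → i ≠ j → ∀ f : EuclideanSpace ℝ G, RInv (KJ K (insert i J)) f →
    ‖avg (KJ K (insert j J)) f - avg (KJ K J) f‖ ≤ lam * ‖f‖

end avg

/-! ### posets of subspaces opposite to a flag -/

section poset
variable {F V : Type} [Field F] [AddCommGroup V] [Module F V]

/-- subspaces of `T` opposite to the flag `E`, not containing `U`, not contained in `H`. -/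
def Opp (T : Submodule F V) (E : ℕ → Submodule F V) (U H : Submodule F V) : Set (Submodule F V) :=
  {W | W ≤ T ∧ Disjoint W (E (Module.finrank F T - Module.finrank F W)) ∧ ¬ U ≤ W ∧ ¬ W ≤ H}

/-- chains in `Opp` with dimensions in `D`, comparable with all members of `ρ`. -/
def Kx (T : Submodule F V) (E : ℕ → Submodule F V) (U H : Submodule F V)
    (ρ : Finset (Submodule F V)) (D : Finset ℕ) : Set (Finset (Submodule F V)) :=
  {σ | (∀ W ∈ σ, W ∈ Opp T E U H ∧ Module.finrank F W ∈ D ∧ ∀ W' ∈ ρ, W ≤ W' ∨ W' ≤ W) ∧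
    ∀ W ∈ σ, ∀ W' ∈ σ, W ≤ W' ∨ W' ≤ W}

/-- the standing assumptions on the data of `Kx`. -/
structure KxOK (T : Submodule F V) (E : ℕ → Submodule F V) (U H : Submodule F V)
    (ρ : Finset (Submodule F V)) (D : Finset ℕ) : Prop where
  mono : Monotone E
  le_top : ∀ j, E j ≤ T
  dimE : ∀ j ≤ Module.finrank F T, Module.finrank F (E j) = j
  hU : U ≠ ⊥
  hH : ¬ T ≤ H
  ρ_opp : ∀ W ∈ ρ, W ∈ Opp T E U H
  ρ_chain : ∀ W ∈ ρ, ∀ W' ∈ ρ, W ≤ W' ∨ W' ≤ W
  ρ_dim : ∀ W ∈ ρ, 0 < Module.finrank F W ∧ Module.finrank F W < Module.finrank F T ∧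
    Module.finrank F W ∉ D
  D_dim : ∀ j ∈ D, 0 < j ∧ j < Module.finrank F T

/-- finite subsets of `S` whose images under `pr` are linearly independent. -/
def Ind {V' : Type} [AddCommGroup V'] [Module F V'] (S : Set V) (pr : V → V') : Set (Finset V) :=
  {τ | (∀ v ∈ τ, v ∈ S) ∧ LinearIndependent F (fun v : τ => pr v)}

end poset

end Crest.Agent.R066
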