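import Crest.Agent.R066.Defs
import Crest.Prelude.Def_Cochain

/-! Row 66: from Hamming expansion of a bounded degree complex to the weighted statement. -/

set_option autoImplicit false
set_option linter.unusedSectionVars false

namespace Crest.Agent.R066

open Finset

open Crest.CombinatoricsR.Cochain in
lemma fin_coboundary_eq {n : ℕ} (j : ℕ) (f : Finset (Fin n) → ZMod 2) (τ : Finset (Fin n))
    (hτ : τ.card = j + 2) : coboundary j f τ = cobd f τ := by
  unfold coboundary cobd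
  symm
  refine Finset.sum_bij (fun x _ => τ.erase x) ?_ ?_ ?_ ?_
  · intro x hx
    rw [Finset.mem_powersetCard]
    exact ⟨Finset.erase_subset _ _, by rw [Finset.card_erase_of_mem hx, hτ]; rfl⟩
  · intro x hx y hy h
    exact Finset.erase_injOn τ (Finset.mem_coe.mpr hx) (Finset.mem_coe.mpr hy) h
  · intro σ hσ
    rw [Finset.mem_powersetCard] at hσ
    obtain ⟨a, ha, rfl⟩ := Finset.exists_eq_insert_iff.mpr ⟨hσ.1, by rw [hσ.2, hτ]⟩
    exact ⟨a, Finset.mem_insert_self _ _, Finset.erase_insert ha⟩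
  · intro x _
    rfl

open Classical in
open Crest.CombinatoricsR.Cochain in
lemma fin_core (d D C n : ℕ) (X : Set (Finset (Fin n))) (hdown : Down X)
    (hpure : ∀ σ ∈ X, σ.card ≤ d + 1 → ∃ τ ∈ X, σ ⊆ τ ∧ τ.card = d + 1)
    (hv : ∀ v : Fin n, {v} ∈ X)
    (hD : ∀ v : Fin n,
      (univ.filter fun τ : Finset (Fin n) => τ ∈ X ∧ τ.card = d + 1 ∧ v ∈ τ).card ≤ D)
    (hne : Nonempty (Fin n)) (hd : 1 ≤ d)
    (hconn : ∀ f : Fin n → Prop, (∀ x y, {x, y} ∈ X → f x = f y) → ∀ x y, f x = f y)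
    (hexp : ∀ κ : ℕ, 1 ≤ κ → κ ≤ d → ∀ f : Finset (Fin n) → ZMod 2,
      ∃ b : Finset (Fin n) → ZMod 2,
        (univ.filter fun σ : Finset (Fin n) => σ ∈ X ∧ σ.card = κ ∧ f σ ≠ cobd b σ).card ≤
          C * (univ.filter fun σ : Finset (Fin n) =>
            σ ∈ X ∧ σ.card = κ + 1 ∧ cobd f σ ≠ 0).card) :
    ∃ T : Finset (Finset (Fin n)),
      (∀ τ ∈ T, τ.card = d + 1) ∧
      (∀ v : Fin n, 1 ≤ vertexDegree T v ∧ vertexDegree T v ≤ D) ∧
      (skeleton T).Connected ∧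
      ∀ i : ℕ, i < d → ∀ f : Finset (Fin n) → ZMod 2,
        ∃ b : Finset (Fin n) → ZMod 2, IsCoboundaryClass i b ∧
          (1 / ((C + 1) * (D + 1) * 2 ^ (d + 1)) : ℝ) * cochainNorm d T i (f - b) ≤
            cochainNorm d T (i + 1) (coboundary i f) := by
  set T : Finset (Finset (Fin n)) := univ.filter fun τ => τ ∈ X ∧ τ.card = d + 1 with hT
  have hmem : ∀ τ, τ ∈ T ↔ τ ∈ X ∧ τ.card = d + 1 := fun τ => by simp [hT]
  have hdeg : ∀ v, vertexDegree T v ≤ D := by
    intro v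
    refine le_trans (le_of_eq ?_) (hD v)
    unfold vertexDegree
    congr 1
    ext τ
    simp [hT, and_assoc]
  have hlow : ∀ σ ∈ X, σ.card ≤ d + 1 → 1 ≤ (T.filter fun τ => σ ⊆ τ).card := by
    intro σ hσ hc
    obtain ⟨τ, hτ, hst, hτc⟩ := hpure σ hσ hc
    exact Finset.card_pos.mpr ⟨τ, Finset.mem_filter.mpr ⟨(hmem τ).mpr ⟨hτ, hτc⟩, hst⟩⟩
  have hup : ∀ σ : Finset (Fin n), σ.Nonempty → (T.filter fun τ => σ ⊆ τ).card ≤ D := by
    rintro σ ⟨v, hvσ⟩
    refine le_trans (Finset.card_le_card ?_) (hdeg v)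
    intro τ hτ
    rw [Finset.mem_filter] at hτ ⊢
    exact ⟨hτ.1, hτ.2 hvσ⟩
  have hzero : ∀ σ : Finset (Fin n), σ ∉ X → (T.filter fun τ => σ ⊆ τ).card = 0 := by
    intro σ hσ
    rw [Finset.card_eq_zero, Finset.filter_eq_empty_iff]
    intro τ hτ hst
    exact hσ (hdown τ ((hmem τ).mp hτ).1 σ hst)
  refine ⟨T, fun τ hτ => ((hmem τ).mp hτ).2, fun v => ⟨?_, hdeg v⟩, ?_, ?_⟩
  · have := hlow {v} (hv v) (by simp)
    simpa [vertexDegree] using this
  · refine SimpleGraph.Connected.mk fun u v => ?_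
    have h := hconn (fun x => (skeleton T).Reachable u x) ?_ u v
    · exact h ▸ SimpleGraph.Reachable.refl u
    · intro x y hxy
      by_cases hne' : x = y
      · rw [hne']
      obtain ⟨τ, hτ, hst, hτc⟩ := hpure _ hxy (le_trans Finset.card_le_two (by omega))
      have hadj : (skeleton T).Adj x y :=
        ⟨hne', τ, (hmem τ).mpr ⟨hτ, hτc⟩, hst (by simp), hst (by simp)⟩
      exact propext ⟨fun h => h.trans hadj.reachable, fun h => h.trans hadj.symm.reachable⟩
  intro i hi f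
  obtain ⟨b', hb'⟩ := hexp (i + 1) (by omega) (by omega) f
  obtain ⟨b, hbc, hb⟩ : ∃ b : Finset (Fin n) → ZMod 2, IsCoboundaryClass i b ∧
      ∀ σ : Finset (Fin n), σ.card = i + 1 → b σ = cobd b' σ := by
    rcases Nat.eq_zero_or_pos i with rfl | hi0
    · refine ⟨fun _ => b' ∅, Or.inl ⟨rfl, b' ∅, fun _ => rfl⟩, fun σ hσ => ?_⟩
      obtain ⟨x, rfl⟩ := Finset.card_eq_one.mp hσ
      simp [cobd]
    · exact ⟨coboundary (i - 1) b', Or.inr ⟨hi0, b', rfl⟩, fun σ hσ =>
        fin_coboundary_eq _ _ _ (by omega)⟩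
  refine ⟨b, hbc, ?_⟩
  set A := (univ.filter fun σ : Finset (Fin n) => σ ∈ X ∧ σ.card = i + 1 ∧ f σ ≠ cobd b' σ).card
    with hA
  set B := (univ.filter fun σ : Finset (Fin n) =>
    σ ∈ X ∧ σ.card = i + 1 + 1 ∧ cobd f σ ≠ 0).card with hB
  have hTpos : (0 : ℝ) < T.card := by
    obtain ⟨v⟩ := hne
    obtain ⟨τ, hτ, -, hτc⟩ := hpure {v} (hv v) (by simp)
    exact_mod_cast Finset.card_pos.mpr ⟨τ, (hmem τ).mpr ⟨hτ, hτc⟩⟩
  have h1 : ∑ σ ∈ (Finset.univ.powersetCard (i + 1)).filter (fun σ => (f - b) σ ≠ 0),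
      (T.filter fun τ => σ ⊆ τ).card ≤ D * A := by
    rw [← Finset.sum_filter_add_sum_filter_not _ (fun σ => σ ∈ X),
      Finset.sum_eq_zero (s := Finset.filter (fun σ => ¬ σ ∈ X) _)
        (fun σ hσ => hzero σ (Finset.mem_filter.mp hσ).2), add_zero, hA, mul_comm]
    refine le_trans (Finset.sum_le_card_nsmul _ _ D ?_) ?_
    · intro σ hσ
      simp only [Finset.mem_filter, Finset.mem_powersetCard] at hσ
      exact hup σ (Finset.card_pos.mp (by omega))
    · rw [smul_eq_mul]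
      refine Nat.mul_le_mul_right _ (Finset.card_le_card fun σ hσ => ?_)
      simp only [Finset.mem_filter, Finset.mem_powersetCard, Finset.mem_univ, true_and] at hσ ⊢
      refine ⟨hσ.2, hσ.1.1.2, ?_⟩
      rw [← hb σ hσ.1.1.2]
      exact sub_ne_zero.mp hσ.1.2
  have h2 : B ≤ ∑ σ ∈ (Finset.univ.powersetCard (i + 1 + 1)).filter
      (fun σ => coboundary i f σ ≠ 0), (T.filter fun τ => σ ⊆ τ).card := by
    rw [hB, Finset.card_eq_sum_ones]
    refine le_trans (Finset.sum_le_sum (g := fun σ => (T.filter fun τ => σ ⊆ τ).card) ?_)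
      (Finset.sum_le_sum_of_subset ?_)
    · intro σ hσ
      simp only [Finset.mem_filter, Finset.mem_univ, true_and] at hσ
      exact hlow σ hσ.1 (by omega)
    · intro σ hσ
      simp only [Finset.mem_filter, Finset.mem_powersetCard, Finset.mem_univ, true_and] at hσ ⊢
      refine ⟨⟨Finset.subset_univ _, hσ.2.1⟩, ?_⟩
      rw [fin_coboundary_eq i f σ hσ.2.1]
      exact hσ.2.2
  have c1 : (1 : ℝ) ≤ (Nat.choose (d + 1) (i + 1) : ℝ) := by
    exact_mod_cast Nat.choose_pos (by omega)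
  have c2 : (0 : ℝ) < (Nat.choose (d + 1) (i + 1 + 1) : ℝ) := by
    exact_mod_cast Nat.choose_pos (by omega)
  have c3 : (Nat.choose (d + 1) (i + 1 + 1) : ℝ) ≤ 2 ^ (d + 1) := by
    exact_mod_cast Nat.choose_le_two_pow _ _
  have n1 : cochainNorm d T i (f - b) ≤ (D * A : ℝ) / T.card := by
    unfold cochainNorm faceWeight
    rw [← Finset.sum_div]
    refine div_le_div₀ (by positivity) (by exact_mod_cast h1) hTpos ?_
    nlinarith
  have n2 : (B : ℝ) / (2 ^ (d + 1) * T.card) ≤ cochainNorm d T (i + 1) (coboundary i f) := by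
    unfold cochainNorm faceWeight
    rw [← Finset.sum_div]
    refine div_le_div₀ (Finset.sum_nonneg fun _ _ => Nat.cast_nonneg _) ?_ (mul_pos c2 hTpos) ?_
    · rw [← Nat.cast_sum]
      exact Nat.cast_le.mpr h2
    exact mul_le_mul_of_nonneg_right c3 hTpos.le
  refine le_trans ?_ n2
  refine le_trans (mul_le_mul_of_nonneg_left n1 (by positivity)) ?_
  have hAB : (A : ℝ) ≤ C * B := by exact_mod_cast hb'
  have hB0 : (0 : ℝ) ≤ B := by positivity
  have hD0 : (0 : ℝ) ≤ D := by positivity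
  have hC0 : (0 : ℝ) ≤ C := by positivity
  rw [div_mul_div_comm, one_mul, div_le_div_iff₀ (by positivity) (by positivity)]
  have h3 : (D : ℝ) * A ≤ B * ((C + 1) * (D + 1)) := by
    calc (D : ℝ) * A ≤ D * (C * B) := mul_le_mul_of_nonneg_left hAB hD0
      _ ≤ _ := by nlinarith [mul_nonneg hB0 hC0, mul_nonneg hB0 hD0]
  calc (D : ℝ) * A * (2 ^ (d + 1) * T.card) ≤ B * ((C + 1) * (D + 1)) * (2 ^ (d + 1) * T.card) :=
        mul_le_mul_of_nonneg_right h3 (by positivity)
    _ = _ := by ring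

lemma fin_cobd_map {V W : Type} [DecidableEq V] [DecidableEq W] (e : V ≃ W)
    (f : Finset W → ZMod 2) (σ : Finset V) :
    cobd f (σ.map e.toEmbedding) = cobd (fun τ : Finset V => f (τ.map e.toEmbedding)) σ := by
  unfold cobd
  rw [Finset.sum_map]
  refine Finset.sum_congr rfl fun x _ => ?_
  simp only [Finset.map_erase]

open Classical in
theorem final_of_hamming (d D C : ℕ) : ∃ ε : ℝ, 0 < ε ∧
    ∀ (V : Type) [Fintype V] [DecidableEq V] (X : Set (Finset V)), Down X →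
      (∀ σ ∈ X, σ.card ≤ d + 1 → ∃ τ ∈ X, σ ⊆ τ ∧ τ.card = d + 1) →
      (∀ v : V, {v} ∈ X) →
      (∀ v : V, (univ.filter fun τ : Finset V => τ ∈ X ∧ τ.card = d + 1 ∧ v ∈ τ).card ≤ D) →
      Nonempty V → 1 ≤ d →
      (∀ f : V → Prop, (∀ x y, {x, y} ∈ X → f x = f y) → ∀ x y, f x = f y) →
      (∀ κ : ℕ, 1 ≤ κ → κ ≤ d → ∀ f : Finset V → ZMod 2, ∃ b : Finset V → ZMod 2,
        (univ.filter fun σ : Finset V => σ ∈ X ∧ σ.card = κ ∧ f σ ≠ cobd b σ).card ≤
          C * (univ.filter fun σ : Finset V => σ ∈ X ∧ σ.card = κ + 1 ∧ cobd f σ ≠ 0).card) →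
      ∃ T : Finset (Finset (Fin (Fintype.card V))),
        (∀ τ ∈ T, τ.card = d + 1) ∧
        (∀ v : Fin (Fintype.card V), 1 ≤ Crest.CombinatoricsR.Cochain.vertexDegree T v ∧
          Crest.CombinatoricsR.Cochain.vertexDegree T v ≤ D) ∧
        (Crest.CombinatoricsR.Cochain.skeleton T).Connected ∧
        ∀ i : ℕ, i < d → ∀ f : Finset (Fin (Fintype.card V)) → ZMod 2,
          ∃ b : Finset (Fin (Fintype.card V)) → ZMod 2,
            Crest.CombinatoricsR.Cochain.IsCoboundaryClass i b ∧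
            ε * Crest.CombinatoricsR.Cochain.cochainNorm d T i (f - b) ≤
              Crest.CombinatoricsR.Cochain.cochainNorm d T (i + 1)
                (Crest.CombinatoricsR.Cochain.coboundary i f) := by
  refine ⟨1 / ((C + 1) * (D + 1) * 2 ^ (d + 1)), by positivity, ?_⟩
  intro V _ _ X hdown hpure hv hD hne hd hconn hexp
  set e : Fin (Fintype.card V) ≃ V := (Fintype.equivFin V).symm with he
  have hmm : ∀ σ : Finset V, (σ.map e.symm.toEmbedding).map e.toEmbedding = σ := by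
    intro σ
    ext x
    simp
  have hmm' : ∀ σ : Finset (Fin (Fintype.card V)),
      (σ.map e.toEmbedding).map e.symm.toEmbedding = σ := by
    intro σ
    ext x
    simp
  have hcard : ∀ (p : Finset (Fin (Fintype.card V)) → Prop) (q : Finset V → Prop),
      (∀ σ, p σ ↔ q (σ.map e.toEmbedding)) → (univ.filter p).card = (univ.filter q).card := by
    intro p q h
    refine Finset.card_equiv e.finsetCongr fun σ => ?_
    simp [h σ]
  refine fin_core d D C _ {σ | σ.map e.toEmbedding ∈ X} ?_ ?_ ?_ ?_ ⟨e.symm hne.some⟩ hd ?_ ?_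
  · intro σ hσ τ hτ
    exact hdown _ hσ _ (Finset.map_subset_map.mpr hτ)
  · intro σ hσ hc
    obtain ⟨τ, hτ, hst, hτc⟩ := hpure _ hσ (by rwa [Finset.card_map])
    refine ⟨τ.map e.symm.toEmbedding, ?_, ?_, by rwa [Finset.card_map]⟩
    · show (τ.map e.symm.toEmbedding).map e.toEmbedding ∈ X
      rwa [hmm]
    · rw [← hmm' σ]
      exact Finset.map_subset_map.mpr hst
  · intro v
    show ({v} : Finset _).map e.toEmbedding ∈ X
    rw [Finset.map_singleton]
    exact hv _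
  · intro v
    refine le_trans (le_of_eq ?_) (hD (e v))
    convert hcard (fun τ => τ.map e.toEmbedding ∈ X ∧ τ.card = d + 1 ∧ v ∈ τ)
      (fun τ => τ ∈ X ∧ τ.card = d + 1 ∧ e v ∈ τ) (fun σ => by simp) <;> rfl
  · intro f hf x y
    have := hconn (fun v => f (e.symm v)) (fun u v huv => hf _ _ ?_) (e x) (e y)
    · simpa using this
    · show ({e.symm u, e.symm v} : Finset _).map e.toEmbedding ∈ X
      simpa [Finset.map_insert] using huv
  · intro κ h1 h2 f
    obtain ⟨b, hb⟩ := hexp κ h1 h2 (fun σ => f (σ.map e.symm.toEmbedding))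
    refine ⟨fun σ => b (σ.map e.toEmbedding), ?_⟩
    have e1 := hcard (fun σ => σ.map e.toEmbedding ∈ X ∧ σ.card = κ ∧
        f σ ≠ cobd (fun σ => b (σ.map e.toEmbedding)) σ)
      (fun σ => σ ∈ X ∧ σ.card = κ ∧ f (σ.map e.symm.toEmbedding) ≠ cobd b σ)
      (fun σ => by rw [hmm', Finset.card_map, fin_cobd_map])
    have e2 := hcard (fun σ => σ.map e.toEmbedding ∈ X ∧ σ.card = κ + 1 ∧ cobd f σ ≠ 0)
      (fun σ => σ ∈ X ∧ σ.card = κ + 1 ∧
        cobd (fun σ : Finset V => f (σ.map e.symm.toEmbedding)) σ ≠ 0)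
      (fun σ => by rw [Finset.card_map, ← fin_cobd_map e.symm f, hmm'])
    convert hb using 1
    · convert e1 <;> rfl
    · congr 1
      convert e2 <;> rfl

end Crest.Agent.R066
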