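import Crest.Agent.R066.Chain

/-! Row 66: pushing chains off bad vertices. -/

set_option autoImplicit false
set_option linter.unusedSectionVars false

namespace Crest.Agent.R066

open Finset

variable {k : Type} [Field k] {α β : Type} [DecidableEq α] [DecidableEq β]

/-- join with a fixed finite set. -/
noncomputable def joinC (k : Type) [Field k] (τ : Finset α) : Ch k α →ₗ[k] Ch k α :=
  Finsupp.lmapDomain k k (fun σ => τ ∪ σ)

theorem joinC_single (τ σ : Finset α) (a : k) :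
    joinC k τ (Finsupp.single σ a) = Finsupp.single (τ ∪ σ) a := by
  simp [joinC, Finsupp.mapDomain_single]

theorem bd_joinC (τ : Finset α) {z : Ch k α} (hz : z ∈ Sup k {σ | Disjoint τ σ}) :
    bd k (joinC k τ z) = joinC k τ (bd k z) + ∑ x ∈ τ, joinC k (τ.erase x) z := by
  have : (bd k ∘ₗ joinC k τ) z = (joinC k τ ∘ₗ bd k + ∑ x ∈ τ, joinC k (τ.erase x)) z := by
    refine eq_on_sup _ _ ?_ hz
    intro σ hσ
    have hd : Disjoint τ σ := hσ
    simp only [LinearMap.comp_apply, LinearMap.add_apply, LinearMap.sum_apply, joinC_single,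
      bd_single, map_sum]
    rw [Finset.sum_union hd, add_comm]
    congr 1
    · apply Finset.sum_congr rfl
      intro x hx
      rw [Finset.erase_union_distrib, Finset.erase_eq_of_notMem (Finset.disjoint_right.1 hd hx)]
    · apply Finset.sum_congr rfl
      intro x hx
      rw [Finset.erase_union_distrib, Finset.erase_eq_of_notMem (Finset.disjoint_left.1 hd hx)]
  simpa [LinearMap.sum_apply] using this

open Classical in
/-- the part of a chain with prescribed bad part. -/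
noncomputable def lkC (k : Type) [Field k] (Bad : Set α) (τ : Finset α) : Ch k α →ₗ[k] Ch k α :=
  Finsupp.linearCombination k fun σ : Finset α =>
    if σ.filter (· ∈ Bad) = τ then Finsupp.single (σ.filter (· ∉ Bad)) (1 : k) else 0

open Classical in
theorem lkC_single (Bad : Set α) (τ σ : Finset α) :
    lkC k Bad τ (Finsupp.single σ 1) =
      if σ.filter (· ∈ Bad) = τ then Finsupp.single (σ.filter (· ∉ Bad)) (1 : k) else 0 := by
  simp [lkC, Finsupp.linearCombination_single]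

open Classical in
theorem bd_lkC (Bad : Set α) {τ : Finset α} {z : Ch k α}
    (hz : z ∈ Sup k {σ | (σ.filter (· ∈ Bad)).card ≤ τ.card}) :
    bd k (lkC k Bad τ z) = lkC k Bad τ (bd k z) := by
  have : (bd k ∘ₗ lkC k Bad τ) z = (lkC k Bad τ ∘ₗ bd k) z := by
    refine eq_on_sup _ _ ?_ hz
    intro σ hσ
    have hc : (σ.filter (· ∈ Bad)).card ≤ τ.card := hσ
    simp only [LinearMap.comp_apply, bd_single, map_sum, lkC_single]
    by_cases h : σ.filter (· ∈ Bad) = τ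
    · rw [if_pos h, bd_single, Finset.sum_filter]
      apply Finset.sum_congr rfl
      intro x hx
      by_cases hb : x ∈ Bad
      · rw [if_neg (not_not.2 hb), if_neg]
        intro e
        have : x ∈ τ := h ▸ Finset.mem_filter.2 ⟨hx, hb⟩
        rw [← e] at this
        simp at this
      · rw [if_pos hb, if_pos, Finset.filter_erase]
        rw [Finset.filter_erase, h, Finset.erase_eq_of_notMem]
        rw [← h]; simp [hb]
    · rw [if_neg h, map_zero, eq_comm]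
      apply Finset.sum_eq_zero
      intro x _
      rw [if_neg]
      intro e
      apply h
      symm
      apply Finset.eq_of_subset_of_card_le _ hc
      rw [← e]
      exact Finset.filter_subset_filter _ (Finset.erase_subset _ _)
  simpa using this

open Classical in
/-- Push a chain off all simplices whose bad part has `m` vertices. -/
theorem pushoff [CharP k 2] (Bad : Set α) (m : ℕ) (𝒲 : Set (Finset α))
    (ℒ : Finset α → Set (Finset α))
    (hW : ∀ σ ∈ 𝒲, (σ.filter (· ∈ Bad)).card ≤ m)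
    (hL : ∀ τ, ∀ σ ∈ ℒ τ, ∀ x ∈ σ, x ∉ Bad)
    (hB : ∀ τ : Finset α, (∀ x ∈ τ, x ∈ Bad) → τ.card = m →
      Bounds k {σ | (∀ x ∈ σ, x ∉ Bad) ∧ τ ∪ σ ∈ 𝒲} (ℒ τ))
    {w : Ch k α} (hw : w ∈ Sup k 𝒲)
    (hbw : bd k w ∈ Sup k {σ | (σ.filter (· ∈ Bad)).card < m}) :
    ∃ u ∈ Sup k {ρ | ∃ τ : Finset α, (∀ x ∈ τ, x ∈ Bad) ∧ τ.card = m ∧ ∃ σ ∈ ℒ τ, ρ = τ ∪ σ},
      w + bd k u ∈ Sup k ({σ | σ ∈ 𝒲 ∧ (σ.filter (· ∈ Bad)).card < m} ∪
        {ρ | ∃ τ : Finset α, (∀ x ∈ τ, x ∈ Bad) ∧ τ.card = m ∧ ∃ σ ∈ ℒ τ, ∃ x ∈ τ,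
          ρ = τ.erase x ∪ σ}) := by
  set 𝒯 : Finset (Finset α) :=
    (w.support.image fun σ => σ.filter (· ∈ Bad)).filter (fun τ => τ.card = m) with h𝒯
  have hT : ∀ τ ∈ 𝒯, (∀ x ∈ τ, x ∈ Bad) ∧ τ.card = m := by
    intro τ hτ
    obtain ⟨h1, h2⟩ := Finset.mem_filter.1 hτ
    obtain ⟨σ, _, rfl⟩ := Finset.mem_image.1 h1
    exact ⟨fun x hx => (Finset.mem_filter.1 hx).2, h2⟩
  have hfill : ∀ τ ∈ 𝒯, ∃ c ∈ Sup k (ℒ τ), bd k c = lkC k Bad τ w := by
    intro τ hτ
    obtain ⟨h1, h2⟩ := hT τ hτ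
    refine hB τ h1 h2 _ (map_mem_of_sup _ _ ?_ hw) ?_
    · intro σ hσ
      rw [lkC_single]
      split_ifs with h
      · refine single_mem_sup ?_ _
        refine ⟨fun x hx => (Finset.mem_filter.1 hx).2, ?_⟩
        rw [← h, Finset.filter_union_filter_not_eq]; exact hσ
      · exact Submodule.zero_mem _
    · rw [bd_lkC Bad (sup_mono (fun σ hσ => by rw [h2]; exact hW σ hσ) hw)]
      have : lkC k Bad τ (bd k w) = (0 : Ch k α →ₗ[k] Ch k α) (bd k w) := by
        refine eq_on_sup _ _ ?_ hbw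
        intro σ hσ
        have hc : (σ.filter (· ∈ Bad)).card < m := hσ
        rw [lkC_single, if_neg (fun e => by rw [e, h2] at hc; exact lt_irrefl _ hc)]; rfl
      simpa using this
  choose! c hc hbc using hfill
  let low : Ch k α →ₗ[k] Ch k α := Finsupp.linearCombination k fun σ : Finset α =>
    if (σ.filter (· ∈ Bad)).card < m then Finsupp.single σ (1 : k) else 0
  have low_single : ∀ σ : Finset α, low (Finsupp.single σ 1) =
      if (σ.filter (· ∈ Bad)).card < m then Finsupp.single σ (1 : k) else 0 := by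
    intro σ; simp [low, Finsupp.linearCombination_single]
  have hdec : w = low w + ∑ τ ∈ 𝒯, joinC k τ (lkC k Bad τ w) := by
    have : (LinearMap.id : Ch k α →ₗ[k] Ch k α) w =
        (low + ∑ τ ∈ 𝒯, joinC k τ ∘ₗ lkC k Bad τ) w := by
      refine eq_on_sup (𝒜 := {σ | σ ∈ 𝒲 ∧ σ ∈ w.support}) _ _ ?_
        (mem_sup.2 fun σ hσ => ⟨mem_sup.1 hw σ hσ, Finsupp.mem_support_iff.2 hσ⟩)
      rintro σ ⟨hσ, hs⟩
      simp only [LinearMap.id_apply, LinearMap.add_apply, LinearMap.sum_apply,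
        LinearMap.comp_apply, low_single, lkC_single]
      by_cases hlt : (σ.filter (· ∈ Bad)).card < m
      · rw [if_pos hlt, Finset.sum_eq_zero, add_zero]
        intro τ hτ
        rw [if_neg (fun e => by rw [e, (hT τ hτ).2] at hlt; exact lt_irrefl _ hlt), map_zero]
      · have hm : (σ.filter (· ∈ Bad)).card = m := le_antisymm (hW σ hσ) (not_lt.1 hlt)
        rw [if_neg hlt, zero_add, Finset.sum_eq_single (σ.filter (· ∈ Bad))]
        · rw [if_pos rfl, joinC_single, Finset.filter_union_filter_not_eq]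
        · intro τ _ hne; rw [if_neg (Ne.symm hne), map_zero]
        · intro h
          exact absurd (Finset.mem_filter.2 ⟨Finset.mem_image_of_mem _ hs, hm⟩) h
    simpa [LinearMap.sum_apply] using this
  refine ⟨∑ τ ∈ 𝒯, joinC k τ (c τ), Submodule.sum_mem _ fun τ hτ => ?_, ?_⟩
  · refine map_mem_of_sup _ _ ?_ (hc τ hτ)
    intro σ hσ
    rw [joinC_single]
    refine single_mem_sup ?_ _
    exact ⟨τ, (hT τ hτ).1, (hT τ hτ).2, σ, hσ, rfl⟩
  · have hbu : bd k (∑ τ ∈ 𝒯, joinC k τ (c τ)) =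
        ∑ τ ∈ 𝒯, joinC k τ (lkC k Bad τ w) + ∑ τ ∈ 𝒯, ∑ x ∈ τ, joinC k (τ.erase x) (c τ) := by
      rw [map_sum, ← Finset.sum_add_distrib]
      apply Finset.sum_congr rfl
      intro τ hτ
      rw [bd_joinC τ (sup_mono (fun σ hσ => Finset.disjoint_left.2 fun x hx hx' =>
        hL τ σ hσ x hx' ((hT τ hτ).1 x hx)) (hc τ hτ)), hbc τ hτ]
    have : w + bd k (∑ τ ∈ 𝒯, joinC k τ (c τ)) =
        low w + ∑ τ ∈ 𝒯, ∑ x ∈ τ, joinC k (τ.erase x) (c τ) := by
      rw [hbu]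
      conv_lhs => rw [hdec]
      rw [add_assoc, ← add_assoc (∑ τ ∈ 𝒯, joinC k τ (lkC k Bad τ w)), ← hdec, add_self_ch,
        zero_add]
    rw [this]
    refine Submodule.add_mem _ (map_mem_of_sup _ _ ?_ hw) ?_
    · intro σ hσ
      rw [low_single]
      split_ifs with h
      · refine single_mem_sup ?_ _
        exact Or.inl ⟨hσ, h⟩
      · exact Submodule.zero_mem _
    · refine Submodule.sum_mem _ fun τ hτ => Submodule.sum_mem _ fun x hx => ?_
      refine map_mem_of_sup _ _ ?_ (hc τ hτ)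
      intro σ hσ
      rw [joinC_single]
      refine single_mem_sup ?_ _
      exact Or.inr ⟨τ, (hT τ hτ).1, (hT τ hτ).2, σ, hσ, x, hx, rfl⟩

/-- Push a chain off a set of pairwise non adjacent bad vertices. -/
theorem pushoff_one [CharP k 2] (Bad : Set α) (𝒲 : Set (Finset α)) (ℒ : α → Set (Finset α))
    (hW : ∀ σ ∈ 𝒲, ∀ x ∈ σ, ∀ y ∈ σ, x ∈ Bad → y ∈ Bad → x = y)
    (hL : ∀ x ∈ Bad, ∀ σ ∈ ℒ x, ∀ y ∈ σ, y ∉ Bad)
    (hB : ∀ x ∈ Bad, Bounds k {σ | (∀ y ∈ σ, y ∉ Bad) ∧ insert x σ ∈ 𝒲} (ℒ x))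
    {w : Ch k α} (hw : w ∈ Sup k 𝒲) (hbw : bd k w ∈ Sup k {σ | ∀ y ∈ σ, y ∉ Bad}) :
    ∃ u ∈ Sup k {ρ | ∃ x ∈ Bad, ∃ σ ∈ ℒ x, ρ = insert x σ},
      w + bd k u ∈ Sup k ({σ | σ ∈ 𝒲 ∧ ∀ y ∈ σ, y ∉ Bad} ∪ {ρ | ∃ x ∈ Bad, ρ ∈ ℒ x}) := by
  classical
  obtain ⟨u, hu, hu'⟩ := pushoff (k := k) Bad 1 𝒲 (fun τ => {σ | ∃ x ∈ Bad, τ = {x} ∧ σ ∈ ℒ x})
    (fun σ hσ => Finset.card_le_one.2 fun x hx y hy =>
      hW σ hσ x (Finset.mem_filter.1 hx).1 y (Finset.mem_filter.1 hy).1 (Finset.mem_filter.1 hx).2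
        (Finset.mem_filter.1 hy).2)
    (by rintro τ σ ⟨x, hx, _, hσ⟩; exact hL x hx σ hσ)
    (by
      intro τ h1 h2
      obtain ⟨x, rfl⟩ := Finset.card_eq_one.1 h2
      have hx := h1 x (Finset.mem_singleton_self x)
      refine (hB x hx).mono ?_ ?_
      · rintro σ ⟨h, h'⟩; exact ⟨h, by rwa [Finset.insert_eq]⟩
      · intro σ hσ; exact ⟨x, hx, rfl, hσ⟩)
    hw (sup_mono (fun σ hσ => by
      show (σ.filter (· ∈ Bad)).card < 1
      rw [Nat.lt_one_iff, Finset.card_eq_zero, Finset.filter_eq_empty_iff]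
      exact hσ) hbw)
  refine ⟨u, sup_mono ?_ hu, sup_mono ?_ hu'⟩
  · rintro ρ ⟨τ, _, _, σ, ⟨x, hx, rfl, hσ⟩, rfl⟩
    exact ⟨x, hx, σ, hσ, by rw [Finset.insert_eq]⟩
  · rintro ρ (⟨h1, h2⟩ | ⟨τ, _, _, σ, ⟨x, hx, rfl, hσ⟩, y, hy, rfl⟩)
    · left
      refine ⟨h1, ?_⟩
      rwa [Nat.lt_one_iff, Finset.card_eq_zero, Finset.filter_eq_empty_iff] at h2
    · right
      rw [Finset.mem_singleton.1 hy]
      exact ⟨x, hx, by simpa using hσ⟩

end Crest.Agent.R066
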