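import Crest.Agent.R066.Coset
import Crest.Agent.R066.Push

/-! Row 66: abstract Fourier, Morse and covering arguments. -/

set_option autoImplicit false
set_option linter.unusedSectionVars false

namespace Crest.Agent.R066

open Finset

variable {k : Type} [Field k] [CharP k 2] {α β : Type} [DecidableEq α] [DecidableEq β]

variable (k) in
/-- relative acyclicity of `X` modulo its full subcomplex on `Good`. -/
def RelAc (X : Set (Finset α)) (Good : Set α) (j : ℕ) : Prop :=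
  ∀ a ∈ Sup k (Le X j), bd k a ∈ Sup k {σ | ∀ x ∈ σ, x ∈ Good} →
    ∃ b ∈ Sup k (Le X (j + 1)), a + bd k b ∈ Sup k {σ | σ ∈ X ∧ ∀ x ∈ σ, x ∈ Good}

/-- discrete Morse argument. -/
theorem relAc_of_morse {X : Set (Finset α)} (hX : Down X) (Good : Set α) (ht : α → ℕ) (B : ℕ)
    (hB : ∀ x, {x} ∈ X → x ∉ Good → ht x < B)
    (hne : ∀ x y, {x, y} ∈ X → x ∉ Good → y ∉ Good → ht x = ht y → x = y) {j : ℕ}
    (hlk : ∀ x, {x} ∈ X → x ∉ Good → ∀ j', j' + 1 = j →
      Bounds k (Le {σ | x ∉ σ ∧ insert x σ ∈ X ∧ ∀ y ∈ σ, y ∈ Good ∨ ht x < ht y} j')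
        (Le {σ | x ∉ σ ∧ insert x σ ∈ X ∧ ∀ y ∈ σ, y ∈ Good ∨ ht x < ht y} (j' + 1))) :
    RelAc k X Good j := by
  have hsing : ∀ σ ∈ X, ∀ y ∈ σ, {y} ∈ X := fun σ hσ y hy =>
    hX σ hσ _ (Finset.singleton_subset_iff.2 hy)
  intro a ha hbd
  have key : ∀ η : ℕ, ∃ b ∈ Sup k (Le X (j + 1)),
      a + bd k b ∈ Sup k {σ | σ ∈ Le X j ∧ ∀ y ∈ σ, y ∈ Good ∨ η ≤ ht y} := by
    intro η
    induction η with
    | zero =>
      refine ⟨0, Submodule.zero_mem _, ?_⟩
      rw [map_zero, add_zero]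
      refine sup_mono ?_ ha
      exact fun σ hσ => ⟨hσ, fun y _ => Or.inr (Nat.zero_le _)⟩
    | succ η ih =>
      obtain ⟨b, hb, hab⟩ := ih
      obtain ⟨u, hu, hu'⟩ := pushoff_one {x | {x} ∈ X ∧ x ∉ Good ∧ ht x = η} _
        (fun x => Le {σ | x ∉ σ ∧ insert x σ ∈ X ∧ ∀ y ∈ σ, y ∈ Good ∨ ht x < ht y} j)
        (fun σ hσ x hx y hy h1 h2 => hne x y
          (hX σ hσ.1.1 _ (Finset.insert_subset hx (Finset.singleton_subset_iff.2 hy)))
          h1.2.1 h2.2.1 (h1.2.2.trans h2.2.2.symm))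
        (fun x hx σ hσ y hy h2 => by
          rcases hσ.1.2.2 y hy with h | h
          · exact h2.2.1 h
          · exact absurd (hx.2.2.trans h2.2.2.symm) h.ne)
        (fun x hx => by
          cases j with
          | zero =>
            refine (bounds_empty _).mono (fun σ hσ => ?_) subset_rfl
            have h1 := hσ.2.1.2
            have h2 := Finset.card_pos.2 (Finset.insert_nonempty x σ)
            omega
          | succ j' =>
            refine (hlk x hx.1 hx.2.1 j' rfl).mono (fun σ hσ => ?_) subset_rfl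
            have hxσ : x ∉ σ := fun h => hσ.1 x h hx
            refine ⟨⟨hxσ, hσ.2.1.1, fun y hy => ?_⟩, ?_⟩
            · by_cases hy' : y ∈ Good
              · exact Or.inl hy'
              · have h1 := (hσ.2.2 y (Finset.mem_insert_of_mem hy)).resolve_left hy'
                have h2 : ht y ≠ η := fun e => hσ.1 y hy
                  ⟨hsing _ hσ.2.1.1 y (Finset.mem_insert_of_mem hy), hy', e⟩
                have h3 := hx.2.2
                right; omega
            · have h1 := hσ.2.1.2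
              rw [Finset.card_insert_of_notMem hxσ] at h1
              omega)
        hab (by
          rw [map_add, bd_bd, add_zero]
          exact sup_mono (fun σ hσ y hy h2 => h2.2.1 (hσ y hy)) hbd)
      refine ⟨b + u, Submodule.add_mem _ hb (sup_mono ?_ hu), ?_⟩
      · rintro _ ⟨x, -, σ, hσ, rfl⟩
        exact ⟨hσ.1.2.1, (Finset.card_insert_le _ _).trans (Nat.succ_le_succ hσ.2)⟩
      · rw [map_add, ← add_assoc]
        refine sup_mono ?_ hu'
        rintro σ (⟨h1, h2⟩ | ⟨x, hx, hσ⟩)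
        · refine ⟨h1.1, fun y hy => ?_⟩
          by_cases hy' : y ∈ Good
          · exact Or.inl hy'
          · have h3 := (h1.2 y hy).resolve_left hy'
            have h4 : ht y ≠ η := fun e => h2 y hy ⟨hsing _ h1.1.1 y hy, hy', e⟩
            right; omega
        · refine ⟨⟨hX _ hσ.1.2.1 _ (Finset.subset_insert _ _), hσ.2⟩, fun y hy => ?_⟩
          have h3 := hx.2.2
          exact (hσ.1.2.2 y hy).imp_right fun h => by omega
  obtain ⟨b, hb, hab⟩ := key B
  refine ⟨b, hb, sup_mono ?_ hab⟩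
  refine fun σ hσ => ⟨hσ.1.1, fun y hy => ?_⟩
  by_contra hy'
  have h1 := (hσ.2 y hy).resolve_left hy'
  have h2 := hB y (hsing _ hσ.1.1 y hy) hy'
  omega

section fourier
variable {G : Type} [Group G] [MulAction G α] {A : Type} [AddCommGroup A] [Fintype A]
  {Y : Type} [Fintype Y]

/-- the translates of `𝒜` under `ρ`. -/
def Orb (ρ : A → G) (𝒜 : Set (Finset α)) : Set (Finset α) :=
  {σ | ∃ a : A, ∃ σ' ∈ 𝒜, σ = σ'.image fun x => ρ a • x}

/-- the (unnormalised) projector attached to a character. -/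
noncomputable def fourE (ρ : A → G) (χ : AddChar A k) : Ch k α →ₗ[k] Ch k α :=
  ∑ a, χ (-a) • act k (ρ a)

section fourE
variable {ρ : A → G} (hρ : ∀ a b, ρ (a + b) = ρ a * ρ b)

theorem fourE_apply (χ : AddChar A k) (z : Ch k α) :
    fourE ρ χ z = ∑ a, χ (-a) • act k (ρ a) z := by
  simp [fourE, LinearMap.sum_apply]

theorem bd_fourE (χ : AddChar A k) (z : Ch k α) : bd k (fourE ρ χ z) = fourE ρ χ (bd k z) := by
  simp only [fourE_apply, map_sum, map_smul, bd_act]

theorem act_mem_orb (ρ : A → G) {𝒜 : Set (Finset α)} (a : A) {z : Ch k α} (hz : z ∈ Sup k 𝒜) :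
    act k (ρ a) z ∈ Sup k (Orb ρ 𝒜) :=
  push_mem_sup _ (ℬ := Orb ρ 𝒜) (fun σ hσ => Exists.intro a ⟨σ, hσ, rfl⟩) hz

theorem fourE_mem_orb (χ : AddChar A k) {𝒜 : Set (Finset α)} {z : Ch k α} (hz : z ∈ Sup k 𝒜) :
    fourE ρ χ z ∈ Sup k (Orb ρ 𝒜) := by
  rw [fourE_apply]
  exact Submodule.sum_mem _ fun a _ => Submodule.smul_mem _ _ (act_mem_orb ρ a hz)

include hρ

theorem four_rho_zero : ρ 0 = 1 := by
  have := hρ 0 0
  rw [add_zero] at this
  exact (mul_eq_left.1 this.symm)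

theorem fourE_act (χ : AddChar A k) (b : A) (z : Ch k α) :
    fourE ρ χ (act k (ρ b) z) = χ b • fourE ρ χ z := by
  rw [fourE_apply, fourE_apply, Finset.smul_sum, ← Equiv.sum_comp (Equiv.addRight b)
    fun a => χ b • χ (-a) • act k (ρ a) z]
  refine Finset.sum_congr rfl fun a _ => ?_
  rw [act_act, ← hρ, smul_smul, ← AddChar.map_add_eq_mul]
  simp

theorem act_fourE (χ : AddChar A k) (b : A) (z : Ch k α) :
    act k (ρ b) (fourE ρ χ z) = χ b • fourE ρ χ z := by
  rw [← fourE_act hρ, fourE_apply, fourE_apply, map_sum]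
  refine Finset.sum_congr rfl fun a _ => ?_
  rw [map_smul, act_act, act_act, ← hρ, ← hρ, add_comm]

theorem sum_fourE (χ : Y → AddChar A k) (hχ : ∀ a : A, a ≠ 0 → ∑ y, χ y a = 0) (z : Ch k α) :
    ∑ y, fourE ρ (χ y) z = (Fintype.card Y : k) • z := by
  simp only [fourE_apply]
  rw [Finset.sum_comm, Finset.sum_eq_single 0]
  · simp [four_rho_zero hρ, act_one, Nat.cast_smul_eq_nsmul]
  · intro a _ ha
    rw [← Finset.sum_smul, hχ _ (neg_ne_zero.2 ha), zero_smul]
  · simp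

theorem fourE_eq_zero (χ : AddChar A k) {𝒜 : Set (Finset α)}
    (h : ∀ σ ∈ 𝒜, ∃ a, (σ.image fun x => ρ a • x) = σ ∧ χ a ≠ 1) {z : Ch k α}
    (hz : z ∈ Sup k 𝒜) : fourE ρ χ z = 0 := by
  refine eq_on_sup (fourE ρ χ) 0 (fun σ hσ => ?_) hz
  obtain ⟨a, h1, h2⟩ := h σ hσ
  have h3 := fourE_act hρ χ a (Finsupp.single σ 1)
  rw [act_single, h1] at h3
  have h4 : (χ a - 1) • fourE ρ χ (Finsupp.single σ 1) = 0 := by
    rw [sub_smul, one_smul, ← h3, sub_self]
  exact (smul_eq_zero.1 h4).resolve_left (sub_ne_zero.2 h2)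

theorem fourE_bound (χ : AddChar A k) {X : Set (Finset α)} {Good : Set α} {j : ℕ}
    (hrel : RelAc k X Good j)
    (hg : ∀ σ ∈ X, (∀ x ∈ σ, x ∈ Good) → ∃ a, (σ.image fun x => ρ a • x) = σ ∧ χ a ≠ 1)
    {z : Ch k α} (hz : z ∈ Sup k (Le X j)) (hb : bd k z ∈ Sup k {σ | ∀ x ∈ σ, x ∈ Good}) :
    ∃ w ∈ Sup k (Orb ρ (Le X (j + 1))), bd k w = fourE ρ χ z := by
  obtain ⟨b, h1, h2⟩ := hrel z hz hb
  have h3 := fourE_eq_zero hρ χ (fun σ hσ => hg σ hσ.1 hσ.2) h2
  refine ⟨_, fourE_mem_orb χ h1, ?_⟩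
  rw [map_add, add_eq_zero_iff_eq_neg, neg_ch] at h3
  rw [bd_fourE, h3]

theorem four_image_image (a b : A) (σ : Finset α) :
    ((σ.image fun x => ρ b • x).image fun x => ρ a • x) = σ.image fun x => ρ (a + b) • x := by
  simp only [Finset.image_image, Function.comp_def, hρ, mul_smul]

theorem four_image_zero (σ : Finset α) : (σ.image fun x => ρ 0 • x) = σ := by
  simp only [four_rho_zero hρ, one_smul, Finset.image_id']

theorem four_coeff_eq_zero (hA : (Fintype.card A : k) ≠ 0) (χ : AddChar A k) {X : Set (Finset α)}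
    (hinj : ∀ σ ∈ X, ∀ a, (σ.image fun x => ρ a • x) ∈ X → (σ.image fun x => ρ a • x) = σ)
    {c : Ch k α} (hc : c ∈ Sup k X) (h0 : fourE ρ χ c = 0) {σ : Finset α} (hσ : σ ∈ X)
    (h1 : ∀ a, (σ.image fun x => ρ a • x) = σ → χ a = 1) : c σ = 0 := by
  classical
  let S : AddSubgroup A :=
    { carrier := {a | (σ.image fun x => ρ a • x) = σ}
      zero_mem' := four_image_zero hρ σ
      add_mem' := fun {a b} ha hb => by
        show (σ.image fun x => ρ (a + b) • x) = σ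
        rw [← four_image_image hρ, show (σ.image fun x => ρ b • x) = σ from hb]
        exact ha
      neg_mem' := fun {a} ha => by
        show (σ.image fun x => ρ (-a) • x) = σ
        conv_lhs => rw [← show (σ.image fun x => ρ a • x) = σ from ha]
        rw [four_image_image hρ, neg_add_cancel, four_image_zero hρ] }
  have h2 : ∀ a, act k (ρ (-a)) c σ = c (σ.image fun x => ρ a • x) := fun a => by
    have := Finsupp.mapDomain_apply (Finset.image_injective (MulAction.injective (β := α) (ρ (-a))))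
      c (σ.image fun x => ρ a • x)
    rwa [four_image_image hρ, neg_add_cancel, four_image_zero hρ] at this
  have h3 : fourE ρ χ c σ = ∑ a, if a ∈ S then c σ else 0 := by
    rw [fourE_apply, Finsupp.finsetSum_apply, ← Equiv.sum_comp (Equiv.neg A)]
    refine Finset.sum_congr rfl fun a _ => ?_
    rw [Finsupp.smul_apply, Equiv.neg_apply, neg_neg, h2]
    split_ifs with ha
    · rw [h1 a ha, one_smul, show (σ.image fun x => ρ a • x) = σ from ha]
    · rw [smul_eq_zero]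
      right
      by_contra h
      exact ha (hinj σ hσ a (mem_sup.1 hc _ h))
  rw [h0, ← Finset.sum_filter, Finset.sum_const, ← Fintype.card_subtype, nsmul_eq_mul] at h3
  refine (mul_eq_zero.1 h3.symm).resolve_left fun h => hA ?_
  obtain ⟨m, hm⟩ := S.card_addSubgroup_dvd_card
  rw [Nat.card_eq_fintype_card, Nat.card_eq_fintype_card] at hm
  rw [hm, Nat.cast_mul, h, zero_mul]

end fourE

/-- the abelian group `A` acts trivially on the classes of cycles of `X`. -/
theorem fourier_fix (ρ : A → G) (hρ : ∀ a b, ρ (a + b) = ρ a * ρ b) (χ : Y → AddChar A k)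
    (hχ : ∀ a : A, a ≠ 0 → ∑ y, χ y a = 0) (hY : (Fintype.card Y : k) ≠ 0)
    {X : Set (Finset α)} (Good : Y → Set α) {j : ℕ}
    (hrel : ∀ y, χ y ≠ 1 → RelAc k X (Good y) j)
    (hg : ∀ y, χ y ≠ 1 → ∀ σ ∈ X, (∀ x ∈ σ, x ∈ Good y) →
      ∃ a, (σ.image fun x => ρ a • x) = σ ∧ χ y a ≠ 1)
    {z : Ch k α} (hz : z ∈ Sup k (Le X j)) (hb : bd k z = 0) (a : A) :
    ∃ w ∈ Sup k (Orb ρ (Le X (j + 1))), bd k w = act k (ρ a) z + z := by
  have h1 : ∀ y, ∃ w ∈ Sup k (Orb ρ (Le X (j + 1))), bd k w = (χ y a + 1) • fourE ρ (χ y) z := by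
    intro y
    by_cases hy : χ y = 1
    · refine ⟨0, Submodule.zero_mem _, ?_⟩
      rw [hy, AddChar.one_apply, CharTwo.add_self_eq_zero, zero_smul, map_zero]
    · obtain ⟨w, hw, e⟩ := fourE_bound hρ (χ y) (hrel y hy) (hg y hy) hz
        (by rw [hb]; exact Submodule.zero_mem _)
      exact ⟨(χ y a + 1) • w, Submodule.smul_mem _ _ hw, by rw [map_smul, e]⟩
  choose w hw hw' using h1
  refine ⟨(Fintype.card Y : k)⁻¹ • ∑ y, w y,
    Submodule.smul_mem _ _ (Submodule.sum_mem _ fun y _ => hw y), ?_⟩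
  rw [map_smul, map_sum]
  simp only [hw', add_smul, one_smul, ← act_fourE hρ, Finset.sum_add_distrib, ← map_sum,
    sum_fourE hρ χ hχ, map_smul]
  rw [← smul_add, inv_smul_smul₀ hY]

/-- cycles on the translates of `X` are homologous to cycles of `X`. -/
theorem fourier_bounds (ρ : A → G) (hρ : ∀ a b, ρ (a + b) = ρ a * ρ b) (χ : Y → AddChar A k)
    (hχ : ∀ a : A, a ≠ 0 → ∑ y, χ y a = 0) (hY : (Fintype.card Y : k) ≠ 0)
    (hA : (Fintype.card A : k) ≠ 0)
    {X : Set (Finset α)} (hX : Down X) (Good : Y → Set α) {j : ℕ}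
    (hrel : ∀ y, χ y ≠ 1 → RelAc k X (Good y) j)
    (hg : ∀ y, χ y ≠ 1 → ∀ σ ∈ X, (∀ x ∈ σ, x ∈ Good y) →
      ∃ a, (σ.image fun x => ρ a • x) = σ ∧ χ y a ≠ 1)
    (hbad : ∀ y, ∀ σ ∈ X, ∀ x ∈ σ, x ∉ Good y → ∀ a, (σ.image fun x => ρ a • x) = σ → χ y a = 1)
    (hinj : ∀ σ ∈ X, ∀ a, (σ.image fun x => ρ a • x) ∈ X → (σ.image fun x => ρ a • x) = σ)
    {ℬ : Set (Finset α)} (hℬ : Orb ρ (Le X (j + 1)) ⊆ ℬ) (h : Bounds k (Le X j) ℬ) :
    Bounds k (Orb ρ (Le X j)) ℬ := by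
  classical
  intro z hz hb
  obtain ⟨f, hf, rfl⟩ : ∃ f : A → Ch k α, (∀ a, f a ∈ Sup k (Le X j)) ∧
      z = ∑ a, act k (ρ a) (f a) := by
    refine sup_induction (P := fun z => ∃ f : A → Ch k α, (∀ a, f a ∈ Sup k (Le X j)) ∧
      z = ∑ a, act k (ρ a) (f a)) ⟨0, fun _ => Submodule.zero_mem _, by simp⟩ ?_ ?_ hz
    · rintro _ _ ⟨f, hf, rfl⟩ ⟨g, hg, rfl⟩
      exact ⟨f + g, fun a => Submodule.add_mem _ (hf a) (hg a),
        by simp [Finset.sum_add_distrib]⟩
    · rintro _ ⟨a, σ, hσ, rfl⟩ c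
      refine ⟨Pi.single a (Finsupp.single σ c), fun b => ?_, ?_⟩
      · by_cases e : b = a
        · rw [e, Pi.single_eq_same]; exact single_mem_sup hσ c
        · rw [Pi.single_eq_of_ne e]; exact Submodule.zero_mem _
      · rw [Finset.sum_eq_single a, Pi.single_eq_same, act_single]
        · intro b _ e; rw [Pi.single_eq_of_ne e, map_zero]
        · simp
  have h1 : ∀ y, ∃ w ∈ Sup k ℬ, bd k w = fourE ρ (χ y) (∑ a, act k (ρ a) (f a)) := by
    intro y
    have e1 : fourE ρ (χ y) (∑ a, act k (ρ a) (f a)) = fourE ρ (χ y) (∑ a, χ y a • f a) := by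
      simp only [map_sum, map_smul, fourE_act hρ]
    have m1 : ∑ a, χ y a • f a ∈ Sup k (Le X j) :=
      Submodule.sum_mem _ fun a _ => Submodule.smul_mem _ _ (hf a)
    have m2 : bd k (∑ a, χ y a • f a) ∈ Sup k X :=
      bd_mem_sup (fun σ hσ x _ => hX σ hσ.1 _ (Finset.erase_subset x σ)) m1
    have e2 : fourE ρ (χ y) (bd k (∑ a, χ y a • f a)) = 0 := by
      rw [← bd_fourE, ← e1, bd_fourE, hb, map_zero]
    rw [e1]
    generalize ∑ a, χ y a • f a = u at m1 m2 e2
    by_cases hy : χ y = 1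
    · have e3 : bd k u = 0 := by
        ext σ
        by_contra hσ
        exact hσ (four_coeff_eq_zero hρ hA (χ y) hinj m2 e2 (mem_sup.1 m2 σ hσ)
          fun a _ => by rw [hy, AddChar.one_apply])
      obtain ⟨w₀, hw₀, e4⟩ := h u m1 e3
      choose w hw hw' using fourier_fix ρ hρ χ hχ hY Good hrel hg m1 e3
      refine ⟨∑ a, χ y (-a) • (w a + w₀), Submodule.sum_mem _ fun a _ => Submodule.smul_mem _ _
        (Submodule.add_mem _ (sup_mono hℬ (hw a)) hw₀), ?_⟩
      rw [fourE_apply, map_sum]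
      refine Finset.sum_congr rfl fun a _ => ?_
      rw [map_smul, map_add, hw', e4, add_assoc, add_self_ch, add_zero]
    · obtain ⟨w, hw, e⟩ := fourE_bound hρ (χ y) (hrel y hy) (hg y hy) m1
        (mem_sup.2 fun σ hσ x hx => by
          by_contra hx'
          exact hσ (four_coeff_eq_zero hρ hA (χ y) hinj m2 e2 (mem_sup.1 m2 σ hσ)
            (hbad y σ (mem_sup.1 m2 σ hσ) x hx hx')))
      exact ⟨w, sup_mono hℬ hw, e⟩
  choose w hw hw' using h1
  refine ⟨(Fintype.card Y : k)⁻¹ • ∑ y, w y,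
    Submodule.smul_mem _ _ (Submodule.sum_mem _ fun y _ => hw y), ?_⟩
  rw [map_smul, map_sum]
  simp only [hw']
  rw [sum_fourE hρ χ hχ, inv_smul_smul₀ hY]

end fourier

end Crest.Agent.R066
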