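import Crest.Agent.R066.Unip

/-! Row 66: the congruence subgroup of level `t`. -/

set_option autoImplicit false
set_option linter.unusedSectionVars false

namespace Crest.Agent.R066

open Finset

variable {F R : Type} [Field F] [CommRing R] [Algebra F R] [Finite R] {τ : TR F R} {N c : ℕ}
  {k : Type} [Field k] [CharP k 2]

theorem gamma_alg {A : Type} [Ring A] [Algebra R A] (Y X E : A) (s v : R) (hv : v * (1 + s) = 1)
    (hYY : Y * Y = 0) (hXX : X * X = 0) (hXY : X * Y = s • E) (hEX : E * X = X)
    (hYE : Y * E = Y) (hEY : E * Y = 0) :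
    (1 + (-v) • X) * (1 + Y) * (1 + X) * (1 + (-v) • Y) = 1 + Y * X + (v - 1) • E := by
  have hXYX : X * Y * X = s • X := by rw [hXY, smul_mul_assoc, hEX]
  have hYXY : Y * X * Y = s • Y := by rw [mul_assoc, hXY, mul_smul_comm, hYE]
  have h1 : (1 + (-v) • X) * (1 + Y) * (1 + X) = 1 + Y + Y * X + (v - 1) • E := by
    simp only [add_mul, mul_add, one_mul, mul_one, smul_mul_assoc, hXX, hXYX, smul_zero]
    rw [hXY]
    match_scalars <;> first | ring1 | linear_combination -hv
  rw [h1]
  simp only [add_mul, mul_add, one_mul, mul_one, smul_mul_assoc, mul_smul_comm, hYY, hYXY, hEY,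
    smul_zero]
  match_scalars <;> first | ring1 | linear_combination -hv

theorem mem_Gam {n : ℕ} {g : Gp τ N c} :
    g ∈ Gam τ N c n ↔
      g ∈ Gn τ N c n ∧ ∀ a b, τ.co 0 (mat g a b) = if a = b then 1 else 0 := Iff.rfl

variable (τ c) in
/-- elements whose row and column of index `e` vanish off the diagonal. -/
def gammaD (e : Fin N) : Subgroup (Gp τ N c) :=
  ofMul {g | ∀ a, a ≠ e → mat g a e = 0 ∧ mat g e a = 0}
    (fun a ha => by
      simp [Matrix.one_apply_ne ha, Matrix.one_apply_ne (Ne.symm ha)])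
    (by
      intro g hg h hh a ha
      rw [mat_mul, Matrix.mul_apply, Matrix.mul_apply]
      constructor
      · apply Finset.sum_eq_zero
        intro b _
        by_cases hb : b = e
        · rw [hb, (hg a ha).1, zero_mul]
        · rw [(hh b hb).1, mul_zero]
      · apply Finset.sum_eq_zero
        intro b _
        by_cases hb : b = e
        · rw [hb, (hh a ha).2, mul_zero]
        · rw [(hg b hb).2, zero_mul])

theorem mem_gammaD {e : Fin N} {g : Gp τ N c} :
    g ∈ gammaD τ c e ↔ ∀ a, a ≠ e → mat g a e = 0 ∧ mat g e a = 0 := Iff.rfl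

/-- the elementary step: changing the row `j`. -/
theorem gamma_step {m : ℕ} (hm : m < N) (j : Fin N) (hj : (j : ℕ) < m) (ξ : Fin N → R)
    (h0 : ∀ b, τ.co 0 (ξ b) = 0) (hs : ∀ b : Fin N, m ≤ (b : ℕ) → ξ b = 0) :
    ∃ g ∈ Subgroup.closure
      (Set.range (fun X : RowA τ N m (m + 1) => rowEl c X) ∪
        Set.range (fun X : ColA R N m (m + 1) => colEl τ c X)),
      ∃ v : R, τ.co 0 v = 1 ∧ ∀ a b : Fin N, mat g a b =
        (if a = b then 1 else 0) + (if a = j then ξ b else 0) +
          (if a = ⟨m, hm⟩ ∧ b = ⟨m, hm⟩ then v - 1 else 0) := by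
  classical
  set e : Fin N := ⟨m, hm⟩ with he
  have hje : j ≠ e := fun h => by rw [h] at hj; simp [he] at hj
  have hξe : ξ e = 0 := hs e le_rfl
  have hu : IsUnit (1 + ξ j) := τ.isUnit_of_co0 (by simp [h0, τ.co_one])
  obtain ⟨v, hv⟩ := hu.exists_left_inv
  have hv0 : τ.co 0 v = 1 := by
    have := congrArg (τ.co 0) hv
    simpa [τ.co0_mul, h0, τ.co_one] using this
  let ye : Fin N → R := Pi.single j 1
  let ee : Fin N → R := Pi.single e 1
  have hY : ∀ r : R, r • Matrix.vecMulVec ye ee ∈ ColA R N m (m + 1) := by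
    intro r a b hab
    simp only [Matrix.smul_apply, Matrix.vecMulVec_apply, ye, ee, Pi.single_apply]
    by_cases ha : a = j
    · have hb : b ≠ e := by
        rintro rfl
        apply hab
        subst ha
        simp [he, hj]
      simp [hb]
    · simp [ha]
  have hX : ∀ r : R, r • Matrix.vecMulVec ee ξ ∈ RowA τ N m (m + 1) := by
    intro r a b
    simp only [Matrix.smul_apply, Matrix.vecMulVec_apply, ee, Pi.single_apply, smul_eq_mul]
    refine ⟨by rw [τ.co0_mul, τ.co0_mul, h0, mul_zero, mul_zero], fun hab => ?_⟩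
    by_cases ha : a = e
    · have hb : m ≤ (b : ℕ) := by
        by_contra hb
        apply hab
        subst ha
        simp only [he]
        omega
      simp [hs b hb]
    · simp [ha]
  refine ⟨rowEl c ⟨_, hX (-v)⟩ * colEl τ c ⟨_, hY 1⟩ * rowEl c ⟨_, hX 1⟩ * colEl τ c ⟨_, hY (-v)⟩,
    ?_, v, hv0, ?_⟩
  · refine Subgroup.mul_mem _ (Subgroup.mul_mem _ (Subgroup.mul_mem _ ?_ ?_) ?_) ?_
    · exact Subgroup.subset_closure (Or.inl ⟨_, rfl⟩)
    · exact Subgroup.subset_closure (Or.inr ⟨_, rfl⟩)
    · exact Subgroup.subset_closure (Or.inl ⟨_, rfl⟩)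
    · exact Subgroup.subset_closure (Or.inr ⟨_, rfl⟩)
  · intro a b
    have d1 : ee ⬝ᵥ ye = 0 := by simp [ee, ye, hje.symm]
    have d2 : ξ ⬝ᵥ ee = 0 := by simp [ee, hξe]
    have d3 : ξ ⬝ᵥ ye = ξ j := by simp [ye]
    have d4 : ee ⬝ᵥ ee = 1 := by simp [ee]
    have key := gamma_alg (Matrix.vecMulVec ye ee) (Matrix.vecMulVec ee ξ)
      (Matrix.vecMulVec ee ee) (ξ j) v hv
      (by rw [Matrix.vecMulVec_mul_vecMulVec, d1]; simp)
      (by rw [Matrix.vecMulVec_mul_vecMulVec, d2]; simp)
      (by rw [Matrix.vecMulVec_mul_vecMulVec, d3, Matrix.vecMulVec_smul])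
      (by rw [Matrix.vecMulVec_mul_vecMulVec, d4, one_smul])
      (by rw [Matrix.vecMulVec_mul_vecMulVec, d4, one_smul])
      (by rw [Matrix.vecMulVec_mul_vecMulVec, d1]; simp)
    simp only [mat_mul, mat_rowEl, mat_colEl, one_smul]
    rw [key, Matrix.vecMulVec_mul_vecMulVec, d4, one_smul]
    simp only [Matrix.add_apply, Matrix.smul_apply, Matrix.vecMulVec_apply, Matrix.one_apply, ye,
      ee, Pi.single_apply, smul_eq_mul]
    by_cases h1 : a = j <;> by_cases h2 : a = e <;> by_cases h3 : b = e <;> simp [h1, h2, h3]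

/-- the row and column groups of the next index generate the congruence subgroup. -/
theorem Gam_le_closure {m : ℕ} (hm : m < N) :
    Gam τ N c m ≤ Subgroup.closure
      (Set.range (fun X : RowA τ N m (m + 1) => rowEl c X) ∪
        Set.range (fun X : ColA R N m (m + 1) => colEl τ c X)) := by
  classical
  set H := Subgroup.closure
      (Set.range (fun X : RowA τ N m (m + 1) => rowEl c X) ∪
        Set.range (fun X : ColA R N m (m + 1) => colEl τ c X)) with hH
  set e : Fin N := ⟨m, hm⟩ with he
  have main : ∀ j ≤ m, ∀ h ∈ Gam τ N c (m + 1) ⊓ gammaD τ c e,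
      (∀ a : Fin N, j ≤ (a : ℕ) → (a : ℕ) < m → ∀ b, mat h a b = if a = b then 1 else 0) →
        h ∈ H := by
    intro j
    induction j with
    | zero =>
      rintro - h ⟨⟨h1, h2⟩, h3⟩ h4
      have hrow : ∀ a : Fin N, a ≠ e → ∀ b, mat h a b = if a = b then 1 else 0 := by
        intro a ha b
        by_cases ham : (a : ℕ) < m
        · exact h4 a (Nat.zero_le _) ham b
        · refine h1 a b (Or.inl ?_)
          have : (a : ℕ) ≠ m := fun h' => ha (Fin.ext h')
          omega
      have hdiag : mat h = Matrix.diagonal (fun a => mat h a a) := by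
        ext a b
        rw [Matrix.diagonal_apply]
        split_ifs with hab
        · rw [hab]
        · by_cases ha : a = e
          · rw [ha]; exact (h3 b (fun hb => hab (ha.trans hb.symm))).2
          · rw [hrow a ha b, if_neg hab]
      have hdet : (mat h).det = mat h e e := by
        rw [hdiag, Matrix.det_diagonal, Finset.prod_eq_single e]
        · simp
        · intro a _ ha; rw [hrow a ha a, if_pos rfl]
        · simp
      obtain ⟨x, -, hx⟩ := mat_det h
      have hx1 : x = 1 := by
        have := h2 e e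
        rw [← hdet, hx, τ.co_alg] at this
        simpa using this
      have hee : mat h e e = 1 := by rw [← hdet, hx, hx1, map_one]
      have : h = 1 := by
        apply mat_inj
        rw [hdiag, mat_one, ← Matrix.diagonal_one]
        congr 1
        funext a
        by_cases ha : a = e
        · rw [ha, hee]
        · rw [hrow a ha a, if_pos rfl]
      rw [this]
      exact H.one_mem
    | succ j ih =>
      intro hj h hh h4
      obtain ⟨⟨i1, i2⟩, i3⟩ := Subgroup.inv_mem _ hh
      let jj : Fin N := ⟨j, by omega⟩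
      have hje : jj ≠ e := fun h' => by
        have := congrArg Fin.val h'
        simp only [jj, he] at this
        omega
      obtain ⟨g, hg, v, hv, hgm⟩ := gamma_step (τ := τ) (c := c) hm jj (by simp only [jj]; omega)
        (fun b => mat h⁻¹ jj b - if jj = b then 1 else 0)
        (fun b => by
          rw [map_sub, i2]
          split_ifs <;> simp [τ.co_one])
        (fun b hb => by
          have hjb : jj ≠ b := fun h' => by
            have := congrArg Fin.val h'
            simp only [jj] at this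
            omega
          by_cases hbe : b = e
          · rw [hbe, (i3 jj hje).1, if_neg hje, sub_zero]
          · have : (b : ℕ) ≠ m := fun h' => hbe (Fin.ext h')
            rw [i1 jj b (Or.inr (by omega)), sub_self])
      rw [← he] at hgm
      have hgG : g ∈ Gam τ N c (m + 1) ⊓ gammaD τ c e := by
        refine ⟨⟨fun a b hab => ?_, fun a b => ?_⟩, fun a ha => ⟨?_, ?_⟩⟩
        · have h5 : ¬ (a = e ∧ b = e) := by
            rintro ⟨rfl, rfl⟩
            simp only [he] at hab
            omega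
          rw [hgm, if_neg h5, add_zero]
          by_cases haj : a = jj
          · rw [if_pos haj, i1 jj b (haj ▸ hab), sub_self, add_zero]
          · rw [if_neg haj, add_zero]
        · rw [hgm, map_add, map_add]
          have e1 : τ.co 0 (if a = jj then mat h⁻¹ jj b - (if jj = b then 1 else 0) else 0) = 0 := by
            split_ifs with p q
            · rw [map_sub, i2, if_pos q]; simp [τ.co_one]
            · rw [map_sub, i2, if_neg q]; simp
            · simp
          have e2 : τ.co 0 (if a = e ∧ b = e then v - 1 else 0) = 0 := by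
            split_ifs
            · rw [map_sub, hv]; simp [τ.co_one]
            · simp
          rw [e1, e2]
          split_ifs <;> simp [τ.co_one]
        · rw [hgm, if_neg ha, if_neg (fun h' : a = e ∧ e = e => ha h'.1), (i3 jj hje).1,
            if_neg hje]
          simp
        · rw [hgm, if_neg (Ne.symm ha), if_neg (Ne.symm hje),
            if_neg (fun h' : e = e ∧ a = e => ha h'.2)]
          simp
      have hgh : g * h ∈ H := by
        refine ih (by omega) _ (Subgroup.mul_mem _ hgG hh) fun a ha1 ha2 b => ?_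
        have hae : a ≠ e := fun h' => by
          have := congrArg Fin.val h'
          simp only [he] at this
          omega
        rw [mat_mul, Matrix.mul_apply]
        by_cases haj : a = jj
        · have : ∀ x, mat g a x = mat h⁻¹ a x := by
            intro x
            rw [hgm, if_pos haj, if_neg (fun h' : a = e ∧ x = e => hae h'.1), haj]
            ring
          simp only [this]
          rw [← Matrix.mul_apply, mat_inv_mul, Matrix.one_apply]
        · have : ∀ x, mat g a x = if a = x then 1 else 0 := by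
            intro x
            rw [hgm, if_neg haj, if_neg (fun h' : a = e ∧ x = e => hae h'.1)]
            ring
          simp only [this, ite_mul, one_mul, zero_mul, Finset.sum_ite_eq, Finset.mem_univ, if_true]
          refine h4 a ?_ ha2 b
          have : (a : ℕ) ≠ j := fun h' => haj (Fin.ext h')
          omega
      have := H.mul_mem (H.inv_mem hg) hgh
      simpa using this
  rintro h ⟨h1, h2⟩
  refine main m le_rfl h ⟨⟨Gn_mono (Nat.le_succ m) h1, h2⟩, fun a ha => ⟨?_, ?_⟩⟩
    (fun a ha1 ha2 => absurd ha1 (by omega))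
  · rw [h1 a e (Or.inr le_rfl), if_neg ha]
  · rw [h1 e a (Or.inl le_rfl), if_neg (Ne.symm ha)]

theorem gamma_mat_pow (g : Gp τ N c) (n : ℕ) : mat (g ^ n) = mat g ^ n := by
  induction n with
  | zero => simp
  | succ n ih => rw [pow_succ, pow_succ, mat_mul, ih]

theorem card_Gam_ne_zero {p : ℕ} [CharP F p] (hp : p.Prime) (hp2 : p ≠ 2) (n : ℕ) :
    (Nat.card (Gam τ N c n) : k) ≠ 0 := by
  classical
  have : Fact p.Prime := ⟨hp⟩
  have hP : IsPGroup p (Gam τ N c n) := by
    rintro ⟨g, hg⟩
    refine ⟨τ.s, Subtype.ext (mat_inj ?_)⟩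
    have hx : ∀ a b, ∃ r, (mat g - 1) a b = τ.t * r := by
      intro a b
      apply τ.exists_eq_t_mul
      rw [Matrix.sub_apply, map_sub, hg.2, Matrix.one_apply]
      split_ifs <;> simp [τ.co_one]
    choose X hX using hx
    have hg1 : mat g = 1 + τ.t • Matrix.of X := by
      ext a b
      have := hX a b
      rw [Matrix.sub_apply] at this
      simp only [Matrix.add_apply, Matrix.smul_apply, Matrix.of_apply, smul_eq_mul, ← this]
      ring
    have hp0 : (p : Matrix (Fin N) (Fin N) R) = 0 := by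
      rw [← map_natCast (algebraMap F (Matrix (Fin N) (Fin N) R)), CharP.cast_eq_zero, map_zero]
    have hle : τ.s ≤ p ^ τ.s := (Nat.lt_pow_self hp.one_lt).le
    obtain ⟨r, hr⟩ := (Commute.one_left (τ.t • Matrix.of X)).exists_add_pow_prime_pow_eq hp τ.s
    show mat (g ^ p ^ τ.s) = 1
    rw [gamma_mat_pow, hg1, hr, hp0, smul_pow, pow_eq_zero_of_le hle τ.t_pow_s]
    simp
  obtain ⟨e, he⟩ := IsPGroup.iff_card.1 hP
  rw [he, Nat.cast_pow]
  refine pow_ne_zero _ fun h => hp2 ?_
  rw [CharP.cast_eq_zero_iff k 2] at h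
  exact ((Nat.prime_dvd_prime_iff_eq Nat.prime_two hp).1 h).symm

variable (τ) in
/-- the constant part, as a ring endomorphism. -/
def gammaCst : R →+* R := (algebraMap F R).comp τ.red

theorem gammaCst_apply (r : R) : gammaCst τ r = algebraMap F R (τ.co 0 r) := rfl

/-- the constant part of a group element. -/
noncomputable def gammaBar : Gp τ N c →* Gp τ N c where
  toFun g := mkG τ c ((mat g).map (gammaCst τ))
    (fun a b hb hab => by
      rw [Matrix.map_apply, mat_flag g a b hb hab |> fun h => show gammaCst τ (mat g a b) = 0 by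
        rw [gammaCst_apply, h, map_zero], map_zero])
    (by
      obtain ⟨x, hx, h⟩ := mat_det g
      refine ⟨x, hx, ?_⟩
      rw [← RingHom.mapMatrix_apply, ← RingHom.map_det, h, gammaCst_apply, τ.co_alg, if_pos rfl])
  map_one' := mat_inj (by simp)
  map_mul' g h := mat_inj (by simp [Matrix.map_mul])

theorem mat_gammaBar (g : Gp τ N c) (a b : Fin N) :
    mat (gammaBar g) a b = algebraMap F R (τ.co 0 (mat g a b)) := rfl

theorem gammaBar_bar (g : Gp τ N c) : gammaBar (gammaBar g) = gammaBar g := by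
  apply mat_inj
  ext a b
  rw [mat_gammaBar, mat_gammaBar, τ.co_alg, if_pos rfl]

theorem gammaBar_mem_Kb {j : ℕ} {g : Gp τ N c} (hg : g ∈ Kb τ N c j) :
    gammaBar g ∈ Kb τ N c j := by
  obtain ⟨x, hx, e⟩ := hg
  refine ⟨Matrix.of fun a b => if (b : ℕ) < j ∧ j ≤ (a : ℕ) then 0 else x a b, ?_, ?_⟩
  · intro a b ha hb
    rw [Matrix.of_apply, hx a b ha hb, ite_self]
  · ext a b
    rw [mat_gammaBar, e]
    simp only [tw, Matrix.of_apply]
    split_ifs with h
    · rw [τ.co_alg_mul, τ.co_t]; simp
    · simp only [mul_one, τ.co_alg, if_true]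

theorem gammaBar_mem_Kb_zero (g : Gp τ N c) : gammaBar g ∈ Kb τ N c 0 := by
  refine ⟨Matrix.of fun a b => τ.co 0 (mat g a b), fun a b ha _ => absurd ha (by omega), ?_⟩
  ext a b
  rw [mat_gammaBar]
  simp [tw]

theorem gammaBar_mem_Gn {n : ℕ} {g : Gp τ N c} (hg : g ∈ Gn τ N c n) :
    gammaBar g ∈ Gn τ N c n := by
  intro a b hab
  rw [mat_gammaBar, hg a b hab]
  split_ifs <;> simp [τ.co_one]

theorem gamma_mul_inv_mem {n : ℕ} {g : Gp τ N c} (hg : g ∈ Gn τ N c n) :
    g * (gammaBar g)⁻¹ ∈ Gam τ N c n := by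
  refine ⟨Subgroup.mul_mem _ hg (Subgroup.inv_mem _ (gammaBar_mem_Gn hg)), fun a b => ?_⟩
  have h1 : gammaBar (g * (gammaBar g)⁻¹) = 1 := by
    rw [map_mul, map_inv, gammaBar_bar, mul_inv_cancel]
  have h2 := mat_gammaBar (g * (gammaBar g)⁻¹) a b
  rw [h1, mat_one, Matrix.one_apply] at h2
  apply τ.alg_injective
  rw [← h2]
  split_ifs <;> simp

/-- the retraction of the complex on the link of the virtual vertex of colour `0`. -/
noncomputable def gammaPi (x : Vtx (Kc τ N c)) : Vtx (Kc τ N c) :=
  ⟨x.1, Quotient.map' (gammaBar : Gp τ N c → Gp τ N c) (fun g h hgh => by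
    rw [QuotientGroup.leftRel_apply] at hgh ⊢
    rw [← map_inv, ← map_mul]
    exact gammaBar_mem_Kb hgh) x.2⟩

theorem gammaPi_vtx (i : Fin c) (g : Gp τ N c) :
    gammaPi (vtx (Kc τ N c) i g) = vtx (Kc τ N c) i (gammaBar g) := rfl

theorem gammaPi_face (g : Gp τ N c) (J : Finset (Fin c)) :
    (face (Kc τ N c) g J).image gammaPi = face (Kc τ N c) (gammaBar g) J := by
  simp [face, Finset.image_image, Function.comp_def, gammaPi_vtx]

theorem gamma_Tn_ne_bot {n : ℕ} (hn : 0 < n) (hnN : n ≤ N) : ¬ Tn F N n ≤ ⊥ := by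
  intro h
  have : (Pi.single (⟨0, by omega⟩ : Fin N) (1 : F) : Fin N → F) ∈ Tn F N n := by
    intro a ha
    rw [Pi.single_eq_of_ne]
    rintro rfl
    simp only at ha
    omega
  have h2 := congrFun ((Submodule.mem_bot F).1 (h this)) ⟨0, by omega⟩
  simp at h2

theorem gamma_face_mem_Lk {n : ℕ} (hcn : c < n) (hnN : n ≤ N) {g : Gp τ N c}
    (h0 : g ∈ Kb τ N c 0) (hn : g ∈ Gn τ N c n) (J : Finset (Fin c)) :
    face (Kc τ N c) g J ∈ Lk τ N c 0 n ∅ univ (Tn F N n) ⊥ := by
  classical
  refine ⟨g, h0, hn, by simp [KJ], J, Finset.subset_univ _, fun j _ => ?_, rfl⟩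
  have hinv : untw τ 0 (mat g⁻¹) * untw τ 0 (mat g) = 1 := by
    rw [← untw_mul (Subgroup.inv_mem _ h0) h0, inv_mul_cancel, untw_one]
  have hinj : ∀ v w : Fin N → F,
      (untw τ 0 (mat g)).mulVec v = (untw τ 0 (mat g)).mulVec w → v = w := by
    intro v w h
    have := congrArg (untw τ 0 (mat g⁻¹)).mulVec h
    rwa [Matrix.mulVec_mulVec, Matrix.mulVec_mulVec, hinv, Matrix.one_mulVec,
      Matrix.one_mulVec] at this
  constructor
  · intro hle
    let o : Fin N := ⟨0, by omega⟩
    have h1 : (untw τ 0 (mat g)).mulVec (Pi.single o 1) ∈ Tn F N n := by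
      intro a ha
      have hao : a ≠ o := by
        rintro rfl
        simp only [o] at ha
        omega
      rw [Matrix.mulVec_single_one]
      simp [untw, hn a o (Or.inl ha), hao]
    obtain ⟨w, hw, e⟩ := hle h1
    have h2 : w = Pi.single o 1 := hinj _ _ e
    have h3 := hw o (Or.inr (by simp [pos, o]))
    rw [h2] at h3
    simp at h3
  · intro hle
    let o : Fin N := ⟨c, by omega⟩
    have h1 : (Pi.single o 1 : Fin N → F) ∈ Eop F N 0 n (j + 1) := by
      intro a ha
      rw [Pi.single_eq_of_ne]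
      rintro rfl
      have := j.2
      simp only [pos, o, Nat.zero_le, if_true] at ha
      omega
    have h2 : (untw τ 0 (mat g)).mulVec (Pi.single o 1) = 0 :=
      (Submodule.mem_bot F).1 (hle ⟨_, h1, rfl⟩)
    have h3 := congrFun (hinj _ 0 (by rw [h2, Matrix.mulVec_zero])) o
    simp at h3

/-- the sum of the translates of a cycle under the congruence subgroup bounds. -/
theorem Gam_sum_bounds (hL : LinkHyp τ N c k) {n : ℕ} (hcn : c < n) (hnN : n ≤ N) {j : ℕ}
    (hj : j < c) [Fintype (Gam τ N c n)] {z : Ch k (Vtx (Kc τ N c))}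
    (hz : z ∈ Sup k (Le (XX τ N c n) j)) (hb : bd k z = 0) :
    ∃ w ∈ Sup k (Le (XX τ N c n) (j + 1)),
      bd k w = ∑ γ : Gam τ N c n, act k (γ : Gp τ N c) z := by
  have hT := gamma_Tn_ne_bot (F := F) (N := N) (n := n) (by omega) hnN
  have hB := hL 0 n (Nat.zero_le _) hcn hnN univ (fun _ _ => Nat.succ_ne_zero _) (Tn F N n) ⊥
    (fun h => hT h.le) hT j (by simpa using hj)
  obtain ⟨w₀, hw₀, e₀⟩ := hB (push k gammaPi z)
    (push_mem_sup _ (by
      rintro _ ⟨⟨g, hg, J, -, rfl⟩, hc⟩
      refine ⟨?_, Finset.card_image_le.trans hc⟩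
      rw [gammaPi_face]
      exact gamma_face_mem_Lk hcn hnN (gammaBar_mem_Kb_zero g) (gammaBar_mem_Gn hg) J) hz)
    (by
      rw [bd_push gammaPi (𝒜 := Le (XX τ N c n) j) _ hz, hb, map_zero]
      intro σ hσ x hx y hy e
      have e' : (gammaPi x).1 = (gammaPi y).1 := by rw [e]
      exact fst_injOn_of_mem_Cx _ hσ.1 hx hy e')
  refine ⟨∑ γ : Gam τ N c n, act k (γ : Gp τ N c) w₀, Submodule.sum_mem _ fun γ _ => ?_, ?_⟩
  · refine push_mem_sup _ ?_ hw₀
    rintro _ ⟨⟨g, -, hg, -, J, -, -, rfl⟩, hc⟩
    refine ⟨?_, Finset.card_image_le.trans hc⟩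
    rw [image_smul_face]
    exact face_mem_Cx _ (Subgroup.mul_mem _ γ.2.1 hg) (Finset.subset_univ _)
  · rw [map_sum]
    simp only [bd_act, e₀]
    have := eq_on_sup (𝒜 := Le (XX τ N c n) j)
      (∑ γ : Gam τ N c n, act k (γ : Gp τ N c) ∘ₗ push k gammaPi)
      (∑ γ : Gam τ N c n, act k (γ : Gp τ N c)) ?_ hz
    · simpa using this
    · rintro _ ⟨⟨g, hg, J, -, rfl⟩, -⟩
      simp only [LinearMap.coe_sum, Finset.sum_apply, LinearMap.comp_apply, push_single,
        act_single, gammaPi_face, image_smul_face]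
      refine Fintype.sum_equiv (Equiv.mulRight (⟨_, gamma_mul_inv_mem hg⟩ : Gam τ N c n)⁻¹) _ _ ?_
      intro γ
      simp [mul_assoc]

end Crest.Agent.R066
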