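import Crest.Agent.R066.Defs

/-! Row 66: the concrete groups. `R = F[t]/t^s` is described by the structure `TR`. -/

set_option autoImplicit false

namespace Crest.Agent.R066

open Finset

/-- a truncated polynomial ring `F[t]/t^s`, with its coefficient functionals. -/
structure TR (F R : Type) [Field F] [CommRing R] [Algebra F R] where
  s : ℕ
  t : R
  co : ℕ → R →ₗ[F] F
  hs : 2 ≤ s
  co_one : ∀ e, co e 1 = if e = 0 then 1 else 0
  co_zero_t : ∀ r, co 0 (t * r) = 0
  co_succ_t : ∀ e r, e + 1 < s → co (e + 1) (t * r) = co e r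
  co_big : ∀ e r, s ≤ e → co e r = 0
  ext0 : ∀ r, (∀ e, co e r = 0) → r = 0

/-- a multiplicatively closed subset of a finite group containing `1` is a subgroup. -/
def ofMul {G : Type} [Group G] [Finite G] (S : Set G) (h1 : (1 : G) ∈ S)
    (hm : ∀ a ∈ S, ∀ b ∈ S, a * b ∈ S) : Subgroup G where
  carrier := S
  one_mem' := h1
  mul_mem' := fun {a b} ha hb => hm a ha b hb
  inv_mem' := by
    intro a ha
    have hp : ∀ n : ℕ, a ^ n ∈ S := by
      intro n
      induction n with
      | zero => simpa using h1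
      | succ n ih => rw [pow_succ]; exact hm _ ih _ ha
    have ho : 0 < orderOf a := orderOf_pos a
    have : a⁻¹ = a ^ (orderOf a - 1) := by
      rw [inv_eq_iff_mul_eq_one, ← pow_succ', Nat.sub_add_cancel ho, pow_orderOf_eq_one]
    show a⁻¹ ∈ S
    rw [this]; exact hp _

@[simp] theorem mem_ofMul {G : Type} [Group G] [Finite G] {S : Set G} {h1 : (1 : G) ∈ S}
    {hm : ∀ a ∈ S, ∀ b ∈ S, a * b ∈ S} {x : G} : x ∈ ofMul S h1 hm ↔ x ∈ S := Iff.rfl

namespace TR
variable {F R : Type} [Field F] [CommRing R] [Algebra F R] (τ : TR F R)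

theorem co_alg (e : ℕ) (x : F) : τ.co e (algebraMap F R x) = if e = 0 then x else 0 := by
  rw [Algebra.algebraMap_eq_smul_one, map_smul, τ.co_one]; split_ifs <;> simp

theorem co_alg_mul (e : ℕ) (x : F) (r : R) : τ.co e (algebraMap F R x * r) = x * τ.co e r := by
  rw [← Algebra.smul_def, map_smul, smul_eq_mul]

theorem co_mul_alg (e : ℕ) (x : F) (r : R) : τ.co e (r * algebraMap F R x) = τ.co e r * x := by
  rw [mul_comm, co_alg_mul, mul_comm]

theorem ext' {r r' : R} (h : ∀ e, τ.co e r = τ.co e r') : r = r' := by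
  have := τ.ext0 (r - r') (fun e => by rw [map_sub, h e, sub_self])
  exact sub_eq_zero.1 this

theorem co_t_pow (e m : ℕ) (hm : m < τ.s) : τ.co e (τ.t ^ m) = if e = m then 1 else 0 := by
  induction m generalizing e with
  | zero => simpa using τ.co_one e
  | succ m ih =>
    rw [pow_succ']
    cases e with
    | zero => rw [τ.co_zero_t]; simp
    | succ e =>
      by_cases he : e + 1 < τ.s
      · rw [τ.co_succ_t _ _ he, ih e (by omega)]; simp
      · rw [τ.co_big _ _ (by omega), if_neg (by omega)]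

theorem co_t (e : ℕ) : τ.co e τ.t = if e = 1 then 1 else 0 := by
  have := τ.co_t_pow e 1 (by have := τ.hs; omega)
  simpa using this

theorem eq_sum (r : R) : r = ∑ e ∈ range τ.s, algebraMap F R (τ.co e r) * τ.t ^ e := by
  apply τ.ext'
  intro e
  rw [map_sum]
  by_cases he : e < τ.s
  · rw [Finset.sum_eq_single e]
    · rw [co_alg_mul, co_t_pow _ _ _ he]; simp
    · intro b hb hne
      rw [co_alg_mul, co_t_pow _ _ _ (mem_range.1 hb), if_neg (Ne.symm hne), mul_zero]
    · intro h; exact absurd (mem_range.2 he) h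
  · rw [τ.co_big _ _ (by omega)]
    symm
    apply Finset.sum_eq_zero
    intro b _
    exact τ.co_big _ _ (by omega)

theorem exists_decomp (r : R) : ∃ r', r = algebraMap F R (τ.co 0 r) + τ.t * r' := by
  have hs := τ.hs
  obtain ⟨m, hm⟩ : ∃ m, τ.s = m + 1 := ⟨τ.s - 1, by omega⟩
  refine ⟨∑ e ∈ range m, algebraMap F R (τ.co (e + 1) r) * τ.t ^ e, ?_⟩
  conv_lhs => rw [τ.eq_sum r, hm, Finset.sum_range_succ']
  rw [Finset.mul_sum, pow_zero, mul_one, add_comm]
  congr 1
  apply Finset.sum_congr rfl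
  intro e _
  ring

theorem exists_eq_t_mul {r : R} (h : τ.co 0 r = 0) : ∃ r', r = τ.t * r' := by
  obtain ⟨r', hr⟩ := τ.exists_decomp r
  exact ⟨r', by rw [hr, h]; simp⟩

theorem co0_mul (r r' : R) : τ.co 0 (r * r') = τ.co 0 r * τ.co 0 r' := by
  obtain ⟨u, hu⟩ := τ.exists_decomp r
  conv_lhs => rw [hu]
  rw [add_mul, map_add, co_alg_mul, mul_assoc, τ.co_zero_t, add_zero]

theorem t_pow_s : τ.t ^ τ.s = 0 := by
  have hs := τ.hs
  obtain ⟨m, hm⟩ : ∃ m, τ.s = m + 1 := ⟨τ.s - 1, by omega⟩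
  apply τ.ext0
  intro e
  rw [hm, pow_succ']
  cases e with
  | zero => exact τ.co_zero_t _
  | succ e =>
    by_cases he : e + 1 < τ.s
    · rw [τ.co_succ_t _ _ he, co_t_pow _ _ _ (by omega), if_neg (by omega)]
    · exact τ.co_big _ _ (by omega)

/-- reduction modulo `t` as a ring homomorphism. -/
def red : R →+* F where
  toFun := τ.co 0
  map_one' := by simpa using τ.co_one 0
  map_mul' := τ.co0_mul
  map_zero' := map_zero _
  map_add' := map_add _

@[simp] theorem red_apply (r : R) : τ.red r = τ.co 0 r := rfl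

include τ in
theorem alg_injective : Function.Injective (algebraMap F R) := by
  intro x y h
  have := congrArg (τ.co 0) h
  simpa [co_alg] using this

theorem isUnit_of_co0 {r : R} (h : τ.co 0 r ≠ 0) : IsUnit r := by
  obtain ⟨u, hu⟩ := τ.exists_decomp r
  have hn : IsNilpotent (τ.t * u) := ⟨τ.s, by rw [mul_pow, τ.t_pow_s, zero_mul]⟩
  rw [hu]
  exact hn.isUnit_add_left_of_commute ((IsUnit.mk0 _ h).map (algebraMap F R)) (Commute.all _ _)

end TR

section grp
variable {F R : Type} [Field F] [CommRing R] [Algebra F R] [Finite R] (τ : TR F R) (N c : ℕ)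

/-- matrices that preserve the partial flag `E_1, …, E_c` modulo `t` and have constant
determinant. -/
def GG : Subgroup (GL (Fin N) R) :=
  ofMul {g | (∀ a b : Fin N, (b : ℕ) < c → b < a → τ.co 0 ((g : Matrix (Fin N) (Fin N) R) a b) = 0) ∧
      ∃ x : F, (g : Matrix (Fin N) (Fin N) R).det = algebraMap F R x}
    ⟨fun a b _ hab => by simp [Matrix.one_apply_ne (ne_of_gt hab)], 1, by simp⟩
    (by
      rintro g ⟨hg, x, hx⟩ h ⟨hh, y, hy⟩
      refine ⟨fun a b hb hab => ?_, x * y, by simp [hx, hy]⟩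
      rw [Units.val_mul, Matrix.mul_apply, map_sum]
      apply Finset.sum_eq_zero
      intro e _
      rw [τ.co0_mul]
      by_cases he : b < e
      · rw [hh e b hb he, mul_zero]
      · have h1 : e < a := lt_of_le_of_lt (not_lt.1 he) hab
        have h2 : (e : ℕ) < c := lt_of_le_of_lt (by simpa using not_lt.1 he) hb
        rw [hg a e h2 h1, zero_mul])

/-- the finite group. -/
abbrev Gp : Type := ↥(GG τ N c)

noncomputable instance : Fintype (Gp τ N c) := Fintype.ofFinite _

variable {τ N c}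

/-- the matrix of a group element. -/
def mat (g : Gp τ N c) : Matrix (Fin N) (Fin N) R := ((g : GL (Fin N) R) : Matrix (Fin N) (Fin N) R)

@[simp] theorem mat_one : mat (1 : Gp τ N c) = 1 := rfl
@[simp] theorem mat_mul (g h : Gp τ N c) : mat (g * h) = mat g * mat h := rfl
@[simp] theorem mat_mul_inv (g : Gp τ N c) : mat g * mat g⁻¹ = 1 := by rw [← mat_mul]; simp
@[simp] theorem mat_inv_mul (g : Gp τ N c) : mat g⁻¹ * mat g = 1 := by rw [← mat_mul]; simp
theorem mat_inj {g h : Gp τ N c} (e : mat g = mat h) : g = h := Subtype.ext (Units.ext e)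
theorem mat_flag (g : Gp τ N c) (a b : Fin N) (hb : (b : ℕ) < c) (hab : b < a) :
    τ.co 0 (mat g a b) = 0 := g.2.1 a b hb hab
theorem mat_det (g : Gp τ N c) : ∃ x : F, x ≠ 0 ∧ (mat g).det = algebraMap F R x := by
  obtain ⟨x, hx⟩ := g.2.2
  refine ⟨x, ?_, hx⟩
  rintro rfl
  have h1 : (mat g).det * (mat g⁻¹).det = 1 := by rw [← Matrix.det_mul]; simp
  have h2 : (mat g).det = 0 := hx.trans (map_zero _)
  rw [h2, zero_mul] at h1
  have := congrArg (τ.co 0) h1
  simp [τ.co_one] at this

variable (τ c) in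
/-- build a group element from a matrix. -/
noncomputable def mkG (M : Matrix (Fin N) (Fin N) R)
    (h1 : ∀ a b : Fin N, (b : ℕ) < c → b < a → τ.co 0 (M a b) = 0)
    (h2 : ∃ x : F, x ≠ 0 ∧ M.det = algebraMap F R x) : Gp τ N c :=
  ⟨Matrix.GeneralLinearGroup.mk'' M (by
      obtain ⟨x, hx, h⟩ := h2
      rw [h]; exact (IsUnit.mk0 x hx).map _),
    h1, by obtain ⟨x, _, h⟩ := h2; exact ⟨x, h⟩⟩

@[simp] theorem mat_mkG (M : Matrix (Fin N) (Fin N) R) (h1) (h2) : mat (mkG τ c M h1 h2) = M := rfl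

variable (τ) in
/-- twisted embedding of constant matrices at the boundary `j`. -/
def tw (j : ℕ) (k : Matrix (Fin N) (Fin N) F) : Matrix (Fin N) (Fin N) R :=
  Matrix.of fun a b => algebraMap F R (k a b) * (if (b : ℕ) < j ∧ j ≤ (a : ℕ) then τ.t else 1)

variable (τ) in
/-- left inverse of `tw`. -/
def untw (j : ℕ) (M : Matrix (Fin N) (Fin N) R) : Matrix (Fin N) (Fin N) F :=
  Matrix.of fun a b => if (b : ℕ) < j ∧ j ≤ (a : ℕ) then τ.co 1 (M a b) else τ.co 0 (M a b)

/-- the zero pattern at the boundary `j`. -/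
def ZP (j : ℕ) (k : Matrix (Fin N) (Fin N) F) : Prop :=
  ∀ a b : Fin N, (a : ℕ) < j → j ≤ (b : ℕ) → k a b = 0

omit [Finite R] in
theorem untw_tw (j : ℕ) (k : Matrix (Fin N) (Fin N) F) : untw τ j (tw τ j k) = k := by
  ext a b
  simp only [untw, tw, Matrix.of_apply]
  split_ifs with h
  · rw [τ.co_alg_mul, τ.co_t]; simp
  · rw [mul_one, τ.co_alg]; simp

omit [Finite R] in
theorem tw_one (j : ℕ) : tw τ j (1 : Matrix (Fin N) (Fin N) F) = 1 := by
  ext a b
  simp only [tw, Matrix.of_apply]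
  by_cases h : a = b
  · subst h; rw [if_neg (by omega)]; simp
  · simp [Matrix.one_apply_ne h]

theorem ZP.mul {j : ℕ} {k k' : Matrix (Fin N) (Fin N) F} (h : ZP j k) (h' : ZP j k') :
    ZP j (k * k') := by
  intro a b ha hb
  rw [Matrix.mul_apply]
  apply Finset.sum_eq_zero
  intro e _
  by_cases he : (e : ℕ) < j
  · rw [h' e b he hb, mul_zero]
  · rw [h a e ha (not_lt.1 he), zero_mul]

theorem ZP.one (j : ℕ) : ZP j (1 : Matrix (Fin N) (Fin N) F) := by
  intro a b ha hb
  exact Matrix.one_apply_ne (by rintro rfl; omega)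

omit [Finite R] in
theorem tw_mul {j : ℕ} {k k' : Matrix (Fin N) (Fin N) F} (h : ZP j k) (h' : ZP j k') :
    tw τ j (k * k') = tw τ j k * tw τ j k' := by
  ext a b
  simp only [tw, Matrix.of_apply, Matrix.mul_apply, map_sum, Finset.sum_mul]
  apply Finset.sum_congr rfl
  intro e _
  by_cases ha : (a : ℕ) < j <;> by_cases hb : (b : ℕ) < j <;> by_cases he : (e : ℕ) < j
  all_goals first
    | (rw [h a e ha (not_lt.1 he)]; simp)
    | (rw [h' e b he (not_lt.1 hb)]; simp)
    | (simp only [hb, he, not_lt.1 ha, true_and, if_true, not_le.2 he, if_false, map_mul]; ring)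
    | (simp only [hb, he, not_lt.1 ha, not_lt.1 he, true_and, if_true, false_and, if_false,
        map_mul]; ring)
    | (simp only [hb, he, not_le.2 ha, not_le.2 he, and_false, if_false, map_mul]; ring)

omit [Finite R] in
theorem det_tw {j : ℕ} {k : Matrix (Fin N) (Fin N) F} (h : ZP j k) :
    (tw τ j k).det = algebraMap F R k.det := by
  rw [Matrix.twoBlockTriangular_det' (tw τ j k) (fun a => (a : ℕ) < j),
    Matrix.twoBlockTriangular_det' k (fun a => (a : ℕ) < j), map_mul, RingHom.map_det,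
    RingHom.map_det]
  · congr 2
    · ext a b
      simp only [Matrix.toSquareBlockProp_def, tw, Matrix.of_apply, RingHom.mapMatrix_apply,
        Matrix.map_apply]
      rw [if_neg (by have := a.2; omega), mul_one]
    · ext a b
      simp only [Matrix.toSquareBlockProp_def, tw, Matrix.of_apply, RingHom.mapMatrix_apply,
        Matrix.map_apply]
      rw [if_neg (by have := b.2; omega), mul_one]
  · intro a ha b hb; exact h a b ha (not_lt.1 hb)
  · intro a ha b hb
    simp [tw, h a b ha (not_lt.1 hb)]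

variable (τ N c)

/-- the stabiliser of the base vertex at the boundary `j`. -/
def Kb (j : ℕ) : Subgroup (Gp τ N c) :=
  ofMul {g | ∃ k : Matrix (Fin N) (Fin N) F, ZP j k ∧ mat g = tw τ j k}
    ⟨1, ZP.one j, by rw [tw_one]; rfl⟩
    (by
      rintro g ⟨k, hk, e⟩ h ⟨k', hk', e'⟩
      exact ⟨k * k', hk.mul hk', by rw [mat_mul, e, e', tw_mul hk hk']⟩)

/-- the vertex stabilisers of the complex: colour `i` is the boundary `i + 1`. -/
def Kc : Fin c → Subgroup (Gp τ N c) := fun i => Kb τ N c (i + 1)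

/-- elements that are trivial outside the top left `n × n` block. -/
def Gn (n : ℕ) : Subgroup (Gp τ N c) :=
  ofMul {g | ∀ a b : Fin N, (n ≤ (a : ℕ) ∨ n ≤ (b : ℕ)) → mat g a b = if a = b then 1 else 0}
    (fun a b _ => by simp [Matrix.one_apply])
    (by
      intro g hg h hh a b hab
      rw [mat_mul, Matrix.mul_apply]
      rcases hab with ha | hb
      · rw [Finset.sum_eq_single a]
        · rw [hg a a (Or.inl ha), hh a b (Or.inl ha)]; simp
        · intro e _ he; rw [hg a e (Or.inl ha), if_neg (Ne.symm he), zero_mul]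
        · simp
      · rw [Finset.sum_eq_single b]
        · rw [hg a b (Or.inr hb), hh b b (Or.inr hb)]; simp
        · intro e _ he; rw [hh e b (Or.inr hb), if_neg he, mul_zero]
        · simp)

/-- the complex of rank `n`. -/
def XX (n : ℕ) : Set (Finset (Vtx (Kc τ N c))) := Cx (Kc τ N c) (Gn τ N c n) Finset.univ

variable {τ N c}

theorem mem_Kb {j : ℕ} {g : Gp τ N c} :
    g ∈ Kb τ N c j ↔ ∃ k : Matrix (Fin N) (Fin N) F, ZP j k ∧ mat g = tw τ j k := Iff.rfl

theorem mem_Gn {n : ℕ} {g : Gp τ N c} :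
    g ∈ Gn τ N c n ↔
      ∀ a b : Fin N, (n ≤ (a : ℕ) ∨ n ≤ (b : ℕ)) → mat g a b = if a = b then 1 else 0 := Iff.rfl

theorem Gn_mono {n n' : ℕ} (h : n ≤ n') : Gn τ N c n ≤ Gn τ N c n' :=
  fun _ hg a b hab => hg a b (by omega)

theorem Gn_top : Gn τ N c N = ⊤ := by
  rw [eq_top_iff]
  intro g _ a b hab
  have := a.2; have := b.2; omega

theorem untw_ZP {j : ℕ} {g : Gp τ N c} (hg : g ∈ Kb τ N c j) : ZP j (untw τ j (mat g)) := by
  obtain ⟨k, hk, e⟩ := hg
  rw [e, untw_tw]; exact hk

theorem tw_untw {j : ℕ} {g : Gp τ N c} (hg : g ∈ Kb τ N c j) : tw τ j (untw τ j (mat g)) = mat g := by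
  obtain ⟨k, _, e⟩ := hg
  rw [e, untw_tw]

theorem untw_mul {j : ℕ} {g h : Gp τ N c} (hg : g ∈ Kb τ N c j) (hh : h ∈ Kb τ N c j) :
    untw τ j (mat (g * h)) = untw τ j (mat g) * untw τ j (mat h) := by
  obtain ⟨k, hk, e⟩ := hg
  obtain ⟨k', hk', e'⟩ := hh
  rw [mat_mul, e, e', ← tw_mul hk hk', untw_tw, untw_tw, untw_tw]

theorem untw_one (j : ℕ) : untw τ j (mat (1 : Gp τ N c)) = 1 := by
  rw [mat_one, ← tw_one (τ := τ) j, untw_tw]

end grp

/-! ### the link data -/

section link
variable (F : Type) [Field F] (N : ℕ)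

/-- cyclic position of the index (or boundary) `a` seen from the boundary `i` in rank `n`. -/
def pos (i n a : ℕ) : ℕ := if i ≤ a then a - i else n - i + a

/-- coordinate subspace: the coordinates satisfying `p` vanish. -/
def Van (p : Fin N → Prop) : Submodule F (Fin N → F) where
  carrier := {w | ∀ a, p a → w a = 0}
  add_mem' := fun {v w} hv hw a ha => by simp [hv a ha, hw a ha]
  zero_mem' := fun _ _ => rfl
  smul_mem' := fun x w hw a ha => by simp [hw a ha]

theorem mem_Van {p : Fin N → Prop} {w : Fin N → F} : w ∈ Van F N p ↔ ∀ a, p a → w a = 0 := Iff.rfl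

/-- vectors supported on the first `n` coordinates. -/
def Tn (n : ℕ) : Submodule F (Fin N → F) := Van F N fun a => n ≤ (a : ℕ)

/-- the flag at the base vertex of boundary `i`. -/
def Efl (i n m : ℕ) : Submodule F (Fin N → F) := Van F N fun a => n ≤ (a : ℕ) ∨ m ≤ pos i n a

/-- the subspace attached to the base vertex of boundary `j` in the link of boundary `i`. -/
def Eop (i n j : ℕ) : Submodule F (Fin N → F) :=
  Van F N fun a => n ≤ (a : ℕ) ∨ pos i n a < pos i n j

end link

section link2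
variable {F R : Type} [Field F] [CommRing R] [Algebra F R] [Finite R] {τ : TR F R} {N c : ℕ}

/-- the subspace attached to the vertex of boundary `j` of the chamber `g ∈ Kb i`. -/
def Wsub (i n j : ℕ) (g : Gp τ N c) : Submodule F (Fin N → F) :=
  (Eop F N i n j).map (Matrix.mulVecLin (untw τ i (mat g)))

variable (τ N c) in
/-- the part of the link of the base face of type `I` (and boundary `i`) with colours in `D` whose
subspaces do not contain `U` and are not contained in `H`. -/
def Lk (i n : ℕ) (I D : Finset (Fin c)) (U H : Submodule F (Fin N → F)) :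
    Set (Finset (Vtx (Kc τ N c))) :=
  {σ | ∃ g : Gp τ N c, g ∈ Kb τ N c i ∧ g ∈ Gn τ N c n ∧ g ∈ KJ (Kc τ N c) I ∧ ∃ J, J ⊆ D ∧
    (∀ j ∈ J, ¬ U ≤ Wsub i n (j + 1) g ∧ ¬ Wsub i n (j + 1) g ≤ H) ∧ σ = face (Kc τ N c) g J}

variable (τ N c) in
/-- acyclicity of all (partial) vertex links. -/
def LinkHyp (k : Type) [Field k] : Prop :=
  ∀ i n : ℕ, i ≤ c → c < n → n ≤ N → ∀ D : Finset (Fin c), (∀ j ∈ D, (j : ℕ) + 1 ≠ i) →
    ∀ U H : Submodule F (Fin N → F), U ≠ ⊥ → ¬ Tn F N n ≤ H → ∀ j < D.card,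
      Bounds k (Le (Lk τ N c i n ∅ D U H) j) (Le (Lk τ N c i n ∅ D U H) (j + 1))

end link2

end Crest.Agent.R066
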