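import Crest.Agent.R066.Avg

/-! Row 66: trickle-down and the swap bound. -/

set_option autoImplicit false
set_option linter.unusedSectionVars false

namespace Crest.Agent.R066

open Finset

variable {G : Type} [Group G] [Fintype G] {ι : Type} [Fintype ι] [DecidableEq ι]
  (K : ι → Subgroup G)

theorem tr_rinv_sub {H : Subgroup G} {f g : EuclideanSpace ℝ G} (hf : RInv H f) (hg : RInv H g) :
    RInv H (f - g) := fun x h hh => by
  simp only [PiLp.sub_apply, hf x h hh, hg x h hh]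

theorem tr_avg_sub_avg (H : Subgroup G) (f : EuclideanSpace ℝ G) : avg H (f - avg H f) = 0 := by
  rw [map_sub, avg_avg_of_le le_rfl, sub_self]

theorem tr_pair_le {i l : ι} : KJ K (insert i {l}) ≤ K i :=
  fun _ hg => (mem_KJ K).1 hg i (mem_insert_self _ _)

theorem tr_pair_le' {i l : ι} : KJ K (insert i {l}) ≤ K l :=
  fun _ hg => (mem_KJ K).1 hg l (mem_insert_of_mem (mem_singleton_self _))

/-- the link estimate in the form used below. -/
theorem tr_link {lam : ℝ} (hl : ∀ l : ι, PairBd K {l} lam) {i j l : ι} (hij : i ≠ j) (hil : i ≠ l)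
    (hjl : j ≠ l) {f : EuclideanSpace ℝ G} (hf : RInv (K i) f) :
    ‖avg (KJ K (insert j {l})) (f - avg (K l) f)‖ ≤ lam * ‖f - avg (K l) f‖ := by
  have h := hl l i j (by simpa using hil) (by simpa using hjl) hij (f - avg (K l) f)
    (tr_rinv_sub (hf.mono (tr_pair_le K)) ((rinv_avg (K l) f).mono (tr_pair_le' K)))
  rwa [KJ_singleton, tr_avg_sub_avg, sub_zero] at h

/-- the two-colour bound on mean zero functions. -/
def TrBd (γ : ℝ) : Prop :=
  ∀ i j : ι, i ≠ j → ∀ f : EuclideanSpace ℝ G, RInv (K i) f → avg ⊤ f = 0 →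
    ‖avg (K j) f‖ ≤ γ * ‖f‖

theorem tr_inj {lam : ℝ} (h1 : lam ≤ 1 / 2) (hl : ∀ l : ι, PairBd K {l} lam)
    (hconn : ∀ f : EuclideanSpace ℝ G, (∀ i, RInv (K i) f) → RInv ⊤ f) {i j : ι} (hij : i ≠ j)
    {f : EuclideanSpace ℝ G} (hi : RInv (K i) f) (hj : RInv (K j) f) (h0 : avg ⊤ f = 0) :
    f = 0 := by
  have hall : ∀ l, RInv (K l) f := by
    intro l
    by_cases hil : i = l
    · exact hil ▸ hi
    by_cases hjl : j = l
    · exact hjl ▸ hj
    have h := tr_link K hl hij hil hjl hi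
    rw [avg_of_rinv (tr_rinv_sub (hj.mono (tr_pair_le K))
      ((rinv_avg (K l) f).mono (tr_pair_le' K)))] at h
    have hn := norm_nonneg (f - avg (K l) f)
    have hz : ‖f - avg (K l) f‖ = 0 := by nlinarith
    rw [norm_eq_zero, sub_eq_zero] at hz
    rw [hz]
    exact rinv_avg _ _
  rw [← avg_of_rinv (hconn f hall), h0]

theorem tr_pair_lt {lam : ℝ} (h1 : lam ≤ 1 / 2) (hl : ∀ l : ι, PairBd K {l} lam)
    (hconn : ∀ f : EuclideanSpace ℝ G, (∀ i, RInv (K i) f) → RInv ⊤ f) (i j : ι) :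
    ∃ γ : ℝ, 0 ≤ γ ∧ γ < 1 ∧ (i ≠ j → ∀ f : EuclideanSpace ℝ G, RInv (K i) f → avg ⊤ f = 0 →
      ‖avg (K j) f‖ ≤ γ * ‖f‖) := by
  by_cases hij : i = j
  · exact ⟨0, le_rfl, one_pos, fun h => absurd hij h⟩
  let V : Submodule ℝ (EuclideanSpace ℝ G) :=
    { carrier := {f | RInv (K i) f ∧ avg ⊤ f = 0}
      add_mem' := fun {a b} ha hb => ⟨fun x h hh => by
        simp only [PiLp.add_apply, ha.1 x h hh, hb.1 x h hh], by rw [map_add, ha.2, hb.2, add_zero]⟩
      zero_mem' := ⟨fun _ _ _ => rfl, map_zero _⟩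
      smul_mem' := fun c a ha => ⟨fun x h hh => by
        simp only [PiLp.smul_apply, ha.1 x h hh], by rw [map_smul, ha.2, smul_zero]⟩ }
  let T : V →ₗ[ℝ] EuclideanSpace ℝ G := (LinearMap.id - avg (K j)) ∘ₗ V.subtype
  have hT : LinearMap.ker T = ⊥ := by
    rw [LinearMap.ker_eq_bot']
    intro f hf
    have hf' : (f : EuclideanSpace ℝ G) - avg (K j) f = 0 := hf
    rw [sub_eq_zero] at hf'
    apply Subtype.ext
    exact tr_inj K h1 hl hconn hij f.2.1 (hf' ▸ rinv_avg _ _) f.2.2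
  obtain ⟨C, hC, hanti⟩ := LinearMap.exists_antilipschitzWith T hT
  have hC' : (0 : ℝ) < C := hC
  refine ⟨√(1 - 1 / (C : ℝ) ^ 2), Real.sqrt_nonneg _, ?_, fun _ f hf h0 => ?_⟩
  · rw [Real.sqrt_lt' one_pos]
    have : 0 < 1 / (C : ℝ) ^ 2 := by positivity
    linarith
  · have hb : ‖f‖ ≤ C * ‖f - avg (K j) f‖ := by
      have := hanti.le_mul_norm (map_zero T) (⟨f, hf, h0⟩ : V)
      exact this
    have hs := norm_sub_avg_sq (K j) f
    have hb2 : ‖f‖ ^ 2 ≤ (C : ℝ) ^ 2 * ‖f - avg (K j) f‖ ^ 2 := by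
      rw [← mul_pow]
      exact pow_le_pow_left₀ (norm_nonneg _) hb 2
    have hb3 : ‖f‖ ^ 2 / (C : ℝ) ^ 2 ≤ ‖f - avg (K j) f‖ ^ 2 := by
      rw [div_le_iff₀ (by positivity)]
      linarith
    rw [← Real.sqrt_sq (norm_nonneg f), ← Real.sqrt_mul' _ (sq_nonneg _)]
    apply Real.le_sqrt_of_sq_le
    have e : (1 - 1 / (C : ℝ) ^ 2) * ‖f‖ ^ 2 = ‖f‖ ^ 2 - ‖f‖ ^ 2 / (C : ℝ) ^ 2 := by ring
    linarith

theorem tr_exists_lt {lam : ℝ} (h1 : lam ≤ 1 / 2) (hl : ∀ l : ι, PairBd K {l} lam)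
    (hconn : ∀ f : EuclideanSpace ℝ G, (∀ i, RInv (K i) f) → RInv ⊤ f) [Nonempty ι] :
    ∃ γ : ℝ, 0 ≤ γ ∧ γ < 1 ∧ TrBd K γ := by
  choose γ hγ0 hγ1 hγ using tr_pair_lt K h1 hl hconn
  obtain ⟨p, hp⟩ := Finite.exists_max (fun p : ι × ι => γ p.1 p.2)
  refine ⟨γ p.1 p.2, hγ0 _ _, hγ1 _ _, fun i j hij f hf h0 => ?_⟩
  exact (hγ i j hij f hf h0).trans (mul_le_mul_of_nonneg_right (hp (i, j)) (norm_nonneg _))

theorem tr_inner_split (H : Subgroup G) (f g : EuclideanSpace ℝ G) :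
    inner ℝ f g = inner ℝ (avg H f) (avg H g) + inner ℝ (f - avg H f) (g - avg H g) := by
  have e : inner ℝ (avg H f) (avg H g) = inner ℝ f (avg H g) := by
    rw [inner_avg, avg_avg_of_le le_rfl]
  rw [inner_sub_left, inner_sub_right, inner_sub_right, e, inner_avg]
  ring

theorem tr_step {lam γ : ℝ} (h0 : 0 ≤ lam) (h1 : lam ≤ 1 / 2) (h3 : 3 ≤ Fintype.card ι)
    (hl : ∀ l : ι, PairBd K {l} lam) (hγ : TrBd K γ) :
    TrBd K (lam + (1 - lam) * γ ^ 2) := by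
  intro i j hij f hf hE
  obtain ⟨l, hl'⟩ : ∃ l, l ∉ ({i, j} : Finset ι) := by
    by_contra hc
    push Not at hc
    have : (univ : Finset ι) ⊆ {i, j} := fun x _ => hc x
    have h2 := card_le_card this
    rw [card_univ] at h2
    have := card_le_two (a := i) (b := j)
    omega
  simp only [mem_insert, mem_singleton, not_or] at hl'
  have hil : i ≠ l := fun h => hl'.1 h.symm
  have hjl : j ≠ l := fun h => hl'.2 h.symm
  set ψ := avg (K j) f with hψ
  have hψj : RInv (K j) ψ := rinv_avg _ _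
  have hψE : avg ⊤ ψ = 0 := by rw [hψ, avg_avg_of_le le_top, hE]
  have ha := hγ i l hil f hf hE
  have hb := hγ j l hjl ψ hψj hψE
  have e1 : ‖ψ‖ ^ 2 = inner ℝ f ψ := by
    rw [← real_inner_self_eq_norm_sq]
    conv_lhs => rw [hψ, inner_avg, avg_avg_of_le le_rfl]
  have e2 := tr_inner_split (K l) f ψ
  have i1 := real_inner_le_norm (avg (K l) f) (avg (K l) ψ)
  have i2 : inner ℝ (f - avg (K l) f) (ψ - avg (K l) ψ) ≤
      lam * ‖f - avg (K l) f‖ * ‖ψ - avg (K l) ψ‖ := by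
    have hθ : avg (KJ K (insert j {l})) (ψ - avg (K l) ψ) = ψ - avg (K l) ψ :=
      avg_of_rinv (tr_rinv_sub (hψj.mono (tr_pair_le K))
        ((rinv_avg (K l) ψ).mono (tr_pair_le' K)))
    calc inner ℝ (f - avg (K l) f) (ψ - avg (K l) ψ)
        = inner ℝ (avg (KJ K (insert j {l})) (f - avg (K l) f)) (ψ - avg (K l) ψ) := by
          rw [inner_avg, hθ]
      _ ≤ ‖avg (KJ K (insert j {l})) (f - avg (K l) f)‖ * ‖ψ - avg (K l) ψ‖ :=
          real_inner_le_norm _ _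
      _ ≤ _ := mul_le_mul_of_nonneg_right (tr_link K hl hij hil hjl hf) (norm_nonneg _)
  have s1 := norm_sub_avg_sq (K l) f
  have s2 := norm_sub_avg_sq (K l) ψ
  have n1 := norm_nonneg (avg (K l) f)
  have n2 := norm_nonneg (avg (K l) ψ)
  have n3 := norm_nonneg f
  have n4 := norm_nonneg ψ
  generalize ‖avg (K l) f‖ = a at *
  generalize ‖avg (K l) ψ‖ = b at *
  generalize ‖f - avg (K l) f‖ = x at *
  generalize ‖ψ - avg (K l) ψ‖ = y at *
  generalize ‖f‖ = F at *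
  generalize ‖ψ‖ = Ψ at *
  have hc0 : 0 ≤ lam + (1 - lam) * γ ^ 2 := by
    have : 0 ≤ 1 - lam := by linarith
    positivity
  have k0 : Ψ ^ 2 ≤ a * b + lam * x * y := by linarith
  have k1 : a ^ 2 + lam * x ^ 2 ≤ (lam + (1 - lam) * γ ^ 2) * F ^ 2 := by
    have : a ^ 2 ≤ (γ * F) ^ 2 := pow_le_pow_left₀ n1 ha 2
    rw [s1]
    nlinarith
  have k2 : b ^ 2 + lam * y ^ 2 ≤ (lam + (1 - lam) * γ ^ 2) * Ψ ^ 2 := by
    have : b ^ 2 ≤ (γ * Ψ) ^ 2 := pow_le_pow_left₀ n2 hb 2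
    rw [s2]
    nlinarith
  generalize lam + (1 - lam) * γ ^ 2 = c at *
  have k3 : (a * b + lam * x * y) ^ 2 ≤ (a ^ 2 + lam * x ^ 2) * (b ^ 2 + lam * y ^ 2) := by
    have := mul_nonneg h0 (sq_nonneg (a * y - b * x))
    nlinarith
  have k4 : (a * b + lam * x * y) ^ 2 ≤ (c * F * Ψ) ^ 2 := by
    calc _ ≤ _ := k3
      _ ≤ (c * F ^ 2) * (c * Ψ ^ 2) :=
          mul_le_mul k1 k2 (by positivity) (by positivity)
      _ = _ := by ring
  have k5 : a * b + lam * x * y ≤ c * F * Ψ := le_of_sq_le_sq k4 (by positivity)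
  rcases n4.eq_or_lt with h | h
  · rw [← h]; positivity
  · have : Ψ * Ψ ≤ c * F * Ψ := by nlinarith
    exact le_of_mul_le_mul_right this h

theorem tr_bd {lam : ℝ} (h0 : 0 ≤ lam) (h1 : lam ≤ 1 / 2) (h3 : 3 ≤ Fintype.card ι)
    (hl : ∀ l : ι, PairBd K {l} lam)
    (hconn : ∀ f : EuclideanSpace ℝ G, (∀ i, RInv (K i) f) → RInv ⊤ f) : TrBd K (2 * lam) := by
  have : Nonempty ι := Fintype.card_pos_iff.1 (by omega)
  obtain ⟨γ0, hγ0, hγ1, hγ⟩ := tr_exists_lt K h1 hl hconn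
  let S : Set ℝ := {γ | 0 ≤ γ ∧ TrBd K γ}
  have hne : S.Nonempty := ⟨γ0, hγ0, hγ⟩
  have hbd : BddBelow S := ⟨0, fun _ h => h.1⟩
  have hs0 : 0 ≤ sInf S := le_csInf hne fun _ h => h.1
  have hs1 : sInf S < 1 := (csInf_le hbd ⟨hγ0, hγ⟩).trans_lt hγ1
  have hs : TrBd K (sInf S) := by
    intro i j hij f hf hE
    rcases (norm_nonneg f).eq_or_lt with h | h
    · have := hγ i j hij f hf hE
      rw [← h] at this ⊢
      simpa using this
    · rw [← div_le_iff₀ h]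
      exact le_csInf hne fun γ hγ => (div_le_iff₀ h).2 (hγ.2 i j hij f hf hE)
  have hc0 : 0 ≤ lam + (1 - lam) * sInf S ^ 2 := by
    have : 0 ≤ 1 - lam := by linarith
    positivity
  have hle : sInf S ≤ lam + (1 - lam) * sInf S ^ 2 :=
    csInf_le hbd ⟨hc0, tr_step K h0 h1 h3 hl hs⟩
  have hfin : sInf S ≤ 2 * lam := by
    generalize sInf S = s at *
    have h2 : 0 ≤ (1 - s) * (lam * (1 + s) - s) := by nlinarith
    have h4 : 0 ≤ lam * (1 + s) - s := nonneg_of_mul_nonneg_right h2 (by linarith) |> fun h => h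
    nlinarith
  intro i j hij f hf hE
  exact (hs i j hij f hf hE).trans (mul_le_mul_of_nonneg_right hfin (norm_nonneg _))

theorem tr_telescope {lam : ℝ} (h0 : 0 ≤ lam) (hp : ∀ J, PairBd K J lam) {I : Finset ι} {v : ι}
    (hv : v ∉ I) {φ : EuclideanSpace ℝ G} (hφ : RInv (KJ K (insert v I)) φ) (U : Finset ι)
    (hU : v ∉ U) : ‖avg (KJ K (U ∪ I)) φ - avg (KJ K I) φ‖ ≤ U.card * lam * ‖φ‖ := by
  induction U using Finset.induction_on with
  | empty => simp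
  | insert u U hu ih =>
    have hvU : v ∉ U := fun h => hU (mem_insert_of_mem h)
    have hvu : v ≠ u := fun h => hU (h ▸ mem_insert_self _ _)
    have ih' := ih hvU
    have hn : 0 ≤ lam * ‖φ‖ := mul_nonneg h0 (norm_nonneg _)
    rw [card_insert_of_notMem hu, insert_union]
    push_cast
    by_cases huI : u ∈ U ∪ I
    · rw [insert_eq_of_mem huI]
      linarith
    · have h := hp (U ∪ I) v u (by simp [hv, hvU]) huI hvu φ
        (hφ.mono (KJ_anti K (insert_subset_insert _ subset_union_right)))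
      have ht := norm_sub_le_norm_sub_add_norm_sub (avg (KJ K (insert u (U ∪ I))) φ)
        (avg (KJ K (U ∪ I)) φ) (avg (KJ K I) φ)
      linarith

/-- one step of trickle-down, from vertex links to the whole complex. -/
theorem trickle {lam : ℝ} (h0 : 0 ≤ lam) (h1 : lam ≤ 1 / 2) (h3 : 3 ≤ Fintype.card ι)
    (hl : ∀ l : ι, PairBd K {l} lam)
    (hconn : ∀ f : EuclideanSpace ℝ G, (∀ i, RInv (K i) f) → RInv ⊤ f) :
    PairBd K ∅ (2 * lam) := by
  intro i j _ _ hij f hf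
  have e : ∀ a : ι, KJ K (insert a ∅) = K a := fun a => by
    rw [insert_empty_eq, KJ_singleton]
  rw [e] at hf
  rw [e, KJ_empty]
  have h := tr_bd K h0 h1 h3 hl hconn i j hij (f - avg ⊤ f)
    (tr_rinv_sub hf ((rinv_avg ⊤ f).mono le_top)) (tr_avg_sub_avg _ _)
  rw [map_sub, avg_avg_of_ge le_top] at h
  refine h.trans (mul_le_mul_of_nonneg_left ?_ (by positivity))
  have hs := norm_sub_avg_sq ⊤ f
  exact le_of_sq_le_sq (by nlinarith [sq_nonneg ‖avg ⊤ f‖]) (norm_nonneg _)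

/-- swap bound. -/
theorem swap_bd {lam : ℝ} (h0 : 0 ≤ lam) (hp : ∀ J, PairBd K J lam) {I J : Finset ι} {v : ι}
    (hIJ : I ⊆ J) (hv : v ∉ J) {h : EuclideanSpace ℝ G} (hh : RInv (KJ K J) h) :
    ‖avg (KJ K (insert v I)) h - avg (KJ K I) h‖ ≤ J.card * lam * ‖h‖ := by
  have hle : KJ K (insert v I) ≤ KJ K I := KJ_anti K (subset_insert _ _)
  set φ := avg (KJ K (insert v I)) h - avg (KJ K I) h with hφ
  have hφi : RInv (KJ K (insert v I)) φ :=
    tr_rinv_sub (rinv_avg _ _) ((rinv_avg _ _).mono hle)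
  have hφ0 : avg (KJ K I) φ = 0 := by
    rw [hφ, map_sub, avg_avg_of_le hle, avg_avg_of_le le_rfl, sub_self]
  have ht := tr_telescope K h0 hp (fun hh => hv (hIJ hh)) hφi J hv
  rw [union_eq_left.2 hIJ, hφ0, sub_zero] at ht
  have e : ‖φ‖ ^ 2 = inner ℝ (avg (KJ K J) φ) h := by
    rw [inner_avg, avg_of_rinv hh, ← real_inner_self_eq_norm_sq]
    nth_rewrite 2 [hφ]
    rw [inner_sub_right, ← inner_avg, ← inner_avg, avg_of_rinv hφi, hφ0, inner_zero_left, sub_zero]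
  have i1 := real_inner_le_norm (avg (KJ K J) φ) h
  have i2 := mul_le_mul_of_nonneg_right ht (norm_nonneg h)
  rcases (norm_nonneg φ).eq_or_lt with hz | hz
  · rw [← hz]; positivity
  · have : ‖φ‖ * ‖φ‖ ≤ J.card * lam * ‖h‖ * ‖φ‖ := by nlinarith
    exact le_of_mul_le_mul_right this hz

end Crest.Agent.R066
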