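import Crest.Agent.R066.Coset
import Crest.Agent.R066.Trickle

/-! Row 66: local to global (small locally minimal cocycles vanish). -/

set_option autoImplicit false
set_option linter.unusedSectionVars false

namespace Crest.Agent.R066

open Finset

variable {G : Type} [Group G] [Fintype G] {ι : Type} [Fintype ι] [DecidableEq ι]
  (K : ι → Subgroup G)

/-- integer weight of a cochain in cardinality `κ`: pairs (chamber, type) where it is non-zero. -/
noncomputable def wt (κ : ℕ) (g : Finset (Vtx K) → ZMod 2) : ℕ :=
  (((univ : Finset G) ×ˢ (univ : Finset ι).powersetCard κ).filter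
    (fun p => g (face K p.1 p.2) ≠ 0)).card

/-- indicator of the support of `g` on faces of type `J`, as a function on chambers. -/
noncomputable def ind (g : Finset (Vtx K) → ZMod 2) (J : Finset ι) : EuclideanSpace ℝ G :=
  WithLp.toLp 2 fun ω => if g (face K ω J) = 0 then 0 else 1

/-- `g` cannot be improved by the coboundary of a cochain living on the star of a vertex. -/
def LocMin (κ : ℕ) (g : Finset (Vtx K) → ZMod 2) : Prop :=
  ∀ (x : Vtx K) (γ : Finset (Vtx K) → ZMod 2), (∀ σ, γ σ ≠ 0 → x ∈ σ) →
    wt K κ g ≤ wt K κ (g + cobd γ)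

/-- `g` is a cocycle in cardinality `κ`. -/
def Cocyc (κ : ℕ) (g : Finset (Vtx K) → ZMod 2) : Prop :=
  ∀ (ω : G) (J : Finset ι), J.card = κ + 1 → cobd g (face K ω J) = 0

/-- all proper links have small cones. -/
def LinkCones (R : ℕ) : Prop :=
  ∀ I : Finset ι, I.Nonempty → I ≠ univ →
    HasCone (ZMod 2) (Cx K (KJ K I : Set G) Iᶜ) (Iᶜ.card - 1) R

theorem rinv_ind (g : Finset (Vtx K) → ZMod 2) (J : Finset ι) : RInv (KJ K J) (ind K g J) := by
  intro ω h hh
  have : face K (ω * h) J = face K ω J := by
    rw [eq_comm, face_eq_iff]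
    exact ⟨rfl, fun i hi => by simpa using (mem_KJ K).1 hh i hi⟩
  simp only [ind, this]

end Crest.Agent.R066
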