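import Crest.Agent.R066.LinkAux

/-! Row 66: the subspaces attached to the vertices of a link. -/

set_option autoImplicit false
set_option linter.unusedSectionVars false

namespace Crest.Agent.R066.LinkAux

open Finset Module Matrix

section van
variable {F : Type} [Field F] {N : ℕ}

theorem finrank_Van (p : Fin N → Prop) [DecidablePred p] :
    finrank F (Van F N p) = (univ.filter fun a => ¬ p a).card := by
  let φ : Van F N p →ₗ[F] ({a // ¬ p a} → F) :=
    { toFun := fun w a => (w : Fin N → F) a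
      map_add' := fun _ _ => rfl
      map_smul' := fun _ _ => rfl }
  have hφ : Function.Bijective φ := by
    constructor
    · intro v w e
      ext a
      by_cases h : p a
      · rw [v.2 a h, w.2 a h]
      · exact congrFun e ⟨a, h⟩
    · intro u
      refine ⟨⟨fun a => if h : p a then 0 else u ⟨a, h⟩, fun a ha => by simp [ha]⟩, ?_⟩
      funext a
      simp [φ, a.2]
  rw [(LinearEquiv.ofBijective φ hφ).finrank_eq, finrank_fintype_fun_eq_card, Fintype.card_subtype]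

theorem card_pos_Ico {i n m m' : ℕ} (hi : i ≤ n) (hn : n ≤ N) (hm : m' ≤ n) :
    (univ.filter fun a : Fin N => (a : ℕ) < n ∧ m ≤ pos i n a ∧ pos i n a < m').card = m' - m := by
  rw [← Nat.card_Ico]
  refine Finset.card_bij (fun a _ => pos i n a) ?_ ?_ ?_
  · intro a ha
    exact mem_Ico.2 (mem_filter.1 ha).2.2
  · intro a ha b hb e
    exact Fin.ext (pos_inj hi (mem_filter.1 ha).2.1 (mem_filter.1 hb).2.1 e)
  · intro x hx
    obtain ⟨a, ha, e⟩ := pos_surj hi (lt_of_lt_of_le (mem_Ico.1 hx).2 hm)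
    refine ⟨⟨a, by omega⟩, mem_filter.2 ⟨mem_univ _, ha, ?_⟩, e⟩
    simp only [e]
    exact mem_Ico.1 hx

theorem finrank_Tn {n : ℕ} (hn : n ≤ N) : finrank F (Tn F N n) = n := by
  rw [Tn, finrank_Van]
  refine Eq.trans (congrArg card (filter_congr fun a _ => ?_))
    (card_pos_Ico (i := 0) (m := 0) (Nat.zero_le n) hn le_rfl)
  simp [pos]

theorem finrank_Efl {i n m : ℕ} (hi : i ≤ n) (hn : n ≤ N) (hm : m ≤ n) :
    finrank F (Efl F N i n m) = m := by
  rw [Efl, finrank_Van]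
  refine Eq.trans (congrArg card (filter_congr fun a _ => ?_)) (card_pos_Ico (m := 0) hi hn hm)
  omega

theorem finrank_Eop {i n : ℕ} (j : ℕ) (hi : i ≤ n) (hn : n ≤ N) :
    finrank F (Eop F N i n j) = n - pos i n j := by
  rw [Eop, finrank_Van]
  refine Eq.trans (congrArg card (filter_congr fun a _ => ?_)) (card_pos_Ico hi hn le_rfl)
  constructor
  · intro h
    have := pos_lt (a := a) hi (by omega)
    omega
  · omega

theorem mulVec_mem_Van {p q : Fin N → Prop} {k : Matrix (Fin N) (Fin N) F}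
    (h : ∀ a b, p a → ¬ q b → k a b = 0) {v : Fin N → F} (hv : v ∈ Van F N q) :
    k *ᵥ v ∈ Van F N p := by
  intro a ha
  change ∑ b, k a b * v b = 0
  refine Finset.sum_eq_zero fun b _ => ?_
  by_cases hb : q b
  · simp [hv b hb]
  · simp [h a b ha hb]

theorem single_mem_Van {q : Fin N → Prop} {b : Fin N} (hb : ¬ q b) :
    (Pi.single b 1 : Fin N → F) ∈ Van F N q := fun a ha =>
  Pi.single_eq_of_ne (by rintro rfl; exact hb ha) _

theorem entry_zero_of_mulVec {p q : Fin N → Prop} {k : Matrix (Fin N) (Fin N) F}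
    (h : ∀ v ∈ Van F N q, k *ᵥ v ∈ Van F N p) {a b : Fin N} (ha : p a) (hb : ¬ q b) :
    k a b = 0 := by
  simpa using h _ (single_mem_Van hb) a ha

theorem Eop_le {i n j j' : ℕ} (h : pos i n j ≤ pos i n j') : Eop F N i n j' ≤ Eop F N i n j :=
  fun _ hv a ha => hv a (by omega)

theorem Eop_total (i n j j' : ℕ) :
    Eop F N i n j ≤ Eop F N i n j' ∨ Eop F N i n j' ≤ Eop F N i n j :=
  (le_total (pos i n j') (pos i n j)).imp Eop_le Eop_le

theorem Eop_le_Tn (i n j : ℕ) : Eop F N i n j ≤ Tn F N n := fun _ hv a ha => hv a (Or.inl ha)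

theorem eq_zero_of_Eop_Efl {i n j : ℕ} {v : Fin N → F} (h1 : v ∈ Eop F N i n j)
    (h2 : v ∈ Efl F N i n (pos i n j)) : v = 0 := by
  funext a
  by_cases h : pos i n a < pos i n j
  · exact h1 a (Or.inr h)
  · exact h2 a (Or.inr (not_lt.1 h))

end van

variable {F R : Type} [Field F] [CommRing R] [Algebra F R] [Finite R] {τ : TR F R} {N c : ℕ}

theorem mulVec_inj {i : ℕ} {g : Gp τ N c} (hg : g ∈ Kb τ N c i) :
    Function.Injective (mulVecLin (untw τ i (mat g))) := by
  intro v w e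
  have := congrArg (fun u => untw τ i (mat g⁻¹) *ᵥ u) e
  simpa only [mulVecLin_apply, mulVec_mulVec, untw_inv_mul hg, one_mulVec] using this

theorem Wsub_mul {i n j : ℕ} {g h : Gp τ N c} (hg : g ∈ Kb τ N c i) (hh : h ∈ Kb τ N c i) :
    Wsub i n j (g * h) = (Wsub i n j h).map (mulVecLin (untw τ i (mat g))) := by
  rw [Wsub, Wsub, untw_mul hg hh, mulVecLin_mul, Submodule.map_comp]

theorem finrank_Wsub {i n : ℕ} (j : ℕ) (hi : i ≤ n) (hn : n ≤ N) {g : Gp τ N c}
    (hg : g ∈ Kb τ N c i) : finrank F (Wsub i n j g) = n - pos i n j := by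
  rw [Wsub, ← (Submodule.equivMapOfInjective _ (mulVec_inj hg) _).finrank_eq, finrank_Eop j hi hn]

theorem Wsub_eq_Eop_iff {i j n : ℕ} (hi : i ≤ c) (hj : j ≤ c) (hc : c < n) (hN : n ≤ N)
    {g : Gp τ N c} (hg : g ∈ Kb τ N c i) (hn : g ∈ Gn τ N c n) :
    Wsub i n j g = Eop F N i n j ↔ g ∈ Kb τ N c j := by
  rw [mem_Kb_iff hi hj hc hg hn]
  constructor
  · intro h a b _ hb h1 h2
    refine entry_zero_of_mulVec (p := fun a => n ≤ (a : ℕ) ∨ pos i n a < pos i n j)
      (q := fun a => n ≤ (a : ℕ) ∨ pos i n a < pos i n j) (fun v hv => ?_) (Or.inr h1) (by omega)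
    change _ ∈ Eop F N i n j
    rw [← h]
    exact ⟨v, hv, rfl⟩
  · intro h
    refine Submodule.eq_of_le_of_finrank_eq ?_ (by
      rw [finrank_Wsub j (by omega) hN hg, finrank_Eop j (by omega) hN])
    rintro _ ⟨v, hv, rfl⟩
    refine mulVec_mem_Van (fun a b ha hb => ?_) hv
    by_cases ha' : n ≤ (a : ℕ)
    · rw [(mem_Gn_iff hg).1 hn a b (Or.inl ha'), if_neg (by rintro rfl; omega)]
    · exact h a b (by omega) (by omega) (by omega) (by omega)

theorem Wsub_eq_iff {i j n : ℕ} (hi : i ≤ c) (hj : j ≤ c) (hc : c < n) (hN : n ≤ N)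
    {g g' : Gp τ N c} (hg : g ∈ Kb τ N c i) (hn : g ∈ Gn τ N c n) (hg' : g' ∈ Kb τ N c i)
    (hn' : g' ∈ Gn τ N c n) : Wsub i n j g = Wsub i n j g' ↔ g⁻¹ * g' ∈ Kb τ N c j := by
  have h1 := mul_mem (inv_mem hg) hg'
  rw [← Wsub_eq_Eop_iff hi hj hc hN h1 (mul_mem (inv_mem hn) hn')]
  conv_lhs => rw [← mul_inv_cancel_left g g', Wsub_mul hg h1, Wsub]
  rw [(Submodule.map_injective_of_injective (mulVec_inj hg)).eq_iff, eq_comm]

theorem Wsub_le_Tn {i n : ℕ} (j : ℕ) {g : Gp τ N c} (hg : g ∈ Kb τ N c i) (hn : g ∈ Gn τ N c n) :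
    Wsub i n j g ≤ Tn F N n := by
  rintro _ ⟨v, hv, rfl⟩
  refine mulVec_mem_Van (fun a b ha hb => ?_) hv
  rw [(mem_Gn_iff hg).1 hn a b (Or.inl ha), if_neg (by rintro rfl; omega)]

theorem disjoint_Wsub {i j n : ℕ} (hi : i ≤ c) (hj : j ≤ c) (hc : c < n)
    {g : Gp τ N c} (hg : g ∈ Kb τ N c i) (hn : g ∈ Gn τ N c n) :
    Disjoint (Wsub i n j g) (Efl F N i n (pos i n j)) := by
  rw [Submodule.disjoint_def]
  rintro _ ⟨v, hv, rfl⟩ h2
  have h3 : untw τ i (mat g⁻¹) *ᵥ (untw τ i (mat g) *ᵥ v) ∈ Efl F N i n (pos i n j) := by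
    refine mulVec_mem_Van (fun a b ha hb => ?_) h2
    by_cases ha' : n ≤ (a : ℕ)
    · rw [(mem_Gn_iff (inv_mem hg)).1 (inv_mem hn) a b (Or.inl ha'), if_neg (by rintro rfl; omega)]
    · exact untw_lower hi hj hc (inv_mem hg) (by omega) (by omega) (by omega) (by omega)
  rw [mulVec_mulVec, untw_inv_mul hg, one_mulVec] at h3
  rw [eq_zero_of_Eop_Efl hv h3, map_zero]

theorem Wsub_total (i n j j' : ℕ) (g : Gp τ N c) :
    Wsub i n j g ≤ Wsub i n j' g ∨ Wsub i n j' g ≤ Wsub i n j g :=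
  (Eop_total i n j j').imp Submodule.map_mono Submodule.map_mono

/-- every chain of subspaces opposite to the flag lies in a chamber. -/
theorem exists_chamber {i n : ℕ} (hi : i ≤ n) (hN : n ≤ N) (C : Finset (Submodule F (Fin N → F)))
    (hT : ∀ W ∈ C, W ≤ Tn F N n) (hD : ∀ W ∈ C, Disjoint W (Efl F N i n (n - finrank F W)))
    (hC : ∀ W ∈ C, ∀ W' ∈ C, W ≤ W' ∨ W' ≤ W) :
    ∃ g ∈ Kb τ N c i, g ∈ Gn τ N c n ∧
      ∀ W ∈ C, ∀ j, finrank F W = n - pos i n j → pos i n j ≤ n → Wsub i n j g = W := by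
  classical
  have hle : ∀ W ∈ C, finrank F W ≤ n := fun W hW => by
    have := Submodule.finrank_mono (hT W hW)
    rwa [finrank_Tn hN] at this
  have col : ∀ b : Fin N, ∃ y : Fin N → F,
      (∀ a, y a ≠ 0 → (a : ℕ) < n ∧ (b : ℕ) < n ∧ pos i n a < pos i n b) ∧
      ((b : ℕ) < n → ∀ W ∈ C, n - finrank F W ≤ pos i n b → Pi.single b 1 + y ∈ W) := by
    intro b
    by_cases hb : (b : ℕ) < n
    swap
    · exact ⟨0, fun a h => absurd rfl h, fun h => absurd h hb⟩
    rcases (C.filter fun W : Submodule F (Fin N → F) => n - finrank F W ≤ pos i n b).eq_empty_or_nonempty with h0 | h0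
    · refine ⟨0, fun a h => absurd rfl h, fun _ W hW h => ?_⟩
      exact absurd (mem_filter.2 ⟨hW, h⟩) (by rw [h0]; exact notMem_empty W)
    obtain ⟨W0, hW0, hmin⟩ := exists_min_image _ (fun W : Submodule F (Fin N → F) => finrank F W) h0
    obtain ⟨hW0C, hW0b⟩ := mem_filter.1 hW0
    have hsup : W0 ⊔ Efl F N i n (n - finrank F W0) = Tn F N n := by
      refine Submodule.eq_of_le_of_finrank_eq (sup_le (hT W0 hW0C) fun v hv a ha => hv a (Or.inl ha)) ?_
      have := Submodule.finrank_sup_add_finrank_inf_eq W0 (Efl F N i n (n - finrank F W0))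
      rw [(hD W0 hW0C).eq_bot, finrank_bot, finrank_Efl hi hN (Nat.sub_le _ _)] at this
      have := hle W0 hW0C
      rw [finrank_Tn hN]
      omega
    have hb' : (Pi.single b 1 : Fin N → F) ∈ W0 ⊔ Efl F N i n (n - finrank F W0) := by
      rw [hsup]; exact single_mem_Van (by omega)
    obtain ⟨u, hu, y, hy, e⟩ := Submodule.mem_sup.1 hb'
    refine ⟨-y, fun a ha => ?_, fun _ W hW h => ?_⟩
    · have : ¬ (n ≤ (a : ℕ) ∨ n - finrank F W0 ≤ pos i n a) := fun h => ha (by simp [hy a h])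
      omega
    · have h1 : W0 ≤ W := by
        rcases hC W0 hW0C W hW with h1 | h1
        · exact h1
        · exact (Submodule.eq_of_le_of_finrank_le h1 (hmin W (mem_filter.2 ⟨hW, h⟩))).ge
      rw [← e, add_neg_cancel_right]
      exact h1 hu
  choose y hy1 hy2 using col
  obtain ⟨g, hg, hn, e⟩ := exists_unip (τ := τ) (c := c) hi (Y := Matrix.of fun a b => y b a)
    fun a b h => hy1 b a h
  refine ⟨g, hg, hn, fun W hW j hj hj' => ?_⟩
  refine Submodule.eq_of_le_of_finrank_eq ?_ (by rw [finrank_Wsub j hi hN hg, hj])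
  rintro _ ⟨v, hv, rfl⟩
  have e2 : mulVecLin (untw τ i (mat g)) v = ∑ b, v b • (Pi.single b 1 + y b) := by
    rw [e]
    funext a
    simp [mulVec, dotProduct, Pi.single_apply, mul_comm, Finset.sum_add_distrib]
  rw [e2]
  refine Submodule.sum_mem _ fun b _ => ?_
  by_cases hb : n ≤ (b : ℕ) ∨ pos i n b < pos i n j
  · rw [hv b hb, zero_smul]; exact W.zero_mem
  · exact W.smul_mem _ (hy2 b (by omega) W hW (by omega))

end Crest.Agent.R066.LinkAux
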