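import Crest.Agent.R066.Push
import Crest.Agent.R066.Cone

/-! Row 66: bounded fillings in posets of subspaces opposite to a flag, and in independence
complexes, for large fields. -/

set_option autoImplicit false
set_option linter.unusedSectionVars false

namespace Crest.Agent.R066

open Finset Module

theorem Kx_down {F V : Type} [Field F] [AddCommGroup V] [Module F V] (T : Submodule F V)
    (E : ℕ → Submodule F V) (U H : Submodule F V) (ρ : Finset (Submodule F V)) (D : Finset ℕ) :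
    Down (Kx T E U H ρ D) :=
  fun _ hσ _ hτ => ⟨fun W hW => hσ.1 W (hτ hW), fun W hW W' hW' => hσ.2 W (hτ hW) W' (hτ hW')⟩

section push
variable {k : Type} [Field k] [CharP k 2] {α : Type} [DecidableEq α]

/-- push a cycle off the bad vertices, then fill. -/
theorem po_bounds_push (Bad : Set α) {𝒲 𝒲' ℬ : Set (Finset α)} (ℒ : α → Set (Finset α))
    (hW : ∀ σ ∈ 𝒲, ∀ x ∈ σ, ∀ y ∈ σ, x ∈ Bad → y ∈ Bad → x = y)
    (hL : ∀ x ∈ Bad, ∀ σ ∈ ℒ x, ∀ y ∈ σ, y ∉ Bad)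
    (hB : ∀ x ∈ Bad, Bounds k {σ | (∀ y ∈ σ, y ∉ Bad) ∧ insert x σ ∈ 𝒲} (ℒ x))
    (h1 : ∀ x ∈ Bad, ∀ σ ∈ ℒ x, insert x σ ∈ ℬ)
    (h2 : ∀ σ ∈ 𝒲, (∀ y ∈ σ, y ∉ Bad) → σ ∈ 𝒲') (h3 : ∀ x ∈ Bad, ∀ σ ∈ ℒ x, σ ∈ 𝒲')
    (h4 : Bounds k 𝒲' ℬ) : Bounds k 𝒲 ℬ := by
  intro z hz hb
  obtain ⟨u, hu, hzu⟩ := pushoff_one Bad 𝒲 ℒ hW hL hB hz (by rw [hb]; exact Submodule.zero_mem _)
  have hzu' : z + bd k u ∈ Sup k 𝒲' := by
    refine sup_mono ?_ hzu
    rintro σ (⟨h, h'⟩ | ⟨x, hx, h⟩)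
    · exact h2 σ h h'
    · exact h3 x hx σ h
  obtain ⟨w, hw, e⟩ := h4 (z + bd k u) hzu' (by rw [map_add, hb, bd_bd, add_zero])
  refine ⟨w + u, Submodule.add_mem _ hw (sup_mono ?_ hu), ?_⟩
  · rintro _ ⟨x, hx, σ, hσ, rfl⟩
    exact h1 x hx σ hσ
  · rw [map_add, e, add_assoc, add_self_ch, add_zero]

/-- fill a cycle, then push the filling off the bad vertices. -/
theorem po_bounds_fill (Bad : Set α) {𝒜 𝒲 ℬ : Set (Finset α)} (ℒ : α → Set (Finset α))
    (hW : ∀ σ ∈ 𝒲, ∀ x ∈ σ, ∀ y ∈ σ, x ∈ Bad → y ∈ Bad → x = y)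
    (hL : ∀ x ∈ Bad, ∀ σ ∈ ℒ x, ∀ y ∈ σ, y ∉ Bad)
    (hB : ∀ x ∈ Bad, Bounds k {σ | (∀ y ∈ σ, y ∉ Bad) ∧ insert x σ ∈ 𝒲} (ℒ x))
    (h1 : ∀ σ ∈ 𝒜, ∀ y ∈ σ, y ∉ Bad)
    (h2 : ∀ σ ∈ 𝒲, (∀ y ∈ σ, y ∉ Bad) → σ ∈ ℬ) (h3 : ∀ x ∈ Bad, ∀ σ ∈ ℒ x, σ ∈ ℬ)
    (h4 : Bounds k 𝒜 𝒲) : Bounds k 𝒜 ℬ := by
  intro z hz hb
  obtain ⟨w, hw, e⟩ := h4 z hz hb
  obtain ⟨u, -, hwu⟩ := pushoff_one Bad 𝒲 ℒ hW hL hB hw (by rw [e]; exact sup_mono h1 hz)
  refine ⟨w + bd k u, sup_mono ?_ hwu, by rw [map_add, e, bd_bd, add_zero]⟩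
  rintro σ (⟨h, h'⟩ | ⟨x, hx, h⟩)
  · exact h2 σ h h'
  · exact h3 x hx σ h

theorem po_bounds_of_forall {𝒜 ℬ : Set (Finset α)} (h : ∀ σ, σ ∉ 𝒜) : Bounds k 𝒜 ℬ :=
  (bounds_empty ℬ).mono (fun σ hσ => h σ hσ) subset_rfl

end push

theorem po_avoid {F V : Type} [Field F] [Fintype F] [AddCommGroup V] [Module F V]
    (W : Submodule F V) (S : Finset (Submodule F V)) (h : ∀ P ∈ S, ¬ W ≤ P)
    (hc : S.card < Fintype.card F) : ∃ l ∈ W, ∀ P ∈ S, l ∉ P := by
  have := Submodule.iUnion_ssubset_of_forall_ne_top_of_card_lt (Finset.univ : Finset S)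
    (fun P : S => (P : Submodule F V).comap W.subtype)
    (fun P hP => h P P.2 (Submodule.comap_subtype_eq_top.1 hP))
    (by simpa [ENat.card_eq_coe_fintype_card] using hc)
  obtain ⟨l, -, hl⟩ := Set.exists_of_ssubset this
  refine ⟨l, l.2, fun P hP hlP => hl ?_⟩
  simp only [Set.mem_iUnion]
  exact ⟨⟨P, hP⟩, Finset.mem_univ _, hlP⟩

section poset
variable {F V : Type} [Field F] [AddCommGroup V] [Module F V] [FiniteDimensional F V]
  {T : Submodule F V} {E : ℕ → Submodule F V} {U H : Submodule F V}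
  {ρ : Finset (Submodule F V)} {D : Finset ℕ}

/-- vertices of `Kx` -/
def Vx (T : Submodule F V) (E : ℕ → Submodule F V) (U H : Submodule F V)
    (ρ : Finset (Submodule F V)) (D : Finset ℕ) (W : Submodule F V) : Prop :=
  W ∈ Opp T E U H ∧ finrank F W ∈ D ∧ ∀ W' ∈ ρ, W ≤ W' ∨ W' ≤ W

theorem po_mem_Kx {σ : Finset (Submodule F V)} : σ ∈ Kx T E U H ρ D ↔
    (∀ W ∈ σ, Vx T E U H ρ D W) ∧ ∀ W ∈ σ, ∀ W' ∈ σ, W ≤ W' ∨ W' ≤ W := Iff.rfl

theorem po_le_of_cmp {W W' : Submodule F V} (h : W ≤ W' ∨ W' ≤ W)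
    (hd : finrank F W ≤ finrank F W') : W ≤ W' := by
  rcases h with h | h
  · exact h
  · exact (Submodule.eq_of_le_of_finrank_le h hd).ge

theorem po_eq_of_cmp {W W' : Submodule F V} (h : W ≤ W' ∨ W' ≤ W)
    (hd : finrank F W = finrank F W') : W = W' :=
  le_antisymm (po_le_of_cmp h hd.le) (po_le_of_cmp h.symm hd.ge)

theorem po_insert_mem_Kx {σ : Finset (Submodule F V)} {x : Submodule F V} :
    insert x σ ∈ Kx T E U H ρ D ↔
      Vx T E U H ρ D x ∧ σ ∈ Kx T E U H ρ D ∧ ∀ W ∈ σ, W ≤ x ∨ x ≤ W := by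
  constructor
  · intro h
    exact ⟨h.1 x (mem_insert_self _ _), Kx_down _ _ _ _ _ _ _ h _ (subset_insert _ _),
      fun W hW => h.2 W (mem_insert_of_mem hW) x (mem_insert_self _ _)⟩
  · rintro ⟨h1, h2, h3⟩
    refine ⟨fun W hW => ?_, fun W hW W' hW' => ?_⟩
    · rcases mem_insert.1 hW with rfl | hW
      · exact h1
      · exact h2.1 W hW
    · rcases mem_insert.1 hW with e | h <;> rcases mem_insert.1 hW' with e' | h'
      · exact Or.inl (e.trans e'.symm).le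
      · exact e ▸ (h3 _ h').symm
      · exact e' ▸ h3 _ h
      · exact h2.2 _ h _ h'

theorem po_mem_Kx_link {σ : Finset (Submodule F V)} {x : Submodule F V} :
    σ ∈ Kx T E U H (insert x ρ) D ↔ σ ∈ Kx T E U H ρ D ∧ ∀ W ∈ σ, W ≤ x ∨ x ≤ W := by
  constructor
  · intro h
    exact ⟨⟨fun W hW => ⟨(h.1 W hW).1, (h.1 W hW).2.1,
      fun W' hW' => (h.1 W hW).2.2 W' (mem_insert_of_mem hW')⟩, h.2⟩,
      fun W hW => (h.1 W hW).2.2 x (mem_insert_self _ _)⟩
  · rintro ⟨h1, h2⟩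
    refine ⟨fun W hW => ⟨(h1.1 W hW).1, (h1.1 W hW).2.1, fun W' hW' => ?_⟩, h1.2⟩
    rcases mem_insert.1 hW' with rfl | hW'
    · exact h2 W hW
    · exact (h1.1 W hW).2.2 W' hW'

theorem po_Kx_dim {σ : Finset (Submodule F V)} {D' : Finset ℕ} (h : σ ∈ Kx T E U H ρ D)
    (hD : ∀ W ∈ σ, finrank F W ∈ D') : σ ∈ Kx T E U H ρ D' :=
  ⟨fun W hW => ⟨(h.1 W hW).1, hD W hW, (h.1 W hW).2.2⟩, h.2⟩

theorem po_step_missing {k : Type} [Field k] [CharP k 2] {c j N₁ Φ₂ : ℕ} (hc : c ∉ D)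
    {A B₁ : Finset (Submodule F V)} (hB₁ : B₁.card ≤ N₁)
    (h1 : Bounds k {σ | σ ∈ Le (Kx T E U H ρ D) j ∧ σ ⊆ A}
      {σ | σ ∈ Le (Kx T E U H ρ (insert c D)) (j + 1) ∧ σ ⊆ B₁})
    (h2 : ∀ x, Vx T E U H ρ (insert c D) x → finrank F x = c → ∃ B : Finset (Submodule F V),
      B.card ≤ Φ₂ ∧ Bounds k {σ | σ ∈ Le (Kx T E U H (insert x ρ) D) j ∧ σ ⊆ B₁}
        {σ | σ ∈ Le (Kx T E U H (insert x ρ) D) (j + 1) ∧ σ ⊆ B}) :
    ∃ B : Finset (Submodule F V), B.card ≤ N₁ + N₁ * Φ₂ ∧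
      Bounds k {σ | σ ∈ Le (Kx T E U H ρ D) j ∧ σ ⊆ A}
        {σ | σ ∈ Le (Kx T E U H ρ D) (j + 1) ∧ σ ⊆ B} := by
  have h2' : ∀ x, ∃ B : Finset (Submodule F V), B.card ≤ Φ₂ ∧
      (Vx T E U H ρ (insert c D) x → finrank F x = c →
        Bounds k {σ | σ ∈ Le (Kx T E U H (insert x ρ) D) j ∧ σ ⊆ B₁}
        {σ | σ ∈ Le (Kx T E U H (insert x ρ) D) (j + 1) ∧ σ ⊆ B}) := by
    intro x
    by_cases hx : Vx T E U H ρ (insert c D) x ∧ finrank F x = c
    · obtain ⟨B, hB, h⟩ := h2 x hx.1 hx.2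
      exact ⟨B, hB, fun _ _ => h⟩
    · exact ⟨∅, by simp, fun h h' => (hx ⟨h, h'⟩).elim⟩
  choose Bx hBx hb using h2'
  refine ⟨B₁ ∪ B₁.biUnion Bx, ?_, ?_⟩
  · refine (card_union_le _ _).trans (add_le_add hB₁ ?_)
    exact (card_biUnion_le_card_mul _ _ _ fun x _ => hBx x).trans (Nat.mul_le_mul_right _ hB₁)
  refine po_bounds_fill {W | finrank F W = c}
    (fun x => {σ | x ∈ B₁ ∧ σ ∈ Le (Kx T E U H (insert x ρ) D) (j + 1) ∧ σ ⊆ Bx x})
    ?_ ?_ ?_ ?_ ?_ ?_ h1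
  · intro σ hσ x hx y hy h h'
    exact po_eq_of_cmp (hσ.1.1.2 x hx y hy) (h.trans h'.symm)
  · intro x _ σ hσ y hy h
    exact hc (h ▸ (hσ.2.1.1.1 y hy).2.1)
  · intro x hx
    by_cases hv : Vx T E U H ρ (insert c D) x ∧ x ∈ B₁
    · refine (hb x hv.1 hx).mono ?_ fun σ hσ => ⟨hv.2, hσ⟩
      rintro σ ⟨hn, ⟨h3, h4⟩, h5⟩
      obtain ⟨-, h6, h7⟩ := po_insert_mem_Kx.1 h3
      refine ⟨⟨po_mem_Kx_link.2 ⟨po_Kx_dim h6 fun W hW => ?_, h7⟩, ?_⟩,
        (subset_insert _ _).trans h5⟩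
      · exact (mem_insert.1 (h6.1 W hW).2.1).resolve_left (hn W hW)
      · rw [card_insert_of_notMem fun h => hn x h hx] at h4
        omega
    · refine po_bounds_of_forall ?_
      rintro σ ⟨-, ⟨h3, -⟩, h5⟩
      exact hv ⟨(po_insert_mem_Kx.1 h3).1, h5 (mem_insert_self _ _)⟩
  · intro σ hσ y hy h
    exact hc (h ▸ (hσ.1.1.1 y hy).2.1)
  · rintro σ ⟨⟨h3, h4⟩, h5⟩ hn
    exact ⟨⟨po_Kx_dim h3 fun W hW => (mem_insert.1 (h3.1 W hW).2.1).resolve_left (hn W hW), h4⟩,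
      h5.trans subset_union_left⟩
  · rintro x _ σ ⟨h3, ⟨h4, h5⟩, h6⟩
    exact ⟨⟨(po_mem_Kx_link.1 h4).1, h5⟩,
      h6.trans ((subset_biUnion_of_mem Bx h3).trans subset_union_right)⟩

theorem po_step_top {k : Type} [Field k] [CharP k 2] {c j N Φ₂ : ℕ}
    {A : Finset (Submodule F V)} (hA : A.card ≤ N)
    (h2 : ∀ x, Vx T E U H ρ D x → finrank F x = c → ∀ i, i + 1 = j →
      ∃ B : Finset (Submodule F V),
      B.card ≤ Φ₂ ∧ Bounds k {σ | σ ∈ Le (Kx T E U H (insert x ρ) (D.erase c)) i ∧ σ ⊆ A}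
        {σ | σ ∈ Le (Kx T E U H (insert x ρ) (D.erase c)) (i + 1) ∧ σ ⊆ B}) :
    ∃ A₁ : Finset (Submodule F V), A₁.card ≤ N + N * Φ₂ ∧ ∀ B : Finset (Submodule F V), A₁ ⊆ B →
      Bounds k {σ | σ ∈ Le (Kx T E U H ρ (D.erase c)) j ∧ σ ⊆ A₁}
        {σ | σ ∈ Le (Kx T E U H ρ D) (j + 1) ∧ σ ⊆ B} →
      Bounds k {σ | σ ∈ Le (Kx T E U H ρ D) j ∧ σ ⊆ A}
        {σ | σ ∈ Le (Kx T E U H ρ D) (j + 1) ∧ σ ⊆ B} := by
  have h2' : ∀ x, ∃ B : Finset (Submodule F V), B.card ≤ Φ₂ ∧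
      (Vx T E U H ρ D x → finrank F x = c → ∀ i, i + 1 = j →
        Bounds k {σ | σ ∈ Le (Kx T E U H (insert x ρ) (D.erase c)) i ∧ σ ⊆ A}
        {σ | σ ∈ Le (Kx T E U H (insert x ρ) (D.erase c)) (i + 1) ∧ σ ⊆ B}) := by
    intro x
    by_cases hx : Vx T E U H ρ D x ∧ finrank F x = c ∧ j - 1 + 1 = j
    · obtain ⟨B, hB, h⟩ := h2 x hx.1 hx.2.1 _ hx.2.2
      refine ⟨B, hB, fun _ _ i hi => ?_⟩
      obtain rfl : i = j - 1 := by omega
      exact h
    · exact ⟨∅, by simp, fun h h' i hi => (hx ⟨h, h', by omega⟩).elim⟩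
  choose Bx hBx hb using h2'
  refine ⟨A ∪ A.biUnion Bx, ?_, fun B hB h4 => ?_⟩
  · refine (card_union_le _ _).trans (add_le_add hA ?_)
    exact (card_biUnion_le_card_mul _ _ _ fun x _ => hBx x).trans (Nat.mul_le_mul_right _ hA)
  refine po_bounds_push {W | finrank F W = c}
    (fun x => {σ | (x ∈ A ∧ Vx T E U H ρ D x) ∧
      σ ∈ Le (Kx T E U H (insert x ρ) (D.erase c)) j ∧ σ ⊆ Bx x})
    ?_ ?_ ?_ ?_ ?_ ?_ h4
  · intro σ hσ x hx y hy h h'
    exact po_eq_of_cmp (hσ.1.1.2 x hx y hy) (h.trans h'.symm)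
  · intro x _ σ hσ y hy h
    exact (mem_erase.1 (hσ.2.1.1.1 y hy).2.1).1 h
  · intro x hx
    by_cases hv : (x ∈ A ∧ Vx T E U H ρ D x) ∧ j - 1 + 1 = j
    · have := hb x hv.1.2 hx _ hv.2
      rw [hv.2] at this
      refine this.mono ?_ fun σ hσ => ⟨hv.1, hσ⟩
      rintro σ ⟨hn, ⟨h3, h4⟩, h5⟩
      obtain ⟨-, h6, h7⟩ := po_insert_mem_Kx.1 h3
      refine ⟨⟨po_mem_Kx_link.2 ⟨po_Kx_dim h6 fun W hW => ?_, h7⟩, ?_⟩,
        (subset_insert _ _).trans h5⟩
      · exact mem_erase.2 ⟨hn W hW, (h6.1 W hW).2.1⟩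
      · rw [card_insert_of_notMem fun h => hn x h hx] at h4
        omega
    · refine po_bounds_of_forall ?_
      rintro σ ⟨hn, ⟨h3, h4⟩, h5⟩
      rw [card_insert_of_notMem fun h => hn x h hx] at h4
      exact hv ⟨⟨h5 (mem_insert_self _ _), (po_insert_mem_Kx.1 h3).1⟩, by omega⟩
  · rintro x _ σ ⟨⟨h1, h2⟩, ⟨h4, h5⟩, h6⟩
    obtain ⟨h7, h8⟩ := po_mem_Kx_link.1 h4
    refine ⟨⟨po_insert_mem_Kx.2 ⟨h2, po_Kx_dim h7 fun W hW => ?_, h8⟩, ?_⟩, ?_⟩
    · exact mem_of_mem_erase (h7.1 W hW).2.1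
    · exact (card_insert_le _ _).trans (by omega)
    · exact (insert_subset (mem_union_left _ h1)
        (h6.trans ((subset_biUnion_of_mem Bx h1).trans subset_union_right))).trans hB
  · rintro σ ⟨⟨h3, h4⟩, h5⟩ hn
    exact ⟨⟨po_Kx_dim h3 fun W hW => mem_erase.2 ⟨hn W hW, (h3.1 W hW).2.1⟩, h4⟩,
      h5.trans subset_union_left⟩
  · rintro x _ σ ⟨h3, ⟨h4, h5⟩, h6⟩
    exact ⟨⟨(po_mem_Kx_link.1 h4).1, h5⟩,
      h6.trans ((subset_biUnion_of_mem Bx h3.1).trans subset_union_right)⟩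

theorem po_exists_high (hok : KxOK T E U H ρ D) {c : ℕ} (hc : c ∈ D) (hmax : ∀ e ∈ D, e ≤ c)
    (hfull : ∀ e, 0 < e → e < finrank F T → e ∈ D ∨ ∃ W ∈ ρ, finrank F W = e) :
    ∃ Wh : Submodule F V, finrank F Wh = c + 1 ∧ Wh ≤ T ∧
      Disjoint Wh (E (finrank F T - (c + 1))) ∧ ¬ Wh ≤ H ∧
      (∀ W ∈ ρ, c < finrank F W → Wh ≤ W) ∧ (∀ W ∈ ρ, finrank F W ≤ c → W ≤ Wh) ∧
      ∀ W, Vx T E U H ρ D W → W ≤ Wh := by
  have hcT := (hok.D_dim c hc).2
  by_cases h : c + 1 = finrank F T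
  · refine ⟨T, h.symm, le_rfl, ?_, hok.hH, fun W hW h1 => ?_, fun W hW _ => (hok.ρ_opp W hW).1,
      fun W hW => hW.1.1⟩
    · rw [h, Nat.sub_self, Submodule.finrank_eq_zero.1 (hok.dimE 0 (Nat.zero_le _))]
      exact disjoint_bot_right
    · have := (hok.ρ_dim W hW).2.1
      omega
  · rcases hfull (c + 1) (by omega) (by omega) with h1 | ⟨Wh, h1, h2⟩
    · have := hmax _ h1
      omega
    · refine ⟨Wh, h2, (hok.ρ_opp Wh h1).1, h2 ▸ (hok.ρ_opp Wh h1).2.1, (hok.ρ_opp Wh h1).2.2.2,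
        fun W hW h3 => po_le_of_cmp (hok.ρ_chain _ h1 _ hW) (by omega),
        fun W hW h3 => po_le_of_cmp (hok.ρ_chain _ hW _ h1) (by omega),
        fun W hW => po_le_of_cmp (hW.2.2 _ h1) ?_⟩
      have := hmax _ hW.2.1
      omega

theorem po_exists_low (hok : KxOK T E U H ρ D) {c : ℕ} (hc : c ∈ D)
    (hfull : ∀ e, 0 < e → e < finrank F T → e ∈ D ∨ ∃ W ∈ ρ, finrank F W = e) :
    ∃ Wl : Submodule F V, finrank F Wl < c ∧ (Wl = ⊥ ∨ Wl ∈ ρ) ∧
      Disjoint Wl (E (finrank F T - finrank F Wl)) ∧ ¬ U ≤ Wl ∧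
      (∀ W ∈ ρ, finrank F W ≤ c → W ≤ Wl) ∧ (∀ W, Vx T E U H ρ D W → W ≤ Wl ∨ Wl ≤ W) ∧
      ∀ e, finrank F Wl < e → e ≤ c → e ∈ D := by
  have hcT := hok.D_dim c hc
  have hne : ∀ W ∈ ρ, finrank F W ≠ c := fun W hW h => (hok.ρ_dim W hW).2.2 (h ▸ hc)
  rcases (ρ.filter fun W : Submodule F V => finrank F W ≤ c).eq_empty_or_nonempty with h | h
  · have h' : ∀ W ∈ ρ, ¬ finrank F W ≤ c := fun W hW => by
      rw [filter_eq_empty_iff] at h; exact h hW
    refine ⟨⊥, by simpa using hcT.1, Or.inl rfl, disjoint_bot_left, by simpa using hok.hU,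
      fun W hW h1 => (h' W hW h1).elim, fun W _ => Or.inr bot_le, fun e h1 h2 => ?_⟩
    rcases hfull e (by omega) (by omega) with h3 | ⟨W, h3, h4⟩
    · exact h3
    · exact (h' W h3 (by omega)).elim
  · obtain ⟨Wl, h1, h2⟩ := exists_max_image _ (fun W : Submodule F V => finrank F W) h
    obtain ⟨h3, h4⟩ := mem_filter.1 h1
    refine ⟨Wl, lt_of_le_of_ne h4 (hne _ h3), Or.inr h3, (hok.ρ_opp _ h3).2.1,
      (hok.ρ_opp _ h3).2.2.1,
      fun W hW h5 => po_le_of_cmp (hok.ρ_chain _ hW _ h3) (h2 W (mem_filter.2 ⟨hW, h5⟩)),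
      fun W hW => hW.2.2 _ h3, fun e h5 h6 => ?_⟩
    rcases hfull e (by omega) (by omega) with h7 | ⟨W, h7, h8⟩
    · exact h7
    · have := h2 W (mem_filter.2 ⟨h7, by omega⟩)
      omega

theorem po_exists_line [Fintype F] (hok : KxOK T E U H ρ D) {c : ℕ} {Wh : Submodule F V}
    (h1 : finrank F Wh = c + 1) (h2 : Wh ≤ T) (h3 : Disjoint Wh (E (finrank F T - (c + 1))))
    (h4 : ¬ Wh ≤ H) (S : Finset (Submodule F V)) (hS : 2 * S.card + 1 < Fintype.card F) :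
    ∃ l ∈ Wh, ∀ W ∈ S, W ≤ Wh → finrank F W < c → Disjoint W (E (finrank F T - finrank F W)) →
      ¬ U ≤ W → l ∉ W ∧ W ⊔ F ∙ l ∈ Opp T E U H := by
  classical
  have hcT : c + 1 ≤ finrank F T := h1 ▸ Submodule.finrank_mono h2
  have hu : ∀ W : Submodule F V, ∃ u, ¬ U ≤ W → u ∈ U ∧ u ∉ W := by
    intro W
    by_cases h : U ≤ W
    · exact ⟨0, fun h' => (h' h).elim⟩
    · obtain ⟨u, hu⟩ := SetLike.not_le_iff_exists.1 h
      exact ⟨u, fun _ => hu⟩
  choose u hu using hu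
  let S' := S.filter fun W : Submodule F V => finrank F W < c
  have hav := po_avoid Wh (insert H
    (S'.image (fun W => W ⊔ E (finrank F T - (finrank F W + 1))) ∪
      S'.image fun W => W ⊔ F ∙ u W)) ?_ ?_
  · obtain ⟨l, hl, hl'⟩ := hav
    refine ⟨l, hl, fun W hW hWh hWc hWE hWU => ?_⟩
    have hW' : W ∈ S' := mem_filter.2 ⟨hW, hWc⟩
    have a1 : l ∉ H := hl' _ (mem_insert_self _ _)
    have a2 : l ∉ W ⊔ E (finrank F T - (finrank F W + 1)) :=
      hl' _ (mem_insert_of_mem (mem_union_left _ (mem_image_of_mem _ hW')))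
    have a3 : l ∉ W ⊔ F ∙ u W :=
      hl' _ (mem_insert_of_mem (mem_union_right _ (mem_image_of_mem _ hW')))
    have a4 : l ∉ W := fun h => a2 (Submodule.mem_sup_left h)
    refine ⟨a4, sup_le (hWh.trans h2) ((Submodule.span_singleton_le_iff_mem _ _).2 (h2 hl)), ?_,
      fun h => ?_, fun h => a1 (h (Submodule.mem_sup_right (Submodule.mem_span_singleton_self l)))⟩
    · rw [Submodule.finrank_sup_span_singleton a4, Submodule.disjoint_def]
      intro x hx hxE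
      obtain ⟨w, hw, y, hy, rfl⟩ := Submodule.mem_sup.1 hx
      obtain ⟨a, rfl⟩ := Submodule.mem_span_singleton.1 hy
      by_cases ha : a = 0
      · subst ha
        rw [zero_smul, add_zero] at hxE ⊢
        exact Submodule.disjoint_def.1 hWE w hw (hok.mono (by omega) hxE)
      · refine (a2 ?_).elim
        have : l = a⁻¹ • ((w + a • l) - w) := by
          rw [add_sub_cancel_left, smul_smul, inv_mul_cancel₀ ha, one_smul]
        rw [this]
        exact Submodule.smul_mem _ _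
          (Submodule.sub_mem _ (Submodule.mem_sup_right hxE) (Submodule.mem_sup_left hw))
    · obtain ⟨w, hw, y, hy, e⟩ := Submodule.mem_sup.1 (h (hu W hWU).1)
      obtain ⟨a, rfl⟩ := Submodule.mem_span_singleton.1 hy
      by_cases ha : a = 0
      · subst ha
        rw [zero_smul, add_zero] at e
        exact (hu W hWU).2 (e ▸ hw)
      · refine a3 ?_
        have : l = a⁻¹ • (u W - w) := by
          rw [← e, add_sub_cancel_left, smul_smul, inv_mul_cancel₀ ha, one_smul]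
        rw [this]
        exact Submodule.smul_mem _ _ (Submodule.sub_mem _
          (Submodule.mem_sup_right (Submodule.mem_span_singleton_self _))
          (Submodule.mem_sup_left hw))
  · intro P hP
    rcases mem_insert.1 hP with rfl | hP
    · exact h4
    rcases mem_union.1 hP with hP | hP <;> obtain ⟨W, hW, rfl⟩ := mem_image.1 hP <;>
      have hWc := (mem_filter.1 hW).2 <;> intro h
    · have b1 := Submodule.finrank_sup_add_finrank_inf_eq Wh (E (finrank F T - (c + 1)))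
      rw [h3.eq_bot, finrank_bot, hok.dimE _ (by omega)] at b1
      have b2 : Wh ⊔ E (finrank F T - (c + 1)) ≤ W ⊔ E (finrank F T - (finrank F W + 1)) :=
        sup_le h ((hok.mono (by omega)).trans le_sup_right)
      have b3 := Submodule.finrank_mono b2
      have b4 := Submodule.finrank_add_le_finrank_add_finrank W
        (E (finrank F T - (finrank F W + 1)))
      rw [hok.dimE _ (by omega)] at b4
      omega
    · have b3 := Submodule.finrank_mono h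
      have b4 := Submodule.finrank_add_le_finrank_add_finrank W (F ∙ u W)
      have b5 : finrank F (F ∙ u W) ≤ 1 := (finrank_span_le_card ({u W} : Set V)).trans (by simp)
      omega
  · refine lt_of_le_of_lt ((card_insert_le _ _).trans ?_) hS
    have b1 : S'.card ≤ S.card := card_filter_le _ _
    have b2 := card_union_le (S'.image (fun W => W ⊔ E (finrank F T - (finrank F W + 1))))
      (S'.image fun W => W ⊔ F ∙ u W)
    have b3 := card_image_le (s := S') (f := fun W => W ⊔ E (finrank F T - (finrank F W + 1)))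
    have b4 := card_image_le (s := S') (f := fun W => W ⊔ F ∙ u W)
    omega

theorem po_step_line {k : Type} [Field k] [CharP k 2] [Fintype F] (hok : KxOK T E U H ρ D) {c : ℕ}
    (hc : c ∈ D) (hmax : ∀ e ∈ D, e ≤ c)
    (hfull : ∀ e, 0 < e → e < finrank F T → e ∈ D ∨ ∃ W ∈ ρ, finrank F W = e)
    {N₁ : ℕ} {A₁ : Finset (Submodule F V)} (hA : A₁.card ≤ N₁) (hF : 2 * N₁ + 3 < Fintype.card F)
    (j : ℕ) : ∃ B : Finset (Submodule F V), A₁ ⊆ B ∧ B.card ≤ 2 * N₁ + 1 ∧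
      Bounds k {σ | σ ∈ Le (Kx T E U H ρ (D.erase c)) j ∧ σ ⊆ A₁}
        {σ | σ ∈ Le (Kx T E U H ρ D) (j + 1) ∧ σ ⊆ B} := by
  obtain ⟨Wh, hh1, hh2, hh3, hh4, hh5, hh6, hh7⟩ := po_exists_high hok hc hmax hfull
  obtain ⟨Wl, hl1, hl2, hl3, hl4, hl5, hl6, hl7⟩ := po_exists_low hok hc hfull
  have hlh : Wl ≤ Wh := by
    rcases hl2 with rfl | hl2
    · exact bot_le
    · exact hh6 _ hl2 hl1.le
  obtain ⟨l, hl, hgen⟩ := po_exists_line hok hh1 hh2 hh3 hh4 (insert Wl A₁)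
    (by have := card_insert_le Wl A₁; omega)
  have hsp : ∀ W : Submodule F V, l ∈ W ⊔ F ∙ l := fun W =>
    Submodule.mem_sup_right (Submodule.mem_span_singleton_self l)
  have hle : ∀ W W' : Submodule F V, W ≤ W' → l ∈ W' → W ⊔ F ∙ l ≤ W' := fun W W' h h' =>
    sup_le h ((Submodule.span_singleton_le_iff_mem _ _).2 h')
  have hv : ∀ W ∈ insert Wl A₁, Wl ≤ W → W ≤ Wh → finrank F W < c →
      Disjoint W (E (finrank F T - finrank F W)) → ¬ U ≤ W → Vx T E U H ρ D (W ⊔ F ∙ l) := by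
    intro W hW h1 h2 h3 h4 h5
    obtain ⟨h6, h7⟩ := hgen W hW h2 h3 h4 h5
    refine ⟨h7, ?_, fun W' hW' => ?_⟩
    · rw [Submodule.finrank_sup_span_singleton h6]
      exact hl7 _ (Nat.lt_succ_of_le (Submodule.finrank_mono h1)) h3
    · rcases le_or_gt (finrank F W') c with h8 | h8
      · exact Or.inr ((hl5 _ hW' h8).trans (h1.trans le_sup_left))
      · exact Or.inl ((hle _ _ h2 hl).trans (hh5 _ hW' h8))
  let B : Finset (Submodule F V) := A₁ ∪ (insert Wl A₁).image fun W => W ⊔ F ∙ l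
  have hB : ∀ W ∈ insert Wl A₁, W ⊔ F ∙ l ∈ B := fun W hW =>
    mem_union_right _ (mem_image_of_mem _ hW)
  let 𝒮 : ℕ → Set (Finset (Submodule F V)) := fun e =>
    {σ | (σ ∈ Le (Kx T E U H ρ D) j ∧ σ ⊆ B) ∧ ∀ W ∈ σ, l ∉ W → W ∈ A₁ ∧ finrank F W ≤ e}
  have key : ∀ e, finrank F Wl ≤ e → e < c →
      Bounds k (𝒮 e) {σ | σ ∈ Le (Kx T E U H ρ D) (j + 1) ∧ σ ⊆ B} := by
    intro e he
    induction e, he using Nat.le_induction with
    | base =>
      intro _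
      refine bounds_of_cone (Wl ⊔ F ∙ l) ?_
      rintro σ ⟨⟨⟨h1, h2⟩, h3⟩, h4⟩ _
      refine ⟨⟨po_insert_mem_Kx.2 ⟨hv Wl (mem_insert_self _ _) le_rfl hlh hl1 hl3 hl4, h1,
        fun W hW => ?_⟩, (card_insert_le _ _).trans (by omega)⟩,
        insert_subset (hB _ (mem_insert_self _ _)) h3⟩
      rcases hl6 W (h1.1 W hW) with h5 | h5
      · exact Or.inl (h5.trans le_sup_left)
      · by_cases h6 : l ∈ W
        · exact Or.inr (hle _ _ h5 h6)
        · exact Or.inl ((po_le_of_cmp (Or.inr h5) (h4 W hW h6).2).trans le_sup_left)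
    | succ e he ih =>
      intro hec
      refine po_bounds_push {W | finrank F W = e + 1 ∧ l ∉ W}
        (fun x => {σ | (x ∈ B ∧ Vx T E U H ρ D x) ∧ σ ∈ 𝒮 e ∧ ∀ W ∈ σ, W ≤ x ∨ x ≤ W})
        ?_ ?_ ?_ ?_ ?_ ?_ (ih (by omega))
      · intro σ hσ x hx y hy h h'
        exact po_eq_of_cmp (hσ.1.1.1.2 x hx y hy) (h.1.trans h'.1.symm)
      · intro x _ σ hσ y hy h
        have := (hσ.2.1.2 y hy h.2).2
        have := h.1
        omega
      · intro x hx
        refine bounds_of_cone (x ⊔ F ∙ l) ?_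
        rintro σ ⟨hn, ⟨⟨h1, h2⟩, h3⟩, h4⟩ _
        obtain ⟨h5, h6, h7⟩ := po_insert_mem_Kx.1 h1
        have h8 := (h4 x (mem_insert_self _ _) hx.2).1
        have h9 : Wl ≤ x := po_le_of_cmp (hl6 x h5).symm (by have := hx.1; omega)
        have h10 : ∀ W ∈ σ, l ∉ W → W ∈ A₁ ∧ finrank F W ≤ e := by
          intro W hW hlW
          have h11 := h4 W (mem_insert_of_mem hW) hlW
          have h12 : finrank F W ≠ e + 1 := fun h => hn W hW ⟨h, hlW⟩
          exact ⟨h11.1, by omega⟩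
        rw [card_insert_of_notMem fun h => hn x h hx] at h2
        refine ⟨⟨h3 (mem_insert_self _ _), h5⟩, ⟨⟨⟨po_insert_mem_Kx.2
          ⟨hv x (mem_insert_of_mem h8) h9 (hh7 x h5) (by have := hx.1; omega) h5.1.2.1 h5.1.2.2.1,
            h6, fun W hW => ?_⟩, (card_insert_le _ _).trans h2⟩,
            insert_subset (hB _ (mem_insert_of_mem h8)) ((subset_insert _ _).trans h3)⟩,
            fun W hW hlW => ?_⟩, fun W hW => ?_⟩
        · rcases h7 W hW with h11 | h11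
          · exact Or.inl (h11.trans le_sup_left)
          · by_cases h12 : l ∈ W
            · exact Or.inr (hle _ _ h11 h12)
            · have := (h10 W hW h12).2
              have := Submodule.finrank_mono h11
              have := hx.1
              omega
        · rcases mem_insert.1 hW with rfl | hW
          · exact (hlW (hsp x)).elim
          · exact h10 W hW hlW
        · rcases mem_insert.1 hW with rfl | hW
          · exact Or.inr le_sup_left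
          · exact h7 W hW
      · rintro x _ σ ⟨⟨h1, h2⟩, ⟨⟨⟨h3, h4⟩, h5⟩, -⟩, h6⟩
        exact ⟨⟨po_insert_mem_Kx.2 ⟨h2, h3, h6⟩, (card_insert_le _ _).trans (by omega)⟩,
          insert_subset h1 h5⟩
      · rintro σ ⟨h1, h2⟩ hn
        refine ⟨h1, fun W hW hlW => ⟨(h2 W hW hlW).1, ?_⟩⟩
        have h11 := (h2 W hW hlW).2
        have h12 : finrank F W ≠ e + 1 := fun h => hn W hW ⟨h, hlW⟩
        omega
      · exact fun x _ σ hσ => hσ.2.1
  refine ⟨B, subset_union_left, ?_, (key (c - 1) (by omega) (by omega)).mono ?_ subset_rfl⟩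
  · have b1 := card_union_le A₁ ((insert Wl A₁).image fun W => W ⊔ F ∙ l)
    have b2 := card_image_le (s := insert Wl A₁) (f := fun W => W ⊔ F ∙ l)
    have b3 := card_insert_le Wl A₁
    change (A₁ ∪ _).card ≤ _
    omega
  · rintro σ ⟨⟨h1, h2⟩, h3⟩
    refine ⟨⟨⟨po_Kx_dim h1 fun W hW => mem_of_mem_erase (h1.1 W hW).2.1, h2⟩,
      h3.trans subset_union_left⟩, fun W hW _ => ⟨h3 hW, ?_⟩⟩
    have h4 := mem_erase.1 (h1.1 W hW).2.1
    have := hmax _ h4.2
    have := h4.1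
    omega

open Classical in
/-- the colours that are neither in `D` nor dimensions of members of `ρ` -/
noncomputable def Mis (T : Submodule F V) (ρ : Finset (Submodule F V)) (D : Finset ℕ) : Finset ℕ :=
  (Ioo 0 (finrank F T)).filter fun c => c ∉ D ∧ ∀ W ∈ ρ, finrank F W ≠ c

theorem po_mem_Mis {c : ℕ} : c ∈ Mis T ρ D ↔
    (0 < c ∧ c < finrank F T) ∧ c ∉ D ∧ ∀ W ∈ ρ, finrank F W ≠ c := by
  simp only [Mis, mem_filter, mem_Ioo]

theorem po_ok_insert (hok : KxOK T E U H ρ D) {c : ℕ} (hc : c ∈ Mis T ρ D) :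
    KxOK T E U H ρ (insert c D) := by
  obtain ⟨h1, -, h3⟩ := po_mem_Mis.1 hc
  refine { hok with ρ_dim := fun W hW => ?_, D_dim := fun j hj => ?_ }
  · obtain ⟨h4, h5, h6⟩ := hok.ρ_dim W hW
    exact ⟨h4, h5, fun h => (mem_insert.1 h).elim (h3 W hW) h6⟩
  · rcases mem_insert.1 hj with rfl | hj
    · exact h1
    · exact hok.D_dim j hj

theorem po_ok_link {D' : Finset ℕ} (hok : KxOK T E U H ρ D') {x : Submodule F V}
    (hx : Vx T E U H ρ D' x) (hD : D ⊆ D') (hxD : finrank F x ∉ D) :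
    KxOK T E U H (insert x ρ) D := by
  refine { hok with
    ρ_opp := fun W hW => ?_, ρ_chain := fun W hW W' hW' => ?_,
    ρ_dim := fun W hW => ?_, D_dim := fun j hj => hok.D_dim j (hD hj) }
  · rcases mem_insert.1 hW with rfl | hW
    · exact hx.1
    · exact hok.ρ_opp W hW
  · rcases mem_insert.1 hW with e | h <;> rcases mem_insert.1 hW' with e' | h'
    · exact Or.inl (e.trans e'.symm).le
    · exact e ▸ hx.2.2 _ h'
    · exact e' ▸ (hx.2.2 _ h).symm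
    · exact hok.ρ_chain _ h _ h'
  · rcases mem_insert.1 hW with rfl | hW
    · exact ⟨(hok.D_dim _ hx.2.1).1, (hok.D_dim _ hx.2.1).2, hxD⟩
    · obtain ⟨h4, h5, h6⟩ := hok.ρ_dim W hW
      exact ⟨h4, h5, fun h => h6 (hD h)⟩

end poset

theorem po_BF (m : ℕ) : ∀ N : ℕ, ∃ Φ Q : ℕ, ∀ (k : Type) [Field k] [CharP k 2]
    (F V : Type) [Field F] [Fintype F] [AddCommGroup V] [Module F V] [FiniteDimensional F V]
    (T : Submodule F V) (E : ℕ → Submodule F V) (U H : Submodule F V)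
    (ρ : Finset (Submodule F V)) (D : Finset ℕ),
    Q ≤ Fintype.card F → 2 * (Mis T ρ D).card + D.card ≤ m → KxOK T E U H ρ D → D.Nonempty →
      BF k (Kx T E U H ρ D) (D.card - 1) N Φ := by
  induction m with
  | zero =>
    refine fun N => ⟨0, 0, ?_⟩
    intro k _ _ F V _ _ _ _ _ T E U H ρ D _ hm _ hD
    have := hD.card_pos
    omega
  | succ m ih =>
    intro N
    obtain ⟨Φ₁, Q₁, h₁⟩ := ih N
    obtain ⟨Φ₂, Q₂, h₂⟩ := ih Φ₁
    refine ⟨(Φ₁ + Φ₁ * Φ₂) + (2 * (N + N * Φ₁) + 1), Q₁ + Q₂ + (2 * (N + N * Φ₁) + 4), ?_⟩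
    intro k _ _ F V _ _ _ _ _ T E U H ρ D hQ hm hok hD j hj A hA
    rcases (Mis T ρ D).eq_empty_or_nonempty with hmis | ⟨c, hc⟩
    · have hfull : ∀ e, 0 < e → e < finrank F T → e ∈ D ∨ ∃ W ∈ ρ, finrank F W = e := by
        intro e h1 h2
        by_contra h
        push Not at h
        have : e ∈ Mis T ρ D := po_mem_Mis.2 ⟨⟨h1, h2⟩, h⟩
        simp [hmis] at this
      have hcD := D.max'_mem hD
      obtain ⟨A₁, hA₁, h3⟩ := po_step_top (k := k) (T := T) (E := E) (U := U) (H := H) (ρ := ρ)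
        (D := D) (c := D.max' hD) (j := j) (Φ₂ := Φ₁) hA (by
          intro x hx hxc i hi
          have e1 : (D.erase (D.max' hD)).card + 1 = D.card := card_erase_add_one hcD
          have e2 : Mis T (insert x ρ) (D.erase (D.max' hD)) = ∅ := by
            rw [← subset_empty, ← hmis]
            intro e he
            obtain ⟨h1, h2, h3⟩ := po_mem_Mis.1 he
            refine po_mem_Mis.2 ⟨h1, fun h => h2 (mem_erase.2 ⟨fun h' => ?_, h⟩),
              fun W hW => h3 W (mem_insert_of_mem hW)⟩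
            exact h3 x (mem_insert_self _ _) (hxc.trans h'.symm)
          exact h₁ k F V T E U H (insert x ρ) (D.erase (D.max' hD)) (by omega)
            (by rw [e2, card_empty]; omega)
            (po_ok_link hok hx (erase_subset _ _) (by rw [hxc]; exact notMem_erase _ _))
            (card_pos.1 (by omega)) i (by omega) A hA)
      obtain ⟨B, hB1, hB2, h4⟩ := po_step_line (k := k) hok hcD (fun e he => D.le_max' e he)
        hfull hA₁ (by omega) j
      exact ⟨B, by omega, h3 B hB1 h4⟩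
    · obtain ⟨hc1, hc2, hc3⟩ := po_mem_Mis.1 hc
      have e0 := card_erase_add_one hc
      have e1 : (Mis T ρ (insert c D)).card ≤ ((Mis T ρ D).erase c).card := by
        refine card_le_card fun e he => ?_
        obtain ⟨h1, h2, h3⟩ := po_mem_Mis.1 he
        exact mem_erase.2 ⟨fun h => h2 (h ▸ mem_insert_self _ _),
          po_mem_Mis.2 ⟨h1, fun h => h2 (mem_insert_of_mem h), h3⟩⟩
      have e2 := card_insert_of_notMem hc2
      obtain ⟨B₁, hB₁, h3⟩ := h₁ k F V T E U H ρ (insert c D) (by omega) (by omega)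
        (po_ok_insert hok hc) (insert_nonempty _ _) j (by omega) A hA
      obtain ⟨B, hB, h4⟩ := po_step_missing (k := k) (T := T) (E := E) (U := U) (H := H) (ρ := ρ)
        (j := j) (Φ₂ := Φ₂) (A := A) hc2 hB₁
        (h3.mono (fun σ hσ => ⟨⟨po_Kx_dim hσ.1.1 fun W hW =>
          mem_insert_of_mem (hσ.1.1.1 W hW).2.1, hσ.1.2⟩, hσ.2⟩) subset_rfl) (by
          intro x hx hxc
          have e3 : (Mis T (insert x ρ) D).card ≤ ((Mis T ρ D).erase c).card := by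
            refine card_le_card fun e he => ?_
            obtain ⟨h1, h2, h3⟩ := po_mem_Mis.1 he
            exact mem_erase.2 ⟨fun h => h3 x (mem_insert_self _ _) (hxc.trans h.symm),
              po_mem_Mis.2 ⟨h1, h2, fun W hW => h3 W (mem_insert_of_mem hW)⟩⟩
          exact h₂ k F V T E U H (insert x ρ) D (by omega) (by omega)
            (po_ok_link (po_ok_insert hok hc) hx (subset_insert _ _) (hxc ▸ hc2)) hD j hj B₁ hB₁)
      exact ⟨B, by omega, h4⟩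

/-- Main poset lemma: cones whose size does not depend on the (large) field. -/
theorem poset_cone (n₀ : ℕ) : ∃ Q R : ℕ, ∀ (k : Type) [Field k] [CharP k 2]
    (F V : Type) [Field F] [Fintype F] [AddCommGroup V] [Module F V] [FiniteDimensional F V]
    (T : Submodule F V) (E : ℕ → Submodule F V) (U H : Submodule F V)
    (ρ : Finset (Submodule F V)) (D : Finset ℕ),
    Q ≤ Fintype.card F → finrank F T ≤ n₀ → KxOK T E U H ρ D → D.Nonempty →
      HasCone k (Kx T E U H ρ D) (D.card - 1) R := by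
  choose Φ Q h using po_BF (3 * n₀)
  choose M R hc using fun n => cone_of_BF n Φ
  refine ⟨(range ((range (n₀ + 1)).sup M + 1)).sup Q, (range (n₀ + 1)).sup R, ?_⟩
  intro k _ _ F V _ _ _ _ _ T E U H ρ D hQ hT hok hD
  have h1 : D.card ≤ n₀ := by
    have : D ⊆ range n₀ := fun j hj => mem_range.2 ((hok.D_dim j hj).2.trans_le hT)
    simpa using card_le_card this
  have h2 : (Mis T ρ D).card ≤ n₀ := by
    have : Mis T ρ D ⊆ range n₀ := fun j hj => mem_range.2 ((po_mem_Mis.1 hj).1.2.trans_le hT)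
    simpa using card_le_card this
  have h3 : D.card - 1 ∈ range (n₀ + 1) := mem_range.2 (by omega)
  refine (hc (D.card - 1) k _ _ (Kx_down T E U H ρ D) fun N hN => ?_).mono le_rfl (le_sup h3)
  refine h N k F V T E U H ρ D (le_trans (le_sup (mem_range.2 ?_)) hQ) (by omega) hok hD
  exact Nat.lt_succ_of_le (hN.trans (le_sup h3))

/-- independence complexes are highly acyclic over large fields. -/
theorem ind_bounds (n₀ : ℕ) : ∃ Q : ℕ, ∀ (k : Type) [Field k] [CharP k 2]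
    (F V V' : Type) [Field F] [Fintype F] [AddCommGroup V] [Module F V] [DecidableEq V]
    [AddCommGroup V'] [Module F V'] [FiniteDimensional F V']
    (S : Set V) (pr : V → V') (T : Submodule F V'),
    Q ≤ Fintype.card F → finrank F T ≤ n₀ → (∀ w ∈ T, ∃ v ∈ S, pr v = w) →
      ∀ j < finrank F T, Bounds k (Le (Ind (F := F) S pr) j) (Le (Ind (F := F) S pr) (j + 1)) := by
  choose M R hc using fun n => cone_of_BF n fun N => N + 1
  refine ⟨2 ^ (range (n₀ + 1)).sup M + 1, ?_⟩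
  intro k _ _ F V V' _ _ _ _ _ _ _ _ S pr T hQ hT hS j hj
  classical
  have hdown : Down (Ind (F := F) S pr) := by
    intro σ hσ τ hτ
    exact ⟨fun v hv => hσ.1 v (hτ hv), LinearIndepOn.mono (s := (σ : Set V)) hσ.2 hτ⟩
  refine (hc j k V _ hdown fun N hN => ?_).bounds le_rfl
  intro i hi A hA
  have hN' : N ≤ (range (n₀ + 1)).sup M := hN.trans (le_sup (mem_range.2 (by omega)))
  obtain ⟨w, hw, hw'⟩ := po_avoid T
    ((A.powerset.filter fun τ => τ.card ≤ i).image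
      fun τ : Finset V => Submodule.span F (τ.image pr : Set V'))
    (by
      intro P hP h
      obtain ⟨τ, hτ, rfl⟩ := mem_image.1 hP
      have b1 := Submodule.finrank_mono h
      have b2 : finrank F (Submodule.span F (τ.image pr : Set V')) ≤ (τ.image pr).card :=
        finrank_span_finset_le_card (τ.image pr)
      have b3 := card_image_le (s := τ) (f := pr)
      have b4 := (mem_filter.1 hτ).2
      omega)
    (by
      refine lt_of_le_of_lt (card_image_le.trans ((card_filter_le _ _).trans ?_)) hQ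
      rw [card_powerset]
      exact Nat.pow_le_pow_right two_pos (hA.trans hN'))
  obtain ⟨v, hv, rfl⟩ := hS w hw
  refine ⟨insert v A, (card_insert_le _ _).trans (by omega), bounds_of_cone v ?_⟩
  rintro σ ⟨⟨h1, h2⟩, h3⟩ hvσ
  refine ⟨⟨⟨fun x hx => ?_, ?_⟩, (card_insert_le _ _).trans (by omega)⟩, insert_subset_insert _ h3⟩
  · rcases mem_insert.1 hx with rfl | hx
    · exact hv
    · exact h1.1 x hx
  · change LinearIndepOn F pr ((insert v σ : Finset V) : Set V)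
    rw [coe_insert, linearIndepOn_insert (by simpa using hvσ)]
    refine ⟨h1.2, ?_⟩
    have := hw' _ (mem_image_of_mem _ (mem_filter.2 ⟨mem_powerset.2 h3, h2⟩))
    rwa [coe_image] at this

end Crest.Agent.R066
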