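import Crest.Agent.R066.Grp
import Crest.Agent.R066.Coset
import Crest.Agent.R066.Poset
import Crest.Agent.R066.LinkAux2

/-! Row 66: links of the coset complex are posets of subspaces opposite to a flag. -/

set_option autoImplicit false
set_option linter.unusedSectionVars false

namespace Crest.Agent.R066

open Finset Module LinkAux

theorem link_cone (N₀ : ℕ) : ∃ Q Rr : ℕ, ∀ (k : Type) [Field k] [CharP k 2]
    (F R : Type) [Field F] [Fintype F] [CommRing R] [Algebra F R] [Finite R] (τ : TR F R)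
    (N c : ℕ), N ≤ N₀ → Q ≤ Fintype.card F → ∀ i n : ℕ, i ≤ c → c < n → n ≤ N →
    ∀ I D : Finset (Fin c), Disjoint I D → (∀ j ∈ D, (j : ℕ) + 1 ≠ i) → D.Nonempty →
    ∀ U H : Submodule F (Fin N → F), U ≠ ⊥ → ¬ Tn F N n ≤ H →
      (∀ j ∈ I, (j : ℕ) + 1 ≠ i → ¬ U ≤ Eop F N i n (j + 1) ∧ ¬ Eop F N i n (j + 1) ≤ H) →
      HasCone k (Lk τ N c i n I D U H) (D.card - 1) Rr := by
  classical
  obtain ⟨Q, Rr, hQ⟩ := poset_cone N₀
  refine ⟨Q, Rr, ?_⟩
  intro k _ _ F R _ _ _ _ _ τ N c hN₀ hq i n hi hc hN I D hID hD hDne U H hU hH hI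
  have hin : i ≤ n := by omega
  let dm : Fin c → ℕ := fun j => n - pos i n (j + 1)
  have hlt : ∀ j : Fin c, pos i n (j + 1) < n := fun j => pos_lt hin (by have := j.2; omega)
  have dm_inj : Function.Injective dm := fun j j' e => Fin.ext (by
    have h1 := hlt j
    have h2 := hlt j'
    have := pos_inj (i := i) (a := j + 1) (b := j' + 1) hin (by have := j.2; omega)
      (by have := j'.2; omega) (by simp only [dm] at e; omega)
    omega)
  have dm_bd : ∀ j : Fin c, (j : ℕ) + 1 ≠ i → 0 < dm j ∧ dm j < n := fun j hj => by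
    have h1 := hlt j
    have h2 := pos_pos (n := n) (by omega) hj
    simp only [dm]
    omega
  have dm_sub : ∀ j : Fin c, n - dm j = pos i n (j + 1) := fun j => by
    have := hlt j
    simp only [dm]
    omega
  let ρ : Finset (Submodule F (Fin N → F)) :=
    (I.filter fun j : Fin c => (j : ℕ) + 1 ≠ i).image fun j : Fin c => Eop F N i n (j + 1)
  have memρ : ∀ W, W ∈ ρ ↔ ∃ j ∈ I, (j : ℕ) + 1 ≠ i ∧ Eop F N i n (j + 1) = W := fun W => by
    simp only [ρ, mem_image, mem_filter, and_assoc]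
  have hT : finrank F (Tn F N n) = n := finrank_Tn hN
  have hE : ∀ j : Fin c, finrank F (Eop F N i n (j + 1)) = dm j := fun j => finrank_Eop _ hin hN
  have hW : ∀ (j : Fin c) {g : Gp τ N c}, g ∈ Kb τ N c i → finrank F (Wsub i n (j + 1) g) = dm j :=
    fun j g hg => finrank_Wsub _ hin hN hg
  have hOK : KxOK (Tn F N n) (Efl F N i n) U H ρ (D.image dm) :=
    { mono := fun m m' h v hv a ha => hv a (by omega)
      le_top := fun m v hv a ha => hv a (Or.inl ha)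
      dimE := fun m hm => finrank_Efl hin hN (by rwa [hT] at hm)
      hU := hU
      hH := hH
      ρ_opp := fun W hW => by
        obtain ⟨j, hj, hji, rfl⟩ := (memρ W).1 hW
        refine ⟨Eop_le_Tn _ _ _, ?_, hI j hj hji⟩
        rw [hT, hE, dm_sub, Submodule.disjoint_def]
        exact fun v h1 h2 => eq_zero_of_Eop_Efl h1 h2
      ρ_chain := fun W hW W' hW' => by
        obtain ⟨j, -, -, rfl⟩ := (memρ W).1 hW
        obtain ⟨j', -, -, rfl⟩ := (memρ W').1 hW'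
        exact Eop_total _ _ _ _
      ρ_dim := fun W hW => by
        obtain ⟨j, hj, hji, rfl⟩ := (memρ W).1 hW
        rw [hT, hE]
        refine ⟨(dm_bd j hji).1, (dm_bd j hji).2, fun h => ?_⟩
        obtain ⟨j', hj', e⟩ := mem_image.1 h
        exact disjoint_left.1 hID hj (dm_inj e ▸ hj')
      D_dim := fun m hm => by
        obtain ⟨j, hj, rfl⟩ := mem_image.1 hm
        rw [hT]
        exact dm_bd j (hD j hj) }
  have hcone := hQ k F (Fin N → F) _ _ U H ρ _ hq (by omega) hOK (hDne.image dm)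
  rw [card_image_of_injective _ dm_inj] at hcone
  obtain ⟨j₀, -⟩ := hDne
  let ω : Vtx (Kc τ N c) → Submodule F (Fin N → F) := fun x =>
    if h : ∃ g, g ∈ Kb τ N c i ∧ g ∈ Gn τ N c n ∧ x = vtx (Kc τ N c) x.1 g then
      Wsub i n (x.1 + 1) h.choose else ⊥
  have hω : ∀ (j : Fin c) {g : Gp τ N c}, g ∈ Kb τ N c i → g ∈ Gn τ N c n →
      ω (vtx (Kc τ N c) j g) = Wsub i n (j + 1) g := by
    intro j g hg hn
    have h : ∃ g', g' ∈ Kb τ N c i ∧ g' ∈ Gn τ N c n ∧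
        vtx (Kc τ N c) j g = vtx (Kc τ N c) (vtx (Kc τ N c) j g).1 g' := ⟨g, hg, hn, rfl⟩
    simp only [ω, dif_pos h]
    obtain ⟨h1, h2, h3⟩ := h.choose_spec
    exact ((Wsub_eq_iff hi j.2 hc hN hg hn h1 h2).2 ((vtx_eq_iff (Kc τ N c) (i := j)).1 h3)).symm
  let ν : Submodule F (Fin N → F) → Vtx (Kc τ N c) := fun W =>
    if h : ∃ p : Fin c × Gp τ N c, p.2 ∈ Kb τ N c i ∧ p.2 ∈ Gn τ N c n ∧
      Wsub i n (p.1 + 1) p.2 = W then vtx (Kc τ N c) h.choose.1 h.choose.2 else vtx _ j₀ 1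
  have hν : ∀ (j : Fin c) {g : Gp τ N c}, g ∈ Kb τ N c i → g ∈ Gn τ N c n →
      ν (Wsub i n (j + 1) g) = vtx (Kc τ N c) j g := by
    intro j g hg hn
    have h : ∃ p : Fin c × Gp τ N c, p.2 ∈ Kb τ N c i ∧ p.2 ∈ Gn τ N c n ∧
        Wsub i n (p.1 + 1) p.2 = Wsub i n (j + 1) g := ⟨(j, g), hg, hn, rfl⟩
    simp only [ν, dif_pos h]
    obtain ⟨h1, h2, h3⟩ := h.choose_spec
    generalize h.choose = p at h1 h2 h3
    obtain ⟨j', g'⟩ := p
    have hj : j' = j := dm_inj (by rw [← hW j' h1, ← hW j hg]; exact congrArg (fun W : Submodule F (Fin N → F) => finrank F W) h3)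
    subst hj
    exact (vtx_eq_iff (Kc τ N c)).2 ((Wsub_eq_iff hi j'.2 hc hN h1 h2 hg hn).1 h3)
  have cham : ∀ σ ∈ Kx (Tn F N n) (Efl F N i n) U H ρ (D.image dm),
      ∃ g ∈ Kb τ N c i, g ∈ Gn τ N c n ∧ g ∈ KJ (Kc τ N c) I ∧
        ∀ W ∈ σ, ∃ j ∈ D, Wsub i n (j + 1) g = W := by
    intro σ hσ
    have hopp : ∀ W ∈ σ ∪ ρ, W ∈ Opp (Tn F N n) (Efl F N i n) U H := fun W hW =>
      (mem_union.1 hW).elim (fun h => (hσ.1 W h).1) (hOK.ρ_opp W)
    obtain ⟨g, hg, hn, hgW⟩ := exists_chamber (τ := τ) (c := c) hin hN (σ ∪ ρ)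
      (fun W hW => (hopp W hW).1) (fun W hW => by simpa only [hT] using (hopp W hW).2.1)
      (fun W hW W' hW' => by
        rcases mem_union.1 hW with h | h <;> rcases mem_union.1 hW' with h' | h'
        · exact hσ.2 W h W' h'
        · exact (hσ.1 W h).2.2 W' h'
        · exact ((hσ.1 W' h').2.2 W h).symm
        · exact hOK.ρ_chain W h W' h')
    refine ⟨g, hg, hn, (mem_KJ _).2 fun j hj => ?_, fun W hWσ => ?_⟩
    · by_cases hji : (j : ℕ) + 1 = i
      · rw [Kc, hji]; exact hg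
      · exact (Wsub_eq_Eop_iff hi j.2 hc hN hg hn).1 (hgW _
          (mem_union_right _ ((memρ _).2 ⟨j, hj, hji, rfl⟩)) _ (hE j) (hlt j).le)
    · obtain ⟨j, hj, e⟩ := mem_image.1 (hσ.1 W hWσ).2.1
      exact ⟨j, hj, hgW W (mem_union_left _ hWσ) _ e.symm (hlt j).le⟩
  refine hcone.transport ω ν ?_ ?_ ?_ ?_
  · rintro _ ⟨g, hg, hn, hgI, J, hJ, hUH, rfl⟩
    have hmem : ∀ W ∈ (face (Kc τ N c) g J).image ω, ∃ j ∈ J, W = Wsub i n (j + 1) g := by
      intro W hW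
      obtain ⟨x, hx, rfl⟩ := mem_image.1 hW
      obtain ⟨j, hj, rfl⟩ := (mem_face _).1 hx
      exact ⟨j, hj, hω j hg hn⟩
    refine ⟨fun W hW' => ?_, fun W hW1 W' hW2 => ?_⟩
    · obtain ⟨j, hj, rfl⟩ := hmem W hW'
      refine ⟨⟨Wsub_le_Tn _ hg hn, ?_, hUH j hj⟩, ?_, fun W' hW' => ?_⟩
      · rw [hT, hW j hg, dm_sub]
        exact disjoint_Wsub hi j.2 hc hg hn
      · rw [hW j hg]; exact mem_image_of_mem _ (hJ hj)
      · obtain ⟨j', hj', -, rfl⟩ := (memρ W').1 hW'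
        rw [← (Wsub_eq_Eop_iff hi j'.2 hc hN hg hn).2 ((mem_KJ _).1 hgI j' hj')]
        exact Wsub_total _ _ _ _ _
    · obtain ⟨j, -, rfl⟩ := hmem W hW1
      obtain ⟨j', -, rfl⟩ := hmem W' hW2
      exact Wsub_total _ _ _ _ _
  · rintro _ ⟨g, hg, hn, -, J, -, -, rfl⟩ x hx
    obtain ⟨j, -, rfl⟩ := (mem_face _).1 hx
    rw [hω j hg hn, hν j hg hn]
  · intro σ hσ
    obtain ⟨g, hg, hn, hgI, hgW⟩ := cham σ hσ
    refine ⟨g, hg, hn, hgI, D.filter fun j : Fin c => Wsub i n (j + 1) g ∈ σ, filter_subset _ _,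
      fun j hj => (hσ.1 _ (mem_filter.1 hj).2).1.2.2, ?_⟩
    ext x
    rw [mem_image, mem_face]
    constructor
    · rintro ⟨W, hWσ, rfl⟩
      obtain ⟨j, hj, rfl⟩ := hgW W hWσ
      exact ⟨j, mem_filter.2 ⟨hj, hWσ⟩, hν j hg hn⟩
    · rintro ⟨j, hj, rfl⟩
      exact ⟨_, (mem_filter.1 hj).2, hν j hg hn⟩
  · intro σ hσ W hW1 W' hW2 e
    obtain ⟨g, hg, hn, -, hgW⟩ := cham σ hσ
    obtain ⟨j, -, rfl⟩ := hgW W hW1
    obtain ⟨j', -, rfl⟩ := hgW W' hW2
    rw [hν j hg hn, hν j' hg hn] at e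
    rw [vtx_injective _ g e]

end Crest.Agent.R066
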