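import Crest.Agent.R066.Grp

/-! Row 66: the vertex stabilisers as parabolic subgroups. -/

set_option autoImplicit false
set_option linter.unusedSectionVars false

namespace Crest.Agent.R066.LinkAux

open Finset Module

variable {F R : Type} [Field F] [CommRing R] [Algebra F R] [Finite R] {τ : TR F R} {N c : ℕ}

/-- the zero pattern of the untwisted matrices of `Kb i`. -/
def Par (c i : ℕ) (k : Matrix (Fin N) (Fin N) F) : Prop :=
  ∀ a b : Fin N, (((a : ℕ) < i ∧ i ≤ (b : ℕ)) ∨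
    ((b : ℕ) < c ∧ (b : ℕ) < a ∧ ¬ ((b : ℕ) < i ∧ i ≤ (a : ℕ)))) → k a b = 0

theorem par_untw {i : ℕ} {g : Gp τ N c} (hg : g ∈ Kb τ N c i) : Par c i (untw τ i (mat g)) := by
  rintro a b (h | ⟨h1, h2, h3⟩)
  · exact untw_ZP hg a b h.1 h.2
  · simp only [untw, Matrix.of_apply, if_neg h3]
    exact mat_flag g a b h1 h2

theorem exists_K {i : ℕ} {k : Matrix (Fin N) (Fin N) F} (hP : Par c i k) (hd : k.det ≠ 0) :
    ∃ g ∈ Kb τ N c i, untw τ i (mat g) = k := by
  have hZ : ZP i k := fun a b ha hb => hP a b (Or.inl ⟨ha, hb⟩)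
  refine ⟨mkG τ c (tw τ i k) (fun a b hb hab => ?_) ⟨k.det, hd, det_tw hZ⟩, ⟨k, hZ, rfl⟩, ?_⟩
  · simp only [tw, Matrix.of_apply]
    split_ifs with h
    · rw [mul_comm, τ.co_zero_t]
    · rw [hP a b (Or.inr ⟨hb, hab, h⟩)]; simp
  · rw [mat_mkG, untw_tw]

theorem K_ext {i : ℕ} {g h : Gp τ N c} (hg : g ∈ Kb τ N c i) (hh : h ∈ Kb τ N c i)
    (e : untw τ i (mat g) = untw τ i (mat h)) : g = h :=
  mat_inj (by rw [← tw_untw hg, e, tw_untw hh])

theorem untw_mul_inv {i : ℕ} {g : Gp τ N c} (hg : g ∈ Kb τ N c i) :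
    untw τ i (mat g) * untw τ i (mat g⁻¹) = 1 := by
  rw [← untw_mul hg (inv_mem hg), mul_inv_cancel, untw_one]

theorem untw_inv_mul {i : ℕ} {g : Gp τ N c} (hg : g ∈ Kb τ N c i) :
    untw τ i (mat g⁻¹) * untw τ i (mat g) = 1 := by
  rw [← untw_mul (inv_mem hg) hg, inv_mul_cancel, untw_one]

theorem mem_Gn_iff {i n : ℕ} {g : Gp τ N c} (hg : g ∈ Kb τ N c i) :
    g ∈ Gn τ N c n ↔ ∀ a b : Fin N, (n ≤ (a : ℕ) ∨ n ≤ (b : ℕ)) →
      untw τ i (mat g) a b = if a = b then 1 else 0 := by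
  constructor
  · intro h a b hab
    simp only [untw, Matrix.of_apply, h a b hab]
    by_cases e : a = b
    · subst e; rw [if_neg (by omega)]; simp [τ.co_one]
    · simp [e]
  · intro h a b hab
    rw [← tw_untw hg]
    simp only [tw, Matrix.of_apply, h a b hab]
    by_cases e : a = b
    · subst e; rw [if_neg (show ¬ ((a : ℕ) < i ∧ i ≤ (a : ℕ)) by omega)]; simp
    · simp [e]

theorem untw_lower {i j n : ℕ} (hi : i ≤ c) (hj : j ≤ c) (hc : c < n) {g : Gp τ N c}
    (hg : g ∈ Kb τ N c i) {a b : Fin N} (ha : (a : ℕ) < n) (_hb : (b : ℕ) < n)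
    (h1 : pos i n b < pos i n j) (h2 : pos i n j ≤ pos i n a) : untw τ i (mat g) a b = 0 := by
  refine par_untw hg a b ?_
  simp only [pos] at h1 h2
  split_ifs at h1 h2 <;> omega

theorem mem_Kb_iff {i j n : ℕ} (hi : i ≤ c) (hj : j ≤ c) (hc : c < n) {g : Gp τ N c}
    (hg : g ∈ Kb τ N c i) (hn : g ∈ Gn τ N c n) :
    g ∈ Kb τ N c j ↔ ∀ a b : Fin N, (a : ℕ) < n → (b : ℕ) < n → pos i n a < pos i n j →
      pos i n j ≤ pos i n b → untw τ i (mat g) a b = 0 := by
  constructor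
  · rintro ⟨k', hk', e⟩ a b ha hb h1 h2
    have : ((a : ℕ) < j ∧ j ≤ (b : ℕ)) ∨
        (((b : ℕ) < i ∧ i ≤ (a : ℕ)) ∧ ¬ ((b : ℕ) < j ∧ j ≤ (a : ℕ))) := by
      simp only [pos] at h1 h2
      split_ifs at h1 h2 <;> omega
    rw [e]
    simp only [untw, tw, Matrix.of_apply]
    rcases this with h | ⟨h, h'⟩
    · rw [hk' a b h.1 h.2]; simp
    · rw [if_pos h, if_neg h', mul_one, τ.co_alg]; simp
  · intro h
    have hP := par_untw hg
    have hG := (mem_Gn_iff hg).1 hn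
    have key : ∀ a b : Fin N, (((a : ℕ) < j ∧ j ≤ (b : ℕ)) ∨
        ¬ (((b : ℕ) < i ∧ i ≤ (a : ℕ)) ↔ ((b : ℕ) < j ∧ j ≤ (a : ℕ)))) →
        untw τ i (mat g) a b = 0 := by
      intro a b hab
      by_cases hn' : n ≤ (a : ℕ) ∨ n ≤ (b : ℕ)
      · rw [hG a b hn', if_neg]
        rintro rfl
        omega
      · by_cases h1 : pos i n a < pos i n j ∧ pos i n j ≤ pos i n b
        · exact h a b (by omega) (by omega) h1.1 h1.2
        · refine hP a b ?_
          simp only [pos] at h1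
          split_ifs at h1 <;> omega
    refine ⟨untw τ i (mat g), fun a b ha hb => key a b (Or.inl ⟨ha, hb⟩), ?_⟩
    conv_lhs => rw [← tw_untw hg]
    ext a b
    simp only [tw, Matrix.of_apply]
    by_cases h1 : ((b : ℕ) < i ∧ i ≤ (a : ℕ)) ↔ ((b : ℕ) < j ∧ j ≤ (a : ℕ))
    · simp only [h1]
    · rw [key a b (Or.inr h1)]; simp

theorem pos_lt {i n a : ℕ} (hi : i ≤ n) (ha : a < n) : pos i n a < n := by
  simp only [pos]; split_ifs <;> omega

theorem pos_inj {i n a b : ℕ} (hi : i ≤ n) (ha : a < n) (hb : b < n) (h : pos i n a = pos i n b) :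
    a = b := by
  simp only [pos] at h; split_ifs at h <;> omega

theorem pos_pos {i n a : ℕ} (hi : i < n) (ha : a ≠ i) : 0 < pos i n a := by
  simp only [pos]; split_ifs <;> omega

theorem pos_surj {i n m : ℕ} (hi : i ≤ n) (hm : m < n) : ∃ a < n, pos i n a = m := by
  by_cases h : m + i < n
  · exact ⟨m + i, h, by simp [pos]⟩
  · refine ⟨m + i - n, by omega, ?_⟩
    simp only [pos]; split_ifs <;> omega

/-- a matrix that strictly raises a level function is nilpotent. -/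
theorem det_one_add_ne {Y : Matrix (Fin N) (Fin N) F} (key : Fin N → ℕ)
    (hY : ∀ a b, Y a b ≠ 0 → key a < key b) : (1 + Y).det ≠ 0 := by
  have hp : ∀ (m : ℕ) (a b : Fin N), (Y ^ m) a b ≠ 0 → key a + m ≤ key b := by
    intro m
    induction m with
    | zero =>
      intro a b h
      by_cases e : a = b
      · simp [e]
      · simp [Matrix.one_apply_ne e] at h
    | succ m ih =>
      intro a b h
      rw [pow_succ, Matrix.mul_apply] at h
      obtain ⟨e, -, he⟩ := Finset.exists_ne_zero_of_sum_ne_zero h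
      have h1 := ih a e (left_ne_zero_of_mul he)
      have h2 := hY e b (right_ne_zero_of_mul he)
      omega
  have hn : IsNilpotent Y := ⟨univ.sup key + 1, by
    ext a b
    by_contra h
    have h1 := hp _ a b h
    have h2 : key b ≤ univ.sup key := Finset.le_sup (mem_univ b)
    omega⟩
  exact ((Matrix.isUnit_iff_isUnit_det _).1 hn.isUnit_one_add).ne_zero

theorem par_one_add {i n : ℕ} (hi : i ≤ n) {Y : Matrix (Fin N) (Fin N) F}
    (hY : ∀ a b, Y a b ≠ 0 → (a : ℕ) < n ∧ (b : ℕ) < n ∧ pos i n a < pos i n b) :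
    Par c i (1 + Y) := by
  intro a b hab
  have hne : a ≠ b := by rintro rfl; omega
  rw [Matrix.add_apply, Matrix.one_apply_ne hne, zero_add]
  by_contra h
  obtain ⟨h1, h2, h3⟩ := hY a b h
  simp only [pos] at h3
  split_ifs at h3 <;> omega

/-- unipotent elements. -/
theorem exists_unip {i n : ℕ} (hi : i ≤ n) {Y : Matrix (Fin N) (Fin N) F}
    (hY : ∀ a b, Y a b ≠ 0 → (a : ℕ) < n ∧ (b : ℕ) < n ∧ pos i n a < pos i n b) :
    ∃ g ∈ Kb τ N c i, g ∈ Gn τ N c n ∧ untw τ i (mat g) = 1 + Y := by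
  obtain ⟨g, hg, e⟩ := exists_K (τ := τ) (par_one_add (c := c) hi hY)
    (det_one_add_ne (fun a => pos i n a) fun a b h => (hY a b h).2.2)
  refine ⟨g, hg, (mem_Gn_iff hg).2 fun a b hab => ?_, e⟩
  have : Y a b = 0 := by
    by_contra h
    have := hY a b h
    omega
  rw [e, Matrix.add_apply, this, add_zero, Matrix.one_apply]

end Crest.Agent.R066.LinkAux
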