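import Crest.Agent.R066.LG

/-! Row 66: cones in links give coboundary expansion of links. -/

set_option autoImplicit false
set_option linter.unusedSectionVars false

namespace Crest.Agent.R066

open Finset

variable {G : Type} [Group G] [Fintype G] {ι : Type} [Fintype ι] [DecidableEq ι]
  (K : ι → Subgroup G)

namespace LinkExp

theorem card_mul_avg (H : Subgroup G) [Fintype H] (f : EuclideanSpace ℝ G) (g : G) :
    (Nat.card H : ℝ) * avg H f g = ∑ h : H, f (g * h) := by
  have hpos : (Nat.card H : ℝ) ≠ 0 := by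
    have : 0 < Nat.card H := Nat.card_pos
    exact_mod_cast this.ne'
  rw [avg_apply, mul_div_cancel₀ _ hpos]
  convert rfl

theorem pair_bd {α : Type} [DecidableEq α] (φ : Finset α → ZMod 2) (z : Ch (ZMod 2) α) :
    Finsupp.linearCombination (ZMod 2) φ (bd (ZMod 2) z) =
      Finsupp.linearCombination (ZMod 2) (cobd φ) z := by
  have : (Finsupp.linearCombination (ZMod 2) φ ∘ₗ bd (ZMod 2)) z =
      Finsupp.linearCombination (ZMod 2) (cobd φ) z := by
    refine eq_on_sup (𝒜 := Set.univ) _ _ ?_ (mem_sup.2 fun _ _ => trivial)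
    intro σ _
    simp [bd_single, cobd, Finsupp.linearCombination_single]
  simpa using this

theorem exists_of_pair_ne {α : Type} (ψ : Finset α → ZMod 2) (z : Ch (ZMod 2) α)
    (h : Finsupp.linearCombination (ZMod 2) ψ z ≠ 0) : ∃ t ∈ z.support, ψ t ≠ 0 := by
  by_contra hc
  push Not at hc
  apply h
  rw [Finsupp.linearCombination_apply, Finsupp.sum]
  exact Finset.sum_eq_zero fun t ht => by rw [hc t ht, smul_zero]

theorem ind_nonneg (g : Finset (Vtx K) → ZMod 2) (J : Finset ι) (w : G) : 0 ≤ ind K g J w := by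
  simp only [ind]; split_ifs <;> norm_num

theorem ind_apply (g : Finset (Vtx K) → ZMod 2) (J : Finset ι) (w : G) :
    ind K g J w = if g (face K w J) = 0 then 0 else 1 := rfl

theorem wt_eq (κ : ℕ) (g : Finset (Vtx K) → ZMod 2) :
    (wt K κ g : ℝ) = ∑ J ∈ (univ : Finset ι).powersetCard κ, ∑ w : G, ind K g J w := by
  rw [wt, Finset.card_filter, Nat.cast_sum, Finset.sum_product, Finset.sum_comm]
  refine Finset.sum_congr rfl fun J _ => Finset.sum_congr rfl fun w _ => ?_
  rw [ind_apply]
  by_cases h : g (face K w J) = 0 <;> simp [h]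

theorem face_subset_iff {ω w : G} {I J : Finset ι} :
    face K ω I ⊆ face K w J ↔ I ⊆ J ∧ ω⁻¹ * w ∈ KJ K I := by
  constructor
  · intro h
    have h1 := subset_face K h
    rw [image_fst_face] at h1
    exact ⟨h1.2, (mem_KJ K).2 ((face_eq_iff K).1 h1.1).2⟩
  · rintro ⟨h1, h2⟩
    have : face K ω I = face K w I := (face_eq_iff K).2 ⟨rfl, (mem_KJ K).1 h2⟩
    rw [this]; exact face_mono K w h1

theorem sum_coset (H : Subgroup G) [Fintype H] [DecidablePred (· ∈ H)] (ω : G) (f : G → ℝ) :
    ∑ w : G, (if ω⁻¹ * w ∈ H then f w else 0) = ∑ x : H, f (ω * x) := by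
  rw [← Equiv.sum_comp (Equiv.mulLeft ω)]
  simp only [Equiv.coe_mulLeft, inv_mul_cancel_left]
  rw [← Finset.sum_filter]
  exact Finset.sum_subtype _ (by simp) (fun x => f (ω * x))

/-- localisation of the weight inequality to the star of a face. -/
theorem local_le {κ : ℕ} (I : Finset ι) [Fintype (KJ K I)] (ω : G)
    {g g' : Finset (Vtx K) → ZMod 2}
    (he : ∀ w J, ¬ face K ω I ⊆ face K w J → g' (face K w J) = g (face K w J))
    (hw : wt K κ g ≤ wt K κ g') :
    ∑ J ∈ ((univ : Finset ι).powersetCard κ).filter (I ⊆ ·), ∑ x : KJ K I, ind K g J (ω * x) ≤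
      ∑ J ∈ ((univ : Finset ι).powersetCard κ).filter (I ⊆ ·),
        ∑ x : KJ K I, ind K g' J (ω * x) := by
  classical
  have split : ∀ f : Finset (Vtx K) → ZMod 2, (wt K κ f : ℝ) =
      ∑ J ∈ ((univ : Finset ι).powersetCard κ).filter (I ⊆ ·), ∑ x : KJ K I, ind K f J (ω * x) +
      ∑ J ∈ (univ : Finset ι).powersetCard κ, ∑ w : G,
        (if face K ω I ⊆ face K w J then 0 else ind K f J w) := by
    intro f
    rw [wt_eq, Finset.sum_filter, ← Finset.sum_add_distrib]
    refine Finset.sum_congr rfl fun J _ => ?_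
    have : (if I ⊆ J then ∑ x : KJ K I, ind K f J (ω * x) else 0) =
        ∑ w : G, (if face K ω I ⊆ face K w J then ind K f J w else 0) := by
      simp only [face_subset_iff]
      by_cases hJ : I ⊆ J
      · simp only [hJ, true_and, if_true]
        exact (sum_coset (KJ K I) ω (fun w => ind K f J w)).symm
      · simp [hJ]
    rw [this, ← Finset.sum_add_distrib]
    refine Finset.sum_congr rfl fun w _ => ?_
    split_ifs <;> simp
  have hw' : (wt K κ g : ℝ) ≤ wt K κ g' := by exact_mod_cast hw
  rw [split g, split g'] at hw'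
  have : ∑ J ∈ (univ : Finset ι).powersetCard κ, ∑ w : G,
        (if face K ω I ⊆ face K w J then 0 else ind K g' J w) =
      ∑ J ∈ (univ : Finset ι).powersetCard κ, ∑ w : G,
        (if face K ω I ⊆ face K w J then 0 else ind K g J w) := by
    refine Finset.sum_congr rfl fun J _ => Finset.sum_congr rfl fun w _ => ?_
    split_ifs with h
    · rfl
    · rw [ind_apply, ind_apply, he w J h]
  rw [this] at hw'
  linarith

/-- restriction of a cochain to the link of `r`, translated by `a`, in cardinality `m`. -/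
noncomputable def res (g : Finset (Vtx K) → ZMod 2) (r : Finset (Vtx K)) (a : G) (m : ℕ) :
    Finset (Vtx K) → ZMod 2 :=
  fun s => if s.card = m then g (s.image (fun x => a • x) ∪ r) else 0

/-- the correcting cochain. -/
noncomputable def corr (φ : Finset (Vtx K) → ZMod 2) (c : Finset (Vtx K) → Ch (ZMod 2) (Vtx K))
    (r : Finset (Vtx K)) (a : G) : Finset (Vtx K) → ZMod 2 :=
  fun σ => if r ⊆ σ then
    Finsupp.linearCombination (ZMod 2) φ (c ((σ \ r).image (fun x => a⁻¹ • x))) else 0

theorem cobd_corr_of_not (φ : Finset (Vtx K) → ZMod 2)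
    (c : Finset (Vtx K) → Ch (ZMod 2) (Vtx K)) (r : Finset (Vtx K)) (a : G)
    {τ : Finset (Vtx K)} (h : ¬ r ⊆ τ) : cobd (corr K φ c r a) τ = 0 := by
  refine Finset.sum_eq_zero fun x _ => ?_
  rw [corr, if_neg]
  exact fun h' => h (h'.trans (Finset.erase_subset _ _))

theorem cobd_corr_of_subset (φ : Finset (Vtx K) → ZMod 2)
    (c : Finset (Vtx K) → Ch (ZMod 2) (Vtx K)) (r : Finset (Vtx K)) (a : G)
    {τ : Finset (Vtx K)} (h : r ⊆ τ) : cobd (corr K φ c r a) τ =
      Finsupp.linearCombination (ZMod 2) φ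
        (∑ y ∈ (τ \ r).image (fun x => a⁻¹ • x),
          c (((τ \ r).image (fun x => a⁻¹ • x)).erase y)) := by
  have hinj : Function.Injective (fun x : Vtx K => a⁻¹ • x) := MulAction.injective _
  rw [map_sum, Finset.sum_image hinj.injOn, cobd, ← Finset.sum_sdiff h]
  rw [Finset.sum_eq_zero (s := r), add_zero]
  · refine Finset.sum_congr rfl fun x hx => ?_
    have hx' := Finset.mem_sdiff.1 hx
    rw [corr, if_pos, ← Finset.image_erase hinj]
    · congr 3
      ext y
      simp only [Finset.mem_sdiff, Finset.mem_erase]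
      tauto
    · intro y hy
      exact Finset.mem_erase.2 ⟨fun e => hx'.2 (e ▸ hy), h hy⟩
  · intro x hx
    rw [corr, if_neg]
    intro h'
    exact Finset.notMem_erase x τ (h' hx)

theorem face_sdiff (w : G) (I J : Finset ι) : face K w J \ face K w I = face K w (J \ I) := by
  simp only [face]
  exact (Finset.image_sdiff _ _ (vtx_injective K w)).symm

/-- the coboundary of the restriction is controlled by faces missing one vertex of `r`. -/
theorem cobd_res_le {κ : ℕ} {I : Finset ι} (hIκ : I.card ≤ κ) {g : Finset (Vtx K) → ZMod 2}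
    (hg : Cocyc K κ g) (ω : G) {h x : G} (hh : h ∈ KJ K I) (hx : x ∈ KJ K I) {J : Finset ι}
    (hJ : J ⊆ Iᶜ)
    (hne : cobd (res K g (face K ω I) (ω * h) (κ - I.card)) (face K x J) ≠ 0) :
    (J ∪ I).card = κ + 1 ∧ 1 ≤ ∑ v ∈ I, ind K g ((J ∪ I).erase v) (ω * (h * x)) := by
  have hd : Disjoint J I := Finset.disjoint_left.2 fun i hi => Finset.mem_compl.1 (hJ hi)
  have hcard : J.card = κ - I.card + 1 := by
    by_contra hc
    apply hne
    refine Finset.sum_eq_zero fun y hy => ?_
    rw [res, if_neg]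
    rw [Finset.card_erase_of_mem hy, card_face]
    have : 0 < J.card := by rw [← card_face K x J]; exact Finset.card_pos.2 ⟨y, hy⟩
    omega
  have hcu : (J ∪ I).card = κ + 1 := by
    rw [Finset.card_union_of_disjoint hd]; omega
  refine ⟨hcu, ?_⟩
  have hr : face K ω I = face K (ω * (h * x)) I := by
    refine (face_eq_iff K).2 ⟨rfl, (mem_KJ K).1 ?_⟩
    simpa using (KJ K I).mul_mem hh hx
  have e1 : cobd (res K g (face K ω I) (ω * h) (κ - I.card)) (face K x J) =
      ∑ j ∈ J, g (face K (ω * (h * x)) ((J ∪ I).erase j)) := by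
    rw [cobd, face, Finset.sum_image (vtx_injective K x).injOn]
    refine Finset.sum_congr rfl fun j hj => ?_
    rw [← face, ← face_erase, res, if_pos, image_smul_face, hr, mul_assoc, ← face_union]
    · congr 2
      ext i
      simp only [Finset.mem_union, Finset.mem_erase]
      have : i ∈ I → i ≠ j := fun hi e => Finset.disjoint_left.1 hd hj (e ▸ hi)
      tauto
    · rw [card_face, Finset.card_erase_of_mem hj]; omega
  have e2 : ∑ j ∈ J ∪ I, g (face K (ω * (h * x)) ((J ∪ I).erase j)) = 0 := by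
    have := hg (ω * (h * x)) (J ∪ I) hcu
    rw [cobd, face, Finset.sum_image (vtx_injective K _).injOn] at this
    rw [← this]
    refine Finset.sum_congr rfl fun j _ => ?_
    rw [← face, ← face_erase]
  rw [Finset.sum_union hd, ← e1] at e2
  by_contra hlt
  apply hne
  have hz : ∀ v ∈ I, g (face K (ω * (h * x)) ((J ∪ I).erase v)) = 0 := by
    intro v hv
    by_contra hv0
    apply hlt
    have h1 : ind K g ((J ∪ I).erase v) (ω * (h * x)) = 1 := by rw [ind_apply, if_neg hv0]
    rw [← h1]
    exact Finset.single_le_sum (f := fun v => ind K g ((J ∪ I).erase v) (ω * (h * x)))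
      (fun v _ => ind_nonneg K g _ _) hv
  rwa [Finset.sum_eq_zero hz, add_zero] at e2

end LinkExp

open LinkExp in
/-- For a locally minimal cocycle, the mass seen from a face of type `I` is controlled by the mass
on faces missing exactly one vertex of that face. -/
theorem link_exp {R κ : ℕ} {I : Finset ι} (hI : I.Nonempty) (hIκ : I.card ≤ κ)
    (hκ : κ + 1 ≤ Fintype.card ι)
    (hc : HasCone (ZMod 2) (Cx K (KJ K I : Set G) Iᶜ) (Iᶜ.card - 1) R)
    {g : Finset (Vtx K) → ZMod 2} (hg : Cocyc K κ g) (hmin : LocMin K κ g) (ω : G) :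
    ∑ J ∈ ((univ : Finset ι).powersetCard κ).filter (I ⊆ ·), avg (KJ K I) (ind K g J) ω ≤
      (2 ^ Fintype.card ι * R : ℝ) *
        ∑ J ∈ ((univ : Finset ι).powersetCard (κ + 1)).filter (I ⊆ ·), ∑ v ∈ I,
          avg (KJ K I) (ind K g (J.erase v)) ω := by
  classical
  obtain ⟨c, hc⟩ := hc
  obtain ⟨v₀, hv₀⟩ := hI
  set P := ((univ : Finset ι).powersetCard κ).filter (I ⊆ ·) with hP
  set A := ∑ J ∈ P, avg (KJ K I) (ind K g J) ω with hA
  set B := ∑ J ∈ ((univ : Finset ι).powersetCard (κ + 1)).filter (I ⊆ ·), ∑ v ∈ I,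
          avg (KJ K I) (ind K g (J.erase v)) ω with hB
  set N : ℝ := (Nat.card (KJ K I) : ℝ) with hN
  have hNpos : 0 < N := by
    have : 0 < Nat.card (KJ K I) := Nat.card_pos
    rw [hN]; exact_mod_cast this
  have hNc : ((univ : Finset (KJ K I)).card : ℝ) = N := by
    rw [hN, Finset.card_univ, Nat.card_eq_fintype_card]
  set φ : KJ K I → Finset (Vtx K) → ZMod 2 :=
    fun h => res K g (face K ω I) (ω * h) (κ - I.card) with hφ
  have havg0 : ∀ J : Finset ι, 0 ≤ avg (KJ K I) (ind K g J) ω := by
    intro J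
    have := card_mul_avg (KJ K I) (ind K g J) ω
    have h0 : 0 ≤ ∑ h : KJ K I, ind K g J (ω * h) :=
      Finset.sum_nonneg fun h _ => ind_nonneg K g _ _
    rw [← this] at h0
    exact nonneg_of_mul_nonneg_right h0 hNpos |> fun h => h
  have hB0 : 0 ≤ B := Finset.sum_nonneg fun J _ => Finset.sum_nonneg fun v _ => havg0 _
  -- the cone applies to the link simplices
  have hmem : ∀ J ∈ P, ∀ y : KJ K I, face K (y : G) (J \ I) ∈ Cx K (KJ K I : Set G) Iᶜ ∧
      (face K (y : G) (J \ I)).card = κ - I.card := by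
    intro J hJ y
    rw [hP, Finset.mem_filter, Finset.mem_powersetCard] at hJ
    refine ⟨face_mem_Cx K y.2 fun i hi => Finset.mem_compl.2 (Finset.mem_sdiff.1 hi).2, ?_⟩
    rw [card_face, Finset.card_sdiff_of_subset hJ.2, hJ.1.2]
  have hcone : ∀ J ∈ P, ∀ y : KJ K I,
      c (face K (y : G) (J \ I)) ∈ Sup (ZMod 2) (Cx K (KJ K I : Set G) Iᶜ) ∧
      (c (face K (y : G) (J \ I))).support.card ≤ R ∧
      bd (ZMod 2) (c (face K (y : G) (J \ I))) +
        ∑ x ∈ face K (y : G) (J \ I), c ((face K (y : G) (J \ I)).erase x) =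
        Finsupp.single (face K (y : G) (J \ I)) 1 := by
    intro J hJ y
    obtain ⟨h1, h2⟩ := hmem J hJ y
    obtain ⟨h3, h4, h5⟩ := hc _ h1 (by rw [h2, Finset.card_compl]; omega)
    exact ⟨sup_mono (fun σ hσ => hσ.1) h3, h4, h5⟩
  -- step 1: local minimality
  have step1 : ∀ h : KJ K I, N * A ≤ ∑ J ∈ P, ∑ y : KJ K I,
      ∑ t ∈ (c (face K (y : G) (J \ I))).support, (if cobd (φ h) t = 0 then (0 : ℝ) else 1) := by
    intro h
    have hw := hmin (vtx K v₀ ω) (corr K (φ h) c (face K ω I) (ω * h)) (by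
      intro σ hσ
      by_contra hx
      apply hσ
      rw [corr, if_neg]
      exact fun hs => hx (hs (vtx_mem_face K hv₀)))
    have hl := local_le K I ω (g := g) (g' := g + cobd (corr K (φ h) c (face K ω I) (ω * h)))
      (fun w J hn => by rw [Pi.add_apply, cobd_corr_of_not K _ _ _ _ hn, add_zero]) hw
    have eA : N * A = ∑ J ∈ P, ∑ x : KJ K I, ind K g J (ω * x) := by
      rw [hA, Finset.mul_sum]
      exact Finset.sum_congr rfl fun J _ => card_mul_avg _ _ _
    rw [eA]
    refine hl.trans (Finset.sum_le_sum fun J hJ => ?_)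
    rw [← Equiv.sum_comp (Equiv.mulLeft h)]
    refine Finset.sum_le_sum fun y _ => ?_
    obtain ⟨h1, h2, h3⟩ := hcone J hJ y
    have hIJ : I ⊆ J := (Finset.mem_filter.1 hJ).2
    simp only [Equiv.coe_mulLeft, Subgroup.coe_mul]
    have hr : face K ω I = face K (ω * (h * y)) I := by
      refine (face_eq_iff K).2 ⟨rfl, (mem_KJ K).1 ?_⟩
      simpa using (KJ K I).mul_mem h.2 y.2
    have hsub : face K ω I ⊆ face K (ω * (h * y)) J := by rw [hr]; exact face_mono K _ hIJ
    have himg : (face K (ω * (h * y)) J \ face K ω I).image (fun x => (ω * h)⁻¹ • x) =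
        face K (y : G) (J \ I) := by
      rw [hr, face_sdiff, image_smul_face]
      congr 1
      group
    have hval : (g + cobd (corr K (φ h) c (face K ω I) (ω * h))) (face K (ω * (h * y)) J) =
        Finsupp.linearCombination (ZMod 2) (cobd (φ h)) (c (face K (y : G) (J \ I))) := by
      rw [Pi.add_apply, cobd_corr_of_subset K _ _ _ _ hsub, himg, ← pair_bd]
      have e := congrArg (Finsupp.linearCombination (ZMod 2) (φ h)) h3
      rw [map_add, Finsupp.linearCombination_single, one_smul] at e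
      have e' : φ h (face K (y : G) (J \ I)) = g (face K (ω * (h * y)) J) := by
        simp only [hφ]
        rw [res, if_pos (hmem J hJ y).2, image_smul_face, hr, mul_assoc, ← face_union,
          Finset.sdiff_union_of_subset hIJ]
      rw [← e', ← e, add_assoc, CharTwo.add_self_eq_zero, add_zero]
    rw [ind_apply, hval]
    split_ifs with h0
    · exact Finset.sum_nonneg fun t _ => by split_ifs <;> norm_num
    · obtain ⟨t, ht, hne⟩ := exists_of_pair_ne _ _ h0
      have := Finset.single_le_sum (f := fun t => if cobd (φ h) t = 0 then (0 : ℝ) else 1)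
        (fun t _ => by split_ifs <;> norm_num) ht
      simpa [hne] using this
  -- step 2: averaging over the stabiliser
  have step2 : ∀ t ∈ Cx K (KJ K I : Set G) Iᶜ,
      ∑ h : KJ K I, (if cobd (φ h) t = 0 then (0 : ℝ) else 1) ≤ N * B := by
    rintro _ ⟨x, hx, J, hJ, rfl⟩
    by_cases hcu : (J ∪ I).card = κ + 1
    · have hmemP : J ∪ I ∈ ((univ : Finset ι).powersetCard (κ + 1)).filter (I ⊆ ·) := by
        rw [Finset.mem_filter, Finset.mem_powersetCard]
        exact ⟨⟨Finset.subset_univ _, hcu⟩, Finset.subset_union_right⟩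
      have hle : ∑ v ∈ I, avg (KJ K I) (ind K g ((J ∪ I).erase v)) ω ≤ B := by
        have h0 : ∀ J' ∈ ((univ : Finset ι).powersetCard (κ + 1)).filter (I ⊆ ·),
            0 ≤ ∑ v ∈ I, avg (KJ K I) (ind K g (J'.erase v)) ω :=
          fun J' _ => Finset.sum_nonneg fun v _ => havg0 (J'.erase v)
        have h1 := Finset.single_le_sum h0 hmemP
        rw [hB]; exact h1
      refine le_trans ?_ (mul_le_mul_of_nonneg_left hle hNpos.le)
      have e1 : N * ∑ v ∈ I, avg (KJ K I) (ind K g ((J ∪ I).erase v)) ω =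
          ∑ h : KJ K I, ∑ v ∈ I, ind K g ((J ∪ I).erase v) (ω * h) := by
        rw [Finset.mul_sum, Finset.sum_comm]
        exact Finset.sum_congr rfl fun v _ => card_mul_avg _ _ _
      rw [e1, ← Equiv.sum_comp (Equiv.mulRight (⟨x, hx⟩ : KJ K I))
        (fun h : KJ K I => ∑ v ∈ I, ind K g ((J ∪ I).erase v) (ω * h))]
      refine Finset.sum_le_sum fun h _ => ?_
      simp only [Equiv.coe_mulRight, Subgroup.coe_mul]
      split_ifs with h0
      · exact Finset.sum_nonneg fun v _ => ind_nonneg K g _ _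
      · exact (cobd_res_le K hIκ hg ω h.2 hx hJ h0).2
    · rw [Finset.sum_eq_zero]
      · positivity
      · intro h _
        rw [if_pos]
        by_contra h0
        exact hcu (cobd_res_le K hIκ hg ω h.2 hx hJ h0).1
  have hPc : (P.card : ℝ) ≤ 2 ^ Fintype.card ι := by
    have : P.card ≤ 2 ^ Fintype.card ι := by
      rw [← Fintype.card_finset]; exact Finset.card_le_univ _
    exact_mod_cast this
  have main : N * (N * A) ≤ 2 ^ Fintype.card ι * (N * (R * (N * B))) := by
    calc N * (N * A) = ∑ _h : KJ K I, N * A := by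
          rw [Finset.sum_const, nsmul_eq_mul, hNc]
      _ ≤ ∑ h : KJ K I, ∑ J ∈ P, ∑ y : KJ K I,
          ∑ t ∈ (c (face K (y : G) (J \ I))).support,
            (if cobd (φ h) t = 0 then (0 : ℝ) else 1) := Finset.sum_le_sum fun h _ => step1 h
      _ = ∑ J ∈ P, ∑ y : KJ K I, ∑ t ∈ (c (face K (y : G) (J \ I))).support,
          ∑ h : KJ K I, (if cobd (φ h) t = 0 then (0 : ℝ) else 1) := by
          rw [Finset.sum_comm]
          refine Finset.sum_congr rfl fun J _ => ?_
          rw [Finset.sum_comm]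
          refine Finset.sum_congr rfl fun y _ => ?_
          rw [Finset.sum_comm]
      _ ≤ ∑ _J ∈ P, ∑ _y : KJ K I, (R * (N * B)) := by
          refine Finset.sum_le_sum fun J hJ => Finset.sum_le_sum fun y _ => ?_
          obtain ⟨h1, h2, -⟩ := hcone J hJ y
          calc _ ≤ ∑ _t ∈ (c (face K (y : G) (J \ I))).support, N * B :=
                Finset.sum_le_sum fun t ht =>
                  step2 t (mem_sup.1 h1 t (Finsupp.mem_support_iff.1 ht))
            _ = ((c (face K (y : G) (J \ I))).support.card : ℝ) * (N * B) := by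
                rw [Finset.sum_const, nsmul_eq_mul]
            _ ≤ R * (N * B) :=
                mul_le_mul_of_nonneg_right (by exact_mod_cast h2) (by positivity)
      _ = P.card * (N * (R * (N * B))) := by
          rw [Finset.sum_const, Finset.sum_const, nsmul_eq_mul, nsmul_eq_mul, hNc]
      _ ≤ _ := mul_le_mul_of_nonneg_right hPc (by positivity)
  have : N * (N * A) ≤ N * (N * ((2 ^ Fintype.card ι * R : ℝ) * B)) := by
    refine main.trans (le_of_eq ?_); ring
  exact le_of_mul_le_mul_left (le_of_mul_le_mul_left this hNpos) hNpos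

end Crest.Agent.R066
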