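import Crest.Agent.R066.LinkAux
import Crest.Agent.R066.Avg

/-! Row 66: root subgroups of the vertex stabilisers. -/

set_option autoImplicit false
set_option linter.unusedSectionVars false

namespace Crest.Agent.R066.SpecAux

open Finset LinkAux

variable {F R : Type} [Field F] [Fintype F] [CommRing R] [Algebra F R] [Finite R] {τ : TR F R}
  {N c : ℕ}

/-- the matrix is supported on `S`. -/
def Supp (S : Finset (Fin N × Fin N)) (X : Matrix (Fin N) (Fin N) F) : Prop :=
  ∀ a b, X a b ≠ 0 → (a, b) ∈ S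

/-- no pair of `S` can be composed with a pair of `S'`. -/
def NC (S S' : Finset (Fin N × Fin N)) : Prop := ∀ a b e, (a, b) ∈ S → (b, e) ∉ S'

/-- strictly upper triangular pairs. -/
def Up (i : ℕ) (S : Finset (Fin N × Fin N)) : Prop := ∀ p ∈ S, pos i N p.1 < pos i N p.2

theorem NC.mono {S S' T T' : Finset (Fin N × Fin N)} (h : NC S S') (h1 : T ⊆ S) (h2 : T' ⊆ S') :
    NC T T' := fun a b e h3 h4 => h a b e (h1 h3) (h2 h4)

theorem Supp.mul_eq_zero {S S' : Finset (Fin N × Fin N)} {X Y : Matrix (Fin N) (Fin N) F}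
    (hX : Supp S X) (hY : Supp S' Y) (h : NC S S') : X * Y = 0 := by
  ext a b
  rw [Matrix.mul_apply]
  refine Finset.sum_eq_zero fun e _ => ?_
  by_contra h0
  exact h a e b (hX a e (left_ne_zero_of_mul h0)) (hY e b (right_ne_zero_of_mul h0))

theorem Supp.add {S : Finset (Fin N × Fin N)} {X Y : Matrix (Fin N) (Fin N) F}
    (hX : Supp S X) (hY : Supp S Y) : Supp S (X + Y) := fun a b h => by
  by_cases h1 : X a b = 0
  · exact hY a b (by simpa [h1] using h)
  · exact hX a b h1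

theorem supp_single (p : Fin N × Fin N) (x : F) : Supp {p} (Matrix.single p.1 p.2 x) :=
  fun a b h => by
    by_contra h1
    refine h (Matrix.single_apply_of_ne _ _ _ _ _ fun h2 => h1 ?_)
    rw [mem_singleton, ← h2.1, ← h2.2]

variable (τ c) in
/-- the abelian group `1 + X`, `X` supported on `S`. -/
def US (i : ℕ) (S : Finset (Fin N × Fin N)) (hS : NC S S) : Subgroup (Gp τ N c) :=
  ofMul {g | g ∈ Kb τ N c i ∧ ∃ X, Supp S X ∧ untw τ i (mat g) = 1 + X}
    ⟨one_mem _, 0, fun a b h => absurd rfl h, by rw [untw_one, add_zero]⟩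
    (by
      rintro g ⟨hg, X, hX, e⟩ h ⟨hh, Y, hY, e'⟩
      refine ⟨mul_mem hg hh, X + Y, hX.add hY, ?_⟩
      rw [untw_mul hg hh, e, e', add_mul, mul_add, mul_add, hX.mul_eq_zero hY hS]
      simp only [one_mul, mul_one, add_zero]
      abel)

theorem mem_US {i : ℕ} {S : Finset (Fin N × Fin N)} {hS : NC S S} {g : Gp τ N c} :
    g ∈ US τ c i S hS ↔ g ∈ Kb τ N c i ∧ ∃ X, Supp S X ∧ untw τ i (mat g) = 1 + X := Iff.rfl

theorem US_comm {i : ℕ} {S S' : Finset (Fin N × Fin N)} {hS : NC S S} {hS' : NC S' S'}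
    (h1 : NC S S') (h2 : NC S' S) {g h : Gp τ N c} (hg : g ∈ US τ c i S hS)
    (hh : h ∈ US τ c i S' hS') : g * h = h * g := by
  obtain ⟨hg, X, hX, e⟩ := hg
  obtain ⟨hh, Y, hY, e'⟩ := hh
  refine K_ext (mul_mem hg hh) (mul_mem hh hg) ?_
  rw [untw_mul hg hh, untw_mul hh hg, e, e']
  simp only [add_mul, mul_add, hX.mul_eq_zero hY h1, hY.mul_eq_zero hX h2, one_mul, mul_one,
    add_zero]
  abel

theorem exists_US {i : ℕ} (hi : i ≤ N) {S : Finset (Fin N × Fin N)} (hS : NC S S) (hU : Up i S)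
    {X : Matrix (Fin N) (Fin N) F} (hX : Supp S X) :
    ∃ g ∈ US τ c i S hS, untw τ i (mat g) = 1 + X := by
  obtain ⟨g, hg, -, e⟩ := exists_unip (τ := τ) (c := c) (n := N) hi (Y := X)
    fun a b h => ⟨a.2, b.2, hU _ (hX a b h)⟩
  exact ⟨g, ⟨hg, X, hX, e⟩, e⟩

theorem US_mono {i : ℕ} {S S' : Finset (Fin N × Fin N)} {hS : NC S S} {hS' : NC S' S'}
    (h : S ⊆ S') : US τ c i S hS ≤ US τ c i S' hS' := by
  rintro g ⟨hg, X, hX, e⟩
  exact ⟨hg, X, fun a b h0 => h (hX a b h0), e⟩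

theorem avg_US_union {i : ℕ} (hi : i ≤ N) {S S' T : Finset (Fin N × Fin N)} (hS : NC S S)
    (hS' : NC S' S') (hT : NC T T) (hU : Up i T) (e : T = S ∪ S')
    (f : EuclideanSpace ℝ (Gp τ N c)) :
    avg (US τ c i T hT) f = avg (US τ c i S hS) (avg (US τ c i S' hS') f) := by
  subst e
  refine avg_mul (US_mono subset_union_left) (US_mono subset_union_right) ?_ f
  rintro g ⟨hg, X, hX, e⟩
  let X1 : Matrix (Fin N) (Fin N) F := Matrix.of fun a b => if (a, b) ∈ S then X a b else 0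
  let X2 : Matrix (Fin N) (Fin N) F := Matrix.of fun a b => if (a, b) ∈ S then 0 else X a b
  have h1 : Supp S X1 := fun a b h => by
    by_contra h'; simp [X1, h'] at h
  have h2 : Supp S' X2 := fun a b h => by
    by_cases h' : (a, b) ∈ S
    · simp [X2, h'] at h
    · have := hX a b (by simpa [X2, h'] using h)
      simpa [h'] using this
  obtain ⟨g1, hg1, e1⟩ := exists_US (τ := τ) (c := c) hi hS
    (fun p hp => hU p (mem_union_left _ hp)) h1
  obtain ⟨g2, hg2, e2⟩ := exists_US (τ := τ) (c := c) hi hS'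
    (fun p hp => hU p (mem_union_right _ hp)) h2
  refine ⟨g1, hg1, g2, hg2, K_ext hg (mul_mem hg1.1 hg2.1) ?_⟩
  have : X = X1 + X2 := by
    ext a b
    by_cases h' : (a, b) ∈ S <;> simp [X1, X2, h']
  rw [untw_mul hg1.1 hg2.1, e, e1, e2, this, add_mul, mul_add, mul_add,
    h1.mul_eq_zero h2 (hT.mono subset_union_left subset_union_right)]
  simp only [one_mul, mul_one, add_zero]
  abel

theorem US_le_Kb {i j : ℕ} (hi : i ≤ c) (hj : j ≤ c) (hc : c < N) {S : Finset (Fin N × Fin N)}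
    {hS : NC S S} (h : ∀ p ∈ S, ¬ (pos i N p.1 < pos i N j ∧ pos i N j ≤ pos i N p.2)) :
    US τ c i S hS ≤ Kb τ N c j := by
  rintro g ⟨hg, X, hX, e⟩
  refine (mem_Kb_iff hi hj hc hg (by rw [Gn_top]; trivial)).2 fun a b _ _ h1 h2 => ?_
  have hne : a ≠ b := by rintro rfl; omega
  rw [e, Matrix.add_apply, Matrix.one_apply_ne hne, zero_add]
  by_contra h0
  exact h _ (hX a b h0) ⟨h1, h2⟩

theorem nc_single {i : ℕ} {p : Fin N × Fin N} (hp : pos i N p.1 < pos i N p.2) : NC {p} {p} := by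
  intro a b e h1 h2
  rw [mem_singleton] at h1 h2
  have h3 : p.1 = p.2 := by
    have := congrArg Prod.snd h1
    have := congrArg Prod.fst h2
    simp_all
  rw [h3] at hp
  exact lt_irrefl _ hp

theorem untw_single {i : ℕ} {p : Fin N × Fin N} (hp : pos i N p.1 < pos i N p.2) {g : Gp τ N c}
    (hg : g ∈ US τ c i {p} (nc_single hp)) :
    untw τ i (mat g) = 1 + Matrix.single p.1 p.2 (untw τ i (mat g) p.1 p.2) := by
  obtain ⟨-, X, hX, e⟩ := hg
  have hne : p.1 ≠ p.2 := by intro h; rw [h] at hp; exact lt_irrefl _ hp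
  rw [e, Matrix.add_apply, Matrix.one_apply_ne hne, zero_add]
  congr 1
  ext a b
  by_cases h : p.1 = a ∧ p.2 = b
  · rw [← h.1, ← h.2, Matrix.single_apply_same]
  · rw [Matrix.single_apply_of_ne _ _ _ _ _ h]
    by_contra h0
    have := mem_singleton.1 (hX a b h0)
    exact h ⟨by rw [← this], by rw [← this]⟩

variable (τ c) in
/-- the coordinate on a root group. -/
noncomputable def coord {i : ℕ} (hi : i ≤ N) {p : Fin N × Fin N} (hp : pos i N p.1 < pos i N p.2) :
    US τ c i {p} (nc_single hp) ≃ F :=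
  Equiv.ofBijective (fun g => untw τ i (mat (g : Gp τ N c)) p.1 p.2) ⟨fun g h e => by
    refine Subtype.ext (K_ext g.2.1 h.2.1 ?_)
    rw [untw_single hp g.2, untw_single hp h.2]
    exact congrArg (fun x => 1 + Matrix.single p.1 p.2 x) e, fun x => by
    obtain ⟨g, hg, e⟩ := exists_US (τ := τ) (c := c) hi (nc_single hp)
      (fun q hq => by rw [mem_singleton.1 hq]; exact hp) (supp_single p x)
    have hne : p.1 ≠ p.2 := by intro h; rw [h] at hp; exact lt_irrefl _ hp
    refine ⟨⟨g, hg⟩, ?_⟩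
    simp only [e, Matrix.add_apply, Matrix.one_apply_ne hne, zero_add, Matrix.single_apply_same]⟩

theorem untw_coord {i : ℕ} (hi : i ≤ N) {p : Fin N × Fin N} (hp : pos i N p.1 < pos i N p.2)
    (g : US τ c i {p} (nc_single hp)) :
    untw τ i (mat (g : Gp τ N c)) = 1 + Matrix.single p.1 p.2 (coord τ c hi hp g) :=
  untw_single hp g.2

theorem heis_step {i : ℕ} (hi : i ≤ N) {pA pD pZ : Fin N × Fin N}
    (hA : pos i N pA.1 < pos i N pA.2) (hD : pos i N pD.1 < pos i N pD.2)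
    (hZ : pos i N pZ.1 < pos i N pZ.2) (h1 : NC {pZ} {pA}) (h2 : NC {pA} {pZ})
    (h3 : NC {pZ} {pD}) (h4 : NC {pD} {pZ}) {s : F} (hs : s ≠ 0)
    (hid : ∀ x y : F, Matrix.single pA.1 pA.2 x * Matrix.single pD.1 pD.2 y =
      Matrix.single pD.1 pD.2 y * Matrix.single pA.1 pA.2 x + Matrix.single pZ.1 pZ.2 (s * x * y))
    {f : EuclideanSpace ℝ (Gp τ N c)} (hf : RInv (US τ c i {pD} (nc_single hD)) f) :
    ‖avg (US τ c i {pA} (nc_single hA)) (f - avg (US τ c i {pZ} (nc_single hZ)) f)‖ ≤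
      ‖f‖ / Real.sqrt (Fintype.card F) := by
  have hcard : Nat.card (US τ c i {pA} (nc_single hA)) = Fintype.card F := by
    rw [Nat.card_congr (coord τ c hi hA), Nat.card_eq_fintype_card]
  rw [← hcard]
  refine heis (fun z hz a ha => US_comm h1 h2 hz ha) (fun z hz d hd => US_comm h3 h4 hz hd) ?_ hf
  intro a ha ha1
  set x := coord τ c hi hA ⟨a, ha⟩ with hx
  have ea : untw τ i (mat a) = 1 + Matrix.single pA.1 pA.2 x := untw_coord hi hA ⟨a, ha⟩
  have hx0 : x ≠ 0 := fun h0 => ha1 (K_ext ha.1 (one_mem _) (by rw [ea, h0, untw_one]; simp))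
  refine ⟨(coord τ c hi hD).trans ((Equiv.mulLeft₀ (s * x) (mul_ne_zero hs hx0)).trans
    (coord τ c hi hZ).symm), fun d => ?_⟩
  set z := ((coord τ c hi hD).trans ((Equiv.mulLeft₀ (s * x) (mul_ne_zero hs hx0)).trans
    (coord τ c hi hZ).symm)) d with hz
  have ez : coord τ c hi hZ z = s * x * coord τ c hi hD d := by simp [hz]
  rw [mul_assoc, inv_mul_eq_iff_eq_mul]
  refine K_ext (mul_mem ha.1 d.2.1) (mul_mem d.2.1 (mul_mem ha.1 z.2.1)) ?_
  rw [untw_mul ha.1 d.2.1, untw_mul d.2.1 (mul_mem ha.1 z.2.1), untw_mul ha.1 z.2.1, ea,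
    untw_coord hi hD d, untw_coord hi hZ z, ez]
  have k1 := (supp_single pA x).mul_eq_zero (supp_single pZ (s * x * coord τ c hi hD d)) h2
  have k2 := (supp_single pD (coord τ c hi hD d)).mul_eq_zero
    (supp_single pZ (s * x * coord τ c hi hD d)) h4
  simp only [add_mul, mul_add, one_mul, mul_one, k1, k2, hid, add_zero]
  abel

end Crest.Agent.R066.SpecAux
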