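import Crest.Agent.R066.Grp
import Crest.Agent.R066.Avg
import Crest.Agent.R066.SpecAux

/-! Row 66: spectral bound in all proper links, and size of the vertex stabilisers. -/

set_option autoImplicit false
set_option linter.unusedSectionVars false

namespace Crest.Agent.R066

open Finset LinkAux SpecAux

variable {F R : Type} [Field F] [Fintype F] [CommRing R] [Algebra F R] [Finite R] (τ : TR F R)
  (N c : ℕ)

theorem pairBd_link (hc : c < N) (J : Finset (Fin c)) (hJ : J.Nonempty) :
    PairBd (Kc τ N c) J ((N : ℝ) ^ 2 / Real.sqrt (Fintype.card F)) := by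
  classical
  intro i j hi hj hij f hf
  obtain ⟨l, hl⟩ := hJ
  have hb : (l : ℕ) + 1 ≤ c := l.2
  have hbN : (l : ℕ) + 1 ≤ N := by omega
  set b0 := (l : ℕ) + 1 with hb0
  let P : ℕ → ℕ := pos b0 N
  have hGn : ∀ g : Gp τ N c, g ∈ Gn τ N c N := fun g => by rw [Gn_top]; trivial
  have hK : ∀ (m : Fin c) {g : Gp τ N c}, g ∈ Kb τ N c b0 → (g ∈ Kc τ N c m ↔
      ∀ a b : Fin N, P a < P (m + 1) → P (m + 1) ≤ P b → untw τ b0 (mat g) a b = 0) := by
    intro m g hg
    rw [Kc, mem_Kb_iff hb m.2 hc hg (hGn g)]
    exact ⟨fun h a b => h a b a.2 b.2, fun h a b _ _ => h a b⟩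
  have hKJ : ∀ {J' : Finset (Fin c)}, J ⊆ J' → ∀ {g : Gp τ N c}, g ∈ KJ (Kc τ N c) J' →
      g ∈ Kb τ N c b0 := fun h g hg => (mem_KJ _).1 hg l (h hl)
  have hUle : ∀ {J' : Finset (Fin c)} {S : Finset (Fin N × Fin N)} {hS : NC S S},
      (∀ m ∈ J', ∀ p ∈ S, ¬ (P p.1 < P (m + 1) ∧ P (m + 1) ≤ P p.2)) →
      US τ c b0 S hS ≤ KJ (Kc τ N c) J' := fun h g hg =>
    (mem_KJ _).2 fun m hm => US_le_Kb hb m.2 hc (h m hm) hg
  have hne : P (i + 1) ≠ P (j + 1) := fun e => hij (Fin.ext (by
    have := pos_inj hbN (by have := i.2; omega) (by have := j.2; omega) e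
    omega))
  let Rt : Finset (Fin N × Fin N) := univ.filter fun p => P p.1 < P (i + 1) ∧ P (i + 1) ≤ P p.2 ∧
    ∀ m ∈ J, ¬ (P p.1 < P (m + 1) ∧ P (m + 1) ≤ P p.2)
  let RA := Rt.filter fun p => ¬ (P p.1 < P (j + 1) ∧ P (j + 1) ≤ P p.2)
  let RZ := Rt.filter fun p => P p.1 < P (j + 1) ∧ P (j + 1) ≤ P p.2
  have memRt : ∀ p, p ∈ Rt ↔ P p.1 < P (i + 1) ∧ P (i + 1) ≤ P p.2 ∧
      ∀ m ∈ J, ¬ (P p.1 < P (m + 1) ∧ P (m + 1) ≤ P p.2) := fun p => by simp only [Rt, mem_filter, mem_univ, true_and]
  have ncRt : NC Rt Rt := fun a b e h1 h2 => by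
    have h1 := (memRt _).1 h1
    have h2 := (memRt _).1 h2
    simp only at h1 h2
    omega
  have upRt : Up b0 Rt := fun p hp => by
    have := (memRt _).1 hp
    change P p.1 < P p.2
    omega
  have sA : RA ⊆ Rt := filter_subset _ _
  have sZ : RZ ⊆ Rt := filter_subset _ _
  -- the group of the face is `U · H₁`
  have e0 : avg (KJ (Kc τ N c) J) f = avg (US τ c b0 Rt ncRt) f := by
    rw [avg_mul (A := US τ c b0 Rt ncRt) (B := KJ (Kc τ N c) (insert i J))
      (hUle fun m hm p hp => ((memRt p).1 hp).2.2 m hm) (KJ_anti _ (subset_insert _ _)) ?_ f,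
      avg_of_rinv hf]
    intro g hg
    have hg0 := hKJ subset_rfl hg
    set k := untw τ b0 (mat g) with hk
    let k0 : Matrix (Fin N) (Fin N) F :=
      Matrix.of fun a b => if P a < P (i + 1) ∧ P (i + 1) ≤ P b then 0 else k a b
    have hlow : ∀ {g : Gp τ N c}, g ∈ Kb τ N c b0 → ∀ a b : Fin N, ¬ P a < P (i + 1) →
        P b < P (i + 1) → untw τ b0 (mat g) a b = 0 := fun hg a b h1 h2 =>
      untw_lower hb i.2 hc hg a.2 b.2 h2 (not_lt.1 h1)
    have hdet : k0.det = k.det := by
      rw [Matrix.twoBlockTriangular_det k0 (fun a => P a < P (i + 1)),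
        Matrix.twoBlockTriangular_det k (fun a => P a < P (i + 1))]
      · congr 2
        · ext a b
          simp only [Matrix.toSquareBlockProp_def, k0, Matrix.of_apply]
          rw [if_neg (by have := b.2; omega)]
        · ext a b
          simp only [Matrix.toSquareBlockProp_def, k0, Matrix.of_apply]
          rw [if_neg (by have := a.2; omega)]
      · exact fun a ha b hb => hlow hg0 a b ha hb
      · intro a ha b hb
        simp only [k0, Matrix.of_apply]
        rw [if_neg (by omega)]
        exact hlow hg0 a b ha hb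
    have hd : k.det ≠ 0 := by
      have := congrArg Matrix.det (untw_mul_inv hg0)
      rw [Matrix.det_mul, Matrix.det_one] at this
      exact left_ne_zero_of_mul_eq_one this
    have hk0 : ∀ a b, k a b = 0 → k0 a b = 0 := fun a b h => by simp [k0, h]
    obtain ⟨g0, hg00, e⟩ := exists_K (τ := τ) (c := c) (i := b0) (k := k0)
      (fun a b h => hk0 a b (par_untw hg0 a b h)) (by rw [hdet]; exact hd)
    have hg1 : g0 ∈ KJ (Kc τ N c) (insert i J) := by
      refine (mem_KJ _).2 fun m hm => (hK m hg00).2 fun a b h1 h2 => ?_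
      rw [e]
      rcases mem_insert.1 hm with rfl | hm
      · simp [k0, h1, h2]
      · exact hk0 a b ((hK m hg0).1 ((mem_KJ _).1 hg m hm) a b h1 h2)
    have hu : g * g0⁻¹ ∈ KJ (Kc τ N c) J :=
      mul_mem hg (inv_mem (KJ_anti _ (subset_insert _ _) hg1))
    have hu0 := hKJ subset_rfl hu
    refine ⟨g * g0⁻¹, ⟨hu0, (k - k0) * untw τ b0 (mat g0⁻¹), fun a b h => ?_, ?_⟩, g0, hg1,
      by simp⟩
    · have hX : untw τ b0 (mat (g * g0⁻¹)) = 1 + (k - k0) * untw τ b0 (mat g0⁻¹) := by
        rw [untw_mul hg0 (inv_mem hg00), sub_mul, ← e, untw_mul_inv hg00]; abel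
      have h' := h
      rw [Matrix.mul_apply] at h'
      obtain ⟨x, -, hx⟩ := Finset.exists_ne_zero_of_sum_ne_zero h'
      have h1 : P a < P (i + 1) ∧ P (i + 1) ≤ P x := by
        by_contra h1
        exact left_ne_zero_of_mul hx (by simp only [Matrix.sub_apply, k0, Matrix.of_apply, if_neg h1, sub_self])
      have h2 : P (i + 1) ≤ P b := by
        by_contra h2
        exact right_ne_zero_of_mul hx (hlow (inv_mem hg00) x b (by omega) (by omega))
      refine (memRt _).2 ⟨h1.1, h2, fun m hm h3 => h ?_⟩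
      have h4 := (hK m hu0).1 ((mem_KJ _).1 hu m hm) a b h3.1 h3.2
      have hab : a ≠ b := by rintro rfl; omega
      rwa [hX, Matrix.add_apply, Matrix.one_apply_ne hab, zero_add] at h4
    · rw [untw_mul hg0 (inv_mem hg00), sub_mul, ← e, untw_mul_inv hg00]; abel
  have hA2 : US τ c b0 RA (ncRt.mono sA sA) ≤ KJ (Kc τ N c) (insert j J) :=
    hUle fun m hm p hp => by
      rcases mem_insert.1 hm with rfl | hm
      · exact (mem_filter.1 hp).2
      · exact ((memRt p).1 (sA hp)).2.2 m hm
  have e1 : avg (KJ (Kc τ N c) J) f =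
      avg (KJ (Kc τ N c) (insert j J)) (avg (US τ c b0 RZ (ncRt.mono sZ sZ)) f) := by
    rw [← avg_avg_of_ge (KJ_anti _ (subset_insert j J)) f, e0,
      avg_US_union hbN (ncRt.mono sA sA) (ncRt.mono sZ sZ) ncRt upRt
        (by rw [union_comm, filter_union_filter_not_eq]), avg_avg_of_le hA2]
  -- the telescoping sum
  have main : ∀ (S : Finset (Fin N × Fin N)) (hS : S ⊆ RZ),
      ‖avg (KJ (Kc τ N c) (insert j J)) (f - avg (US τ c b0 S (ncRt.mono (hS.trans sZ)
        (hS.trans sZ))) f)‖ ≤ S.card * (‖f‖ / Real.sqrt (Fintype.card F)) := by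
    intro S
    induction S using Finset.induction_on with
    | empty =>
      intro hS
      rw [avg_of_rinv (hf.mono (hUle fun m _ p hp => absurd hp (notMem_empty p)))]
      simp
    | insert r S hr ih =>
      intro hS
      have hS' : S ⊆ RZ := (subset_insert r S).trans hS
      have hrZ : r ∈ RZ := hS (mem_insert_self r S)
      have hr1 := (memRt r).1 (sZ hrZ)
      have hr2 := (mem_filter.1 hrZ).2
      have hup : P r.1 < P r.2 := by omega
      rw [avg_US_union hbN (nc_single hup) (ncRt.mono (hS'.trans sZ) (hS'.trans sZ)) _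
        (fun p hp => upRt p (sZ (hS hp))) (insert_eq r S)]
      set g := avg (US τ c b0 S (ncRt.mono (hS'.trans sZ) (hS'.trans sZ))) f with hg
      have hgn : ‖g‖ ≤ ‖f‖ := norm_avg_le _ _
      have hSp : ∀ p ∈ S, (P p.1 < P (i + 1) ∧ P (i + 1) ≤ P p.2) ∧
          (P p.1 < P (j + 1) ∧ P (j + 1) ≤ P p.2) := fun p hp =>
        ⟨⟨((memRt p).1 (sZ (hS' hp))).1, ((memRt p).1 (sZ (hS' hp))).2.1⟩, (mem_filter.1 (hS' hp)).2⟩
      have key : ∀ (pA pD : Fin N × Fin N) (hA : P pA.1 < P pA.2) (hD : P pD.1 < P pD.2)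
          (s : F), s ≠ 0 → (P r.1 ≤ P pA.1 ∧ P pA.2 ≤ P r.2 ∧ P r.1 ≤ P pD.1 ∧ P pD.2 ≤ P r.2) →
          ¬ (P pA.1 < P (j + 1) ∧ P (j + 1) ≤ P pA.2) →
          ¬ (P pD.1 < P (i + 1) ∧ P (i + 1) ≤ P pD.2) →
          (P (i + 1) ≤ P pD.2 ∨ P (j + 1) ≤ P pD.2) → (P pD.1 < P (i + 1) ∨ P pD.1 < P (j + 1)) →
          (∀ x y : F, Matrix.single pA.1 pA.2 x * Matrix.single pD.1 pD.2 y =
            Matrix.single pD.1 pD.2 y * Matrix.single pA.1 pA.2 x +
              Matrix.single r.1 r.2 (s * x * y)) →
          ‖avg (KJ (Kc τ N c) (insert j J)) (g - avg (US τ c b0 {r} (nc_single hup)) g)‖ ≤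
            ‖f‖ / Real.sqrt (Fintype.card F) := by
        intro pA pD hA hD s hs hin hAj hDi hD1 hD2 hid
        have nc : ∀ {p q : Fin N × Fin N}, P p.2 ≠ P q.1 → NC {p} {q} := by
          intro p q h a b e h1 h2
          rw [mem_singleton] at h1 h2
          exact h (by rw [← h1, ← h2])
        have hAle : US τ c b0 {pA} (nc_single hA) ≤ KJ (Kc τ N c) (insert j J) :=
          hUle fun m hm p hp => by
            rw [mem_singleton.1 hp]
            rcases mem_insert.1 hm with rfl | hm
            · exact hAj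
            · have := hr1.2.2 m hm
              omega
        have hDle : US τ c b0 {pD} (nc_single hD) ≤ KJ (Kc τ N c) (insert i J) :=
          hUle fun m hm p hp => by
            rw [mem_singleton.1 hp]
            rcases mem_insert.1 hm with rfl | hm
            · exact hDi
            · have := hr1.2.2 m hm
              omega
        have hgD : RInv (US τ c b0 {pD} (nc_single hD)) g :=
          (hf.mono hDle).avg_of_commute fun d hd z hz => by
            refine US_comm (fun a b e h1 h2 => ?_) (fun a b e h1 h2 => ?_) hd hz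
            · have h3 := hSp _ h2
              rw [mem_singleton] at h1
              rw [← h1] at hD1
              simp only at h3 hD1
              omega
            · have h3 := hSp _ h1
              rw [mem_singleton] at h2
              rw [← h2] at hD2
              simp only at h3 hD2
              omega
        rw [← avg_avg_of_le hAle]
        refine (norm_avg_le _ _).trans ((heis_step hbN hA hD hup (nc (by omega)) (nc (by omega))
          (nc (by omega)) (nc (by omega)) hs hid hgD).trans ?_)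
        gcongr
      have step : ‖avg (KJ (Kc τ N c) (insert j J))
          (g - avg (US τ c b0 {r} (nc_single hup)) g)‖ ≤ ‖f‖ / Real.sqrt (Fintype.card F) := by
        have hr12 : r.2 ≠ r.1 := by intro h; rw [h] at hup; exact lt_irrefl _ hup
        rcases lt_or_gt_of_ne hne with hlt | hlt
        · refine key (r.1, ⟨i + 1, by have := i.2; omega⟩) (⟨i + 1, by have := i.2; omega⟩, r.2)
            (by simp only; omega) (by simp only; omega) 1 one_ne_zero (by simp only; omega)
            (by simp only; omega) (by simp only; omega) (by simp only; omega) (by simp only; omega)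
            fun x y => ?_
          simp only
          rw [Matrix.single_mul_single_same, Matrix.single_mul_single_of_ne _ _ _ _ hr12]
          simp
        · refine key (⟨j + 1, by have := j.2; omega⟩, r.2) (r.1, ⟨j + 1, by have := j.2; omega⟩)
            (by simp only; omega) (by simp only; omega) (-1) (by simp) (by simp only; omega)
            (by simp only; omega) (by simp only; omega) (by simp only; omega) (by simp only; omega)
            fun x y => ?_
          simp only
          rw [Matrix.single_mul_single_same, Matrix.single_mul_single_of_ne _ _ _ _ hr12,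
            ← Matrix.single_add]
          simp [mul_comm]
      have split : f - avg (US τ c b0 {r} (nc_single hup)) g =
          (f - g) + (g - avg (US τ c b0 {r} (nc_single hup)) g) := by abel
      rw [split, map_add, card_insert_of_notMem hr]
      refine (norm_add_le _ _).trans ((add_le_add (ih hS') step).trans (le_of_eq ?_))
      push_cast
      ring
  rw [e1, ← map_sub]
  refine (main RZ subset_rfl).trans ?_
  have hcard : (RZ.card : ℝ) ≤ (N : ℝ) ^ 2 := by
    have : RZ.card ≤ N * N := (card_le_univ RZ).trans (by simp)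
    rw [sq]
    exact_mod_cast this
  calc (RZ.card : ℝ) * (‖f‖ / Real.sqrt (Fintype.card F))
      ≤ (N : ℝ) ^ 2 * (‖f‖ / Real.sqrt (Fintype.card F)) := by gcongr
    _ = _ := by ring

theorem card_Kb_le (j : ℕ) : Nat.card (Kb τ N c j) ≤ Fintype.card F ^ (N * N) := by
  have := Nat.card_le_card_of_injective
    (fun g : Kb τ N c j => untw τ j (mat (g : Gp τ N c))) fun g h e => Subtype.ext (K_ext g.2 h.2 e)
  refine this.trans (le_of_eq ?_)
  change Nat.card (Fin N → Fin N → F) = _
  simp [pow_mul]

end Crest.Agent.R066
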