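import Crest.Agent.R066.Vanish
import Crest.Agent.R066.Link
import Crest.Agent.R066.Spec
import Crest.Agent.R066.DD
import Crest.Agent.R066.Final

/-! Row 66: assembling the pieces. -/

set_option autoImplicit false
set_option linter.unusedSectionVars false

namespace Crest.Agent.R066

open Finset Polynomial

theorem coeff_modByMonic_X_pow {F : Type} [Field F] (f : F[X]) (s e : ℕ) :
    (f %ₘ (X ^ s)).coeff e = if e < s then f.coeff e else 0 := by
  have hm : (X ^ s : F[X]).Monic := monic_X_pow s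
  split_ifs with h
  · conv_rhs => rw [← modByMonic_add_div f (X ^ s)]
    rw [coeff_add, coeff_X_pow_mul', if_neg (by omega), add_zero]
  · apply coeff_eq_zero_of_degree_lt
    refine (degree_modByMonic_lt f hm).trans_le ?_
    rw [degree_X_pow]
    exact_mod_cast not_lt.1 h

/-- the truncated polynomial ring. -/
noncomputable def trunc (F : Type) [Field F] (s : ℕ) (hs : 2 ≤ s) :
    TR F (AdjoinRoot (X ^ s : F[X])) where
  s := s
  t := AdjoinRoot.root _
  co e := (lcoeff F e).comp (AdjoinRoot.modByMonicHom (monic_X_pow s))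
  hs := hs
  co_one e := by
    rw [← map_one (AdjoinRoot.mk (X ^ s : F[X]))]
    simp only [LinearMap.comp_apply, AdjoinRoot.modByMonicHom_mk, lcoeff_apply,
      coeff_modByMonic_X_pow, coeff_one]
    split_ifs <;> first | rfl | omega
  co_zero_t r := by
    obtain ⟨f, rfl⟩ := AdjoinRoot.mk_surjective r
    rw [← AdjoinRoot.mk_X, ← map_mul]
    simp only [LinearMap.comp_apply, AdjoinRoot.modByMonicHom_mk, lcoeff_apply,
      coeff_modByMonic_X_pow]
    simp
  co_succ_t e r h := by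
    obtain ⟨f, rfl⟩ := AdjoinRoot.mk_surjective r
    rw [← AdjoinRoot.mk_X, ← map_mul]
    simp only [LinearMap.comp_apply, AdjoinRoot.modByMonicHom_mk, lcoeff_apply,
      coeff_modByMonic_X_pow]
    rw [if_pos h, if_pos (by omega), coeff_X_mul]
  co_big e r h := by
    obtain ⟨f, rfl⟩ := AdjoinRoot.mk_surjective r
    simp only [LinearMap.comp_apply, AdjoinRoot.modByMonicHom_mk, lcoeff_apply,
      coeff_modByMonic_X_pow]
    rw [if_neg (by omega)]
  ext0 r h := by
    have : AdjoinRoot.modByMonicHom (monic_X_pow s) r = 0 := by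
      ext e; exact h e
    rw [← AdjoinRoot.mk_leftInverse (monic_X_pow s) r, this, map_zero]

instance (F : Type) [Field F] [Finite F] (s : ℕ) : Finite (AdjoinRoot (X ^ s : F[X])) := by
  have := (AdjoinRoot.powerBasis' (monic_X_pow (R := F) s)).finite
  exact Module.finite_of_finite F

theorem PairBd.mono {G : Type} [Group G] [Fintype G] {ι : Type} [DecidableEq ι]
    {K : ι → Subgroup G} {J : Finset ι} {a b : ℝ} (h : PairBd K J a) (hab : a ≤ b) :
    PairBd K J b := fun i j hi hj hij f hf =>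
  (h i j hi hj hij f hf).trans (mul_le_mul_of_nonneg_right hab (norm_nonneg _))

section
variable {F R : Type} [Field F] [CommRing R] [Algebra F R] [Finite R] {τ : TR F R} {N c : ℕ}

theorem Tn_ne_bot {n : ℕ} (h0 : 0 < n) (hn : n ≤ N) : Tn F N n ≠ ⊥ := by
  intro h
  have : (Pi.single (⟨0, by omega⟩ : Fin N) (1 : F) : Fin N → F) ∈ Tn F N n := by
    intro a ha
    rw [Pi.single_apply, if_neg]
    rintro rfl
    simp at ha; omega
  rw [h, Submodule.mem_bot] at this
  simpa using congrFun this ⟨0, by omega⟩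

theorem Wsub_one (i n j : ℕ) : Wsub i n j (1 : Gp τ N c) = Eop F N i n j := by
  rw [Wsub, untw_one, Matrix.mulVecLin_one, Submodule.map_id]

theorem Lk_eq (hc : c < N) {I : Finset (Fin c)} {l : Fin c} (hl : l ∈ I) :
    Lk τ N c (l + 1) N I Iᶜ (Tn F N N) ⊥ = Cx (Kc τ N c) (KJ (Kc τ N c) I : Set _) Iᶜ := by
  ext σ
  constructor
  · rintro ⟨g, _, _, hg, J, hJ, _, rfl⟩
    exact ⟨g, hg, J, hJ, rfl⟩
  · rintro ⟨g, hg, J, hJ, rfl⟩
    have hg' : g ∈ Kb τ N c (l + 1) := (mem_KJ _).1 hg l hl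
    have hgn : g ∈ Gn τ N c N := by rw [Gn_top]; trivial
    refine ⟨g, hg', hgn, hg, J, hJ, fun j hj => ⟨MD.not_Tn_le_Wsub ?_ (by omega) le_rfl hg' hgn,
      mp_Wsub_ne_bot (by omega) le_rfl hg'⟩, rfl⟩
    intro e
    have : j = l := Fin.ext (by omega)
    exact Finset.mem_compl.1 (hJ hj) (this ▸ hl)

theorem XX_top : XX τ N c N = Cx (Kc τ N c) Set.univ univ := by
  rw [XX, Gn_top]; rfl

theorem card_vtx_ge (hc : 0 < c) (hN : 2 ≤ N) [Fintype (Vtx (Kc τ N c))] :
    τ.s ≤ Fintype.card (Vtx (Kc τ N c)) := by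
  let a : Fin N := ⟨0, by omega⟩
  let b : Fin N := ⟨1, by omega⟩
  let Y : Fin τ.s → ColA R N 1 N := fun e => ⟨Matrix.single a b (τ.t ^ (e : ℕ)), by
    intro a' b' h
    rw [Matrix.single_apply, if_neg]
    rintro ⟨rfl, rfl⟩
    exact h ⟨by simp [a], by simp [b], b.2⟩⟩
  have hinj : Function.Injective fun e => vtx (Kc τ N c) ⟨0, hc⟩ (colEl τ c (Y e)) := by
    intro e e' h
    obtain ⟨κ, hκ, hm⟩ := (vtx_eq_iff _).1 h
    have h1 : (colEl τ c (Y e))⁻¹ * colEl τ c (Y e') = colEl τ c (Y e' - Y e) := by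
      rw [inv_mul_eq_iff_eq_mul, ← colEl_add]; simp
    rw [h1] at hm
    have h2 := congrFun (congrFun hm a) b
    have hab : a ≠ b := by simp [a, b]
    simp only [mat_colEl, tw, Matrix.of_apply, hκ a b (by simp [a]) (by simp [b]), map_zero,
      zero_mul, Matrix.add_apply, Matrix.one_apply_ne hab, zero_add, AddSubgroup.coe_sub,
      Matrix.sub_apply, Y, Matrix.single_apply_same] at h2
    have h3 := congrArg (τ.co e) (sub_eq_zero.1 h2)
    rw [τ.co_t_pow _ _ e'.2, τ.co_t_pow _ _ e.2, if_pos rfl] at h3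
    by_contra hne
    rw [if_neg (fun h => hne (Fin.ext h))] at h3
    exact zero_ne_one h3
  simpa using Fintype.card_le_of_injective _ hinj

end

open Classical in
theorem star_card_le {G : Type} [Group G] [Fintype G] {c D₀ : ℕ} (K : Fin c → Subgroup G)
    [Fintype (Vtx K)] (hK : ∀ i, Nat.card (K i) ≤ D₀) (m : ℕ) (v : Vtx K) :
    (univ.filter fun T : Finset (Vtx K) => T ∈ Cx K Set.univ univ ∧ T.card = m ∧ v ∈ T).card ≤
      D₀ * 2 ^ c := by
  obtain ⟨g, hg⟩ := exists_vtx K v
  calc _ ≤ ((univ : Finset (K v.1 × Finset (Fin c))).image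
        fun p => face K (g * p.1) p.2).card := by
        apply Finset.card_le_card
        intro T hT
        obtain ⟨⟨h, _, J, _, rfl⟩, _, hv⟩ := (Finset.mem_filter.1 hT).2
        have h1 := ((mem_face' K).1 hv).2
        have h2 : g⁻¹ * h ∈ K v.1 := (vtx_eq_iff K).1 (hg.symm.trans h1)
        exact Finset.mem_image.2 ⟨(⟨_, h2⟩, J), Finset.mem_univ _, by simp⟩
    _ ≤ (univ : Finset (K v.1 × Finset (Fin c))).card := Finset.card_image_le
    _ = Nat.card (K v.1) * 2 ^ c := by simp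
    _ ≤ _ := Nat.mul_le_mul_right _ (hK _)

theorem exists_addChar {p : ℕ} [Fact p.Prime] (hp2 : p ≠ 2) :
    ∃ ψ : AddChar (ZMod p) (AlgebraicClosure (ZMod 2)), ψ ≠ 1 := by
  have hp : p.Prime := Fact.out
  have : NeZero (p : AlgebraicClosure (ZMod 2)) := ⟨by
    rw [Ne, CharP.cast_eq_zero_iff _ 2]
    intro h
    exact hp2 ((Nat.prime_dvd_prime_iff_eq Nat.prime_two hp).1 h).symm⟩
  obtain ⟨ζ, hζ⟩ := HasEnoughRootsOfUnity.exists_primitiveRoot (AlgebraicClosure (ZMod 2)) p
  refine ⟨AddChar.zmodChar p hζ.pow_eq_one, ?_⟩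
  rw [AddChar.zmod_char_ne_one_iff]
  have := AddChar.zmodChar_apply' hζ.pow_eq_one 1
  rw [Nat.cast_one] at this
  rw [this, pow_one]
  exact hζ.ne_one hp.one_lt

theorem main (d : ℕ) (hd : 1 ≤ d) :
    ∃ D : ℕ, ∃ ε : ℝ, 0 < ε ∧ ∀ N : ℕ, ∃ n : ℕ, ∃ T : Finset (Finset (Fin n)), N ≤ n ∧
      (∀ τ ∈ T, τ.card = d + 1) ∧
      (∀ v : Fin n, 1 ≤ Crest.CombinatoricsR.Cochain.vertexDegree T v ∧
        Crest.CombinatoricsR.Cochain.vertexDegree T v ≤ D) ∧
      (Crest.CombinatoricsR.Cochain.skeleton T).Connected ∧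
      ∀ i : ℕ, i < d → ∀ f : Finset (Fin n) → ZMod 2,
        ∃ b : Finset (Fin n) → ZMod 2, Crest.CombinatoricsR.Cochain.IsCoboundaryClass i b ∧
          ε * Crest.CombinatoricsR.Cochain.cochainNorm d T i (f - b) ≤
            Crest.CombinatoricsR.Cochain.cochainNorm d T (i + 1)
              (Crest.CombinatoricsR.Cochain.coboundary i f) := by
  classical
  set c := d + 2 with hc
  set N := c + 1 + c ^ 2 with hN
  obtain ⟨Q₁, R₁, hlink⟩ := link_cone N
  obtain ⟨Q₂, hind⟩ := ind_bounds N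
  obtain ⟨lam, μ, hlam, hμ, hsmall⟩ := small_locmin c R₁
  -- the prime
  obtain ⟨M, hM⟩ := exists_nat_ge (((N : ℝ) ^ 2 / min (lam / 2) (1 / 2)) ^ 2)
  obtain ⟨p, hpge, hp⟩ := Nat.exists_infinite_primes (Q₁ + Q₂ + M + 3)
  have : Fact p.Prime := ⟨hp⟩
  have hp2 : p ≠ 2 := by omega
  have hcardF : Fintype.card (ZMod p) = p := ZMod.card p
  have hmin : 0 < min (lam / 2) (1 / 2 : ℝ) := lt_min (by linarith) (by norm_num)
  have hsp : (N : ℝ) ^ 2 / Real.sqrt (Fintype.card (ZMod p)) ≤ min (lam / 2) (1 / 2) := by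
    rw [hcardF]
    have h1 : (N : ℝ) ^ 2 / min (lam / 2) (1 / 2) ≤ Real.sqrt p := by
      apply Real.le_sqrt_of_sq_le
      refine hM.trans ?_
      exact_mod_cast (by omega : M ≤ p)
    have h2 : 0 < Real.sqrt p := Real.sqrt_pos.2 (by exact_mod_cast hp.pos)
    rw [div_le_iff₀ hmin] at h1
    rw [div_le_iff₀ h2]
    linarith
  obtain ⟨C, hham⟩ := hamming_of_small c (p ^ (N * N)) μ hμ
  obtain ⟨ε, hε, hfin⟩ := final_of_hamming d (p ^ (N * N) * 2 ^ c) C
  refine ⟨p ^ (N * N) * 2 ^ c, ε, hε, fun N' => ?_⟩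
  obtain ⟨ψ, hψ⟩ := exists_addChar hp2
  let τ := trunc (ZMod p) (N' + 2) (by omega)
  let K := Kc τ N c
  have : Finite (Vtx K) := inferInstanceAs (Finite (Σ i : Fin c, _ ⧸ K i))
  let _ : Fintype (Vtx K) := Fintype.ofFinite _
  have hcN : c < N := by omega
  have hL : LinkHyp τ N c (AlgebraicClosure (ZMod 2)) := by
    intro i n hi hcn hnN D hD U H hU hH j hj
    exact (hlink _ (ZMod p) _ τ N c le_rfl (by omega) i n hi hcn hnN ∅ D (by simp) hD
      (Finset.card_pos.1 (by omega)) U H hU hH (by simp)).bounds (by omega)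
  have hI : IndHyp (ZMod p) (AdjoinRoot (X ^ (N' + 2) : (ZMod p)[X])) N
      (AlgebraicClosure (ZMod 2)) := by
    intro S pr T hT j hj
    refine hind _ (ZMod p) _ _ S pr T (by omega) ?_ hT j hj
    simpa using T.finrank_le
  have hvan : ∀ j < c, Bounds (AlgebraicClosure (ZMod 2)) (Le (Cx K Set.univ univ) j)
      (Le (Cx K Set.univ univ) (j + 1)) := by
    intro j hj
    rw [← XX_top]
    refine vanish hp hp2 hψ hL hI (by omega) j hj N ?_ le_rfl
    have : (j + 1) ^ 2 ≤ c ^ 2 := Nat.pow_le_pow_left hj 2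
    omega
  have hsing : ∀ v : Vtx K, {v} ∈ Cx K Set.univ univ := by
    intro v
    obtain ⟨g, hg⟩ := exists_vtx K v
    exact ⟨g, trivial, {v.1}, Finset.subset_univ _, by rw [face, Finset.image_singleton, ← hg]⟩
  have hconst : ∀ {M : Type} (f : Vtx K → M), (∀ x y, {x, y} ∈ Cx K Set.univ univ → f x = f y) →
      ∀ x y, f x = f y := fun f hf x y =>
    const_of_bounds (hvan 1 (by omega)) f hf (hsing x) (hsing y)
  have hK : ∀ i, Nat.card (K i) ≤ p ^ (N * N) := fun i => by
    have := card_Kb_le τ N c (i + 1)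
    rwa [hcardF] at this
  have hpair : ∀ J, PairBd K J lam := by
    intro J
    rcases J.eq_empty_or_nonempty with rfl | hJ
    · refine (trickle K (lam := min (lam / 2) (1 / 2)) hmin.le (min_le_right _ _) (by simp; omega)
        (fun l => (pairBd_link τ N c hcN {l} (by simp)).mono hsp) ?_).mono ?_
      · intro f hf g h _
        let φ : Vtx K → ℝ := fun x => f (exists_vtx K x).choose
        have hφ : ∀ i g, φ (vtx K i g) = f g := by
          intro i g
          have h1 := (exists_vtx K (vtx K i g)).choose_spec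
          have h2 := (vtx_eq_iff K).1 h1
          have := hf i g _ h2
          simpa using this
        have := hconst φ (by
          rintro x y ⟨g, _, J, _, e⟩
          have hx : x ∈ face K g J := e ▸ (by simp)
          have hy : y ∈ face K g J := e ▸ (by simp)
          rw [((mem_face' K).1 hx).2, ((mem_face' K).1 hy).2, hφ, hφ])
          (vtx K ⟨0, by omega⟩ (g * h)) (vtx K ⟨0, by omega⟩ g)
        rwa [hφ, hφ] at this
      · have := min_le_left (lam / 2) (1 / 2 : ℝ); linarith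
    · refine (pairBd_link τ N c hcN J hJ).mono (hsp.trans ?_)
      have := min_le_left (lam / 2) (1 / 2 : ℝ); linarith
  have hcones : LinkCones K R₁ := by
    intro I hI hI'
    obtain ⟨l, hl⟩ := hI
    rw [← Lk_eq hcN hl]
    refine hlink _ (ZMod p) _ τ N c le_rfl (by omega) (l + 1) N (by omega) hcN le_rfl I Iᶜ
      disjoint_compl_right ?_ ?_ _ _ (Tn_ne_bot (by omega) le_rfl)
      (fun h => Tn_ne_bot (by omega) le_rfl (le_bot_iff.1 h)) ?_
    · intro j hj e
      have : j = l := Fin.ext (by omega)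
      exact Finset.mem_compl.1 hj (this ▸ hl)
    · rw [Finset.nonempty_iff_ne_empty, Ne, Finset.compl_eq_empty_iff]; exact hI'
    · intro j _ hjl
      rw [← Wsub_one (τ := τ) (c := c)]
      exact ⟨MD.not_Tn_le_Wsub hjl (by omega) le_rfl (Subgroup.one_mem _) (Subgroup.one_mem _),
        mp_Wsub_ne_bot (by omega) le_rfl (Subgroup.one_mem _)⟩
  obtain ⟨T, hT⟩ := hfin (Vtx K) (Cx K Set.univ univ) (Cx_down K _ _)
    (by
      rintro _ ⟨g, _, J, _, rfl⟩ hJ
      rw [card_face] at hJ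
      obtain ⟨J', h1, h2⟩ := Finset.exists_superset_card_eq hJ (by simp; omega)
      exact ⟨face K g J', face_mem_Cx K (Set.mem_univ g) (Finset.subset_univ _), face_mono K g h1,
        by rw [card_face, h2]⟩)
    hsing (fun v => by convert star_card_le K hK (d + 1) v) ⟨vtx K ⟨0, by omega⟩ 1⟩ hd
    (fun f hf => hconst f hf)
    (fun κ h1 h2 f => by
      have := hham _ K hK κ h1 (by omega)
        (hsmall _ K hpair hcones (κ + 1) (by omega) (by omega))
        (fun f hf => cobd_of_bounds (Cx_down K _ _) (hvan κ (by omega)) f (by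
          rintro _ ⟨g, _, J, _, rfl⟩ hJ
          rw [card_face] at hJ
          exact hf g J hJ)) f
      convert this)
  refine ⟨_, T, ?_, hT⟩
  have h1 : N' + 2 ≤ Fintype.card (Vtx K) :=
    card_vtx_ge (τ := τ) (N := N) (c := c) (by omega) (by omega)
  omega

end Crest.Agent.R066
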