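import Crest.Agent.R066.Unip

/-! Row 66: the two Morse arguments (degree of a vector, degree of a covector). -/

set_option autoImplicit false
set_option linter.unusedSectionVars false

namespace Crest.Agent.R066

open Finset

variable {F R : Type} [Field F] [CommRing R] [Algebra F R] [Finite R] {τ : TR F R} {N c : ℕ}
  {k : Type} [Field k] [CharP k 2]

/-- The Morse argument, with the descending links described by subspaces. -/
theorem mp_abstract (hL : LinkHyp τ N c k) {n : ℕ} (hcn : c < n) (hnN : n ≤ N)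
    (Bad : Set (Vtx (Kc τ N c))) (ht : Vtx (Kc τ N c) → ℕ) (B : ℕ)
    (hB : ∀ x ∈ Bad, ht x < B) (hne : ∀ x ∈ Bad, ∀ y ∈ Bad, ht x = ht y → x.1 = y.1)
    (hlk : ∀ (i : Fin c) (g₀ : Gp τ N c), g₀ ∈ Gn τ N c n → vtx (Kc τ N c) i g₀ ∈ Bad →
      ∃ U H : Submodule F (Fin N → F), U ≠ ⊥ ∧ ¬ Tn F N n ≤ H ∧
        ∀ g : Gp τ N c, g ∈ Kb τ N c (i + 1) → g ∈ Gn τ N c n → ∀ j : Fin c, j ≠ i →
          ((vtx (Kc τ N c) j (g₀ * g) ∉ Bad ∨
            ht (vtx (Kc τ N c) i g₀) < ht (vtx (Kc τ N c) j (g₀ * g))) ↔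
          (¬ U ≤ Wsub (i + 1) n (j + 1) g ∧ ¬ Wsub (i + 1) n (j + 1) g ≤ H)))
    {j : ℕ} (hj : j < c) : RelAc k (XX τ N c n) Badᶜ j := by
  refine relAc_of_morse (Cx_down _ _ _) _ ht B (fun x _ hx => hB x (not_not.1 hx))
    (fun x y hxy hx hy e => ?_) (fun x hx hxb j' hj' => ?_)
  · exact fst_injOn_of_mem_Cx _ hxy (by simp) (by simp)
      (hne x (not_not.1 hx) y (not_not.1 hy) e)
  · obtain ⟨g₀, hg₀, J₀, -, e₀⟩ := hx
    have hx₀ : x = vtx (Kc τ N c) x.1 g₀ :=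
      ((mem_face' _).1 (e₀ ▸ Finset.mem_singleton_self x)).2
    generalize x.1 = i at hx₀
    subst hx₀
    obtain ⟨U, H, hU, hH, hUH⟩ := hlk i g₀ hg₀ (not_not.1 hxb)
    have hb := hL (i + 1) n i.2 hcn hnN (univ.erase i)
      (fun j hj e => (Finset.mem_erase.1 hj).1 (Fin.ext (by omega))) U H hU hH j'
      (by rw [Finset.card_erase_of_mem (mem_univ _), card_univ, Fintype.card_fin]; omega)
    refine hb.smul g₀ ?_ ?_
    · rintro σ ⟨⟨hxσ, ⟨g, hg, J, -, e⟩, hσ⟩, hc⟩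
      refine ⟨?_, Finset.card_image_le.trans hc⟩
      have hxm : vtx (Kc τ N c) i g₀ ∈ face (Kc τ N c) g J := e ▸ Finset.mem_insert_self _ _
      have hxg : vtx (Kc τ N c) i g₀ = vtx (Kc τ N c) i g := ((mem_face' _).1 hxm).2
      have hσe : σ = face (Kc τ N c) g (J.erase i) := by
        rw [face_erase, ← e, ← hxg, Finset.erase_insert hxσ]
      have hK : g₀⁻¹ * g ∈ Kb τ N c (i + 1) := (vtx_eq_iff (Kc τ N c) (i := i)).1 hxg
      have hG : g₀⁻¹ * g ∈ Gn τ N c n := Subgroup.mul_mem _ (Subgroup.inv_mem _ hg₀) hg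
      refine ⟨g₀⁻¹ * g, hK, hG, by simp [KJ], J.erase i,
        Finset.erase_subset_erase _ (subset_univ _), fun j hj => ?_, ?_⟩
      · refine (hUH _ hK hG j (Finset.mem_erase.1 hj).1).1 ?_
        rw [mul_inv_cancel_left]
        exact hσ _ (hσe ▸ vtx_mem_face _ hj)
      · rw [hσe, image_smul_face]
    · rintro σ ⟨⟨g, hK, hG, -, J, hJ, hJ', rfl⟩, hc⟩
      refine ⟨?_, Finset.card_image_le.trans hc⟩
      have hiJ : i ∉ J := fun h => (Finset.mem_erase.1 (hJ h)).1 rfl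
      rw [image_smul_face]
      refine ⟨fun h => hiJ ((mem_face' _).1 h).1, ?_, fun y hy => ?_⟩
      · rw [← vtx_mul_mem (Kc τ N c) (i := i) g₀ hK, ← face_insert]
        exact face_mem_Cx _ (Subgroup.mul_mem _ hg₀ hG) (subset_univ _)
      · obtain ⟨j, hj, rfl⟩ := (mem_face _).1 hy
        exact (hUH g hK hG j (Finset.mem_erase.1 (hJ hj)).1).2 (hJ' j hj)

variable (τ) in
/-- vectors of degree `< D` above the boundary `i` and `≤ D` below it. -/
def mpLam (i D : ℕ) (v : Fin N → R) : Prop :=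
  ∀ (a : Fin N) (e : ℕ), (if (a : ℕ) < i then D else D + 1) ≤ e → τ.co e (v a) = 0

variable (τ) in
/-- the leading vector. -/
def mpLc (i D : ℕ) (v : Fin N → R) : Fin N → F :=
  fun a => τ.co (if (a : ℕ) < i then D else D + 1) (v a)

theorem mpLam.mono {i D D' : ℕ} {v : Fin N → R} (h : mpLam τ i D v) (hD : D ≤ D') :
    mpLam τ i D' v := fun a e he => h a e (by split_ifs at he ⊢ <;> omega)

theorem mp_co_mulVec {i : ℕ} {κ : Matrix (Fin N) (Fin N) F} (v : Fin N → R) (a : Fin N) (e : ℕ) :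
    τ.co e ((tw τ i κ).mulVec v a) =
      ∑ b, κ a b * τ.co e ((if (b : ℕ) < i ∧ i ≤ (a : ℕ) then τ.t else 1) * v b) := by
  simp only [Matrix.mulVec, dotProduct, tw, Matrix.of_apply, map_sum, mul_assoc, τ.co_alg_mul]

theorem mpLam.mulVec {i D : ℕ} {v : Fin N → R} (h : mpLam τ i D v) {g : Gp τ N c}
    (hg : g ∈ Kb τ N c i) : mpLam τ i D ((mat g).mulVec v) := by
  obtain ⟨κ, hκ, e⟩ := hg
  intro a d hd
  rw [e, mp_co_mulVec]
  refine Finset.sum_eq_zero fun b _ => ?_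
  by_cases ha : (a : ℕ) < i <;> by_cases hb : (b : ℕ) < i
  · rw [if_neg (by omega), one_mul, h b d (by rw [if_pos ha] at hd; rwa [if_pos hb]), mul_zero]
  · rw [hκ a b ha (by omega), zero_mul]
  · rw [if_neg ha] at hd
    obtain ⟨d, rfl⟩ : ∃ d', d = d' + 1 := ⟨d - 1, by omega⟩
    rw [if_pos ⟨hb, by omega⟩]
    by_cases hs : d + 1 < τ.s
    · rw [τ.co_succ_t _ _ hs, h b d (by rw [if_pos hb]; omega), mul_zero]
    · rw [τ.co_big _ _ (by omega), mul_zero]
  · rw [if_neg (by omega), one_mul, h b d (by rw [if_neg ha] at hd; rwa [if_neg hb]), mul_zero]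

theorem mpLc_mulVec {i D : ℕ} (hD : D + 1 < τ.s) (v : Fin N → R) {g : Gp τ N c}
    (hg : g ∈ Kb τ N c i) :
    mpLc τ i D ((mat g).mulVec v) = (untw τ i (mat g)).mulVec (mpLc τ i D v) := by
  obtain ⟨κ, hκ, e⟩ := hg
  funext a
  rw [e, untw_tw, mpLc, mp_co_mulVec, Matrix.mulVec, dotProduct]
  refine Finset.sum_congr rfl fun b _ => ?_
  rw [mpLc]
  by_cases ha : (a : ℕ) < i <;> by_cases hb : (b : ℕ) < i
  · rw [if_neg (by omega : ¬ ((b : ℕ) < i ∧ i ≤ (a : ℕ))), one_mul, if_pos ha, if_pos hb]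
  · rw [hκ a b ha (by omega), zero_mul, zero_mul]
  · rw [if_pos (⟨hb, by omega⟩ : (b : ℕ) < i ∧ i ≤ (a : ℕ)), if_neg ha, if_pos hb,
      τ.co_succ_t _ _ hD]
  · rw [if_neg (by omega : ¬ ((b : ℕ) < i ∧ i ≤ (a : ℕ))), one_mul, if_neg ha, if_neg hb]

theorem mp_mem_Wsub {i n j : ℕ} {g : Gp τ N c} (hg : g ∈ Kb τ N c i) (u : Fin N → F) :
    u ∈ Wsub i n j g ↔ (untw τ i (mat g⁻¹)).mulVec u ∈ Eop F N i n j := by
  have hg' := Subgroup.inv_mem _ hg
  constructor
  · rintro ⟨w, hw, rfl⟩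
    rwa [Matrix.mulVecLin_apply, Matrix.mulVec_mulVec, ← untw_mul hg' hg, inv_mul_cancel,
      untw_one, Matrix.one_mulVec]
  · intro h
    refine ⟨_, h, ?_⟩
    rw [Matrix.mulVecLin_apply, Matrix.mulVec_mulVec, ← untw_mul hg hg', mul_inv_cancel,
      untw_one, Matrix.one_mulVec]

theorem mp_Wsub_ne_bot {i n j : ℕ} (hjn : j < n) (hnN : n ≤ N) {g : Gp τ N c}
    (hg : g ∈ Kb τ N c i) : ¬ Wsub i n j g ≤ ⊥ := by
  intro h
  have hg' := Subgroup.inv_mem _ hg
  let a₀ : Fin N := ⟨j, by omega⟩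
  have h1 : (Pi.single a₀ 1 : Fin N → F) ∈ Eop F N i n j := by
    intro a ha
    refine Pi.single_eq_of_ne ?_ _
    rintro rfl
    simp only [a₀] at ha
    omega
  have h2 : (untw τ i (mat g)).mulVec (Pi.single a₀ 1) = 0 := h ⟨_, h1, rfl⟩
  have h3 := congrArg (untw τ i (mat g⁻¹)).mulVec h2
  rw [Matrix.mulVec_mulVec, ← untw_mul hg' hg, inv_mul_cancel, untw_one, Matrix.one_mulVec,
    Matrix.mulVec_zero] at h3
  simpa using congrFun h3 a₀

theorem mp_Gn_supp {n : ℕ} {g : Gp τ N c} (hg : g ∈ Gn τ N c n) {v : Fin N → R}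
    (hv : ∀ a : Fin N, n ≤ (a : ℕ) → v a = 0) (a : Fin N) (ha : n ≤ (a : ℕ)) :
    (mat g).mulVec v a = 0 := by
  rw [Matrix.mulVec, dotProduct]
  refine Finset.sum_eq_zero fun b _ => ?_
  rw [hg a b (Or.inl ha)]
  split_ifs with h
  · rw [hv b (h ▸ ha), mul_zero]
  · rw [zero_mul]

section deg
variable {B : Type} (y : B → Fin N → R)

/-- the admissible degrees of a vertex. -/
def mpSet (x : Vtx (Kc τ N c)) : Set ℕ :=
  {D | ∃ g : Gp τ N c, x = vtx (Kc τ N c) x.1 g ∧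
    ∀ b, mpLam τ ((x.1 : ℕ) + 1) D ((mat g⁻¹).mulVec (y b))}

theorem mem_mpSet {i : Fin c} {g : Gp τ N c} {D : ℕ} :
    D ∈ mpSet y (vtx (Kc τ N c) i g) ↔ ∀ b, mpLam τ ((i : ℕ) + 1) D ((mat g⁻¹).mulVec (y b)) := by
  constructor
  · rintro ⟨h, e, H⟩ b
    have hK : g⁻¹ * h ∈ Kb τ N c (i + 1) := (vtx_eq_iff (Kc τ N c) (i := i)).1 e
    have := (H b).mulVec hK
    rwa [Matrix.mulVec_mulVec, ← mat_mul, mul_inv_cancel_right] at this
  · intro H
    exact ⟨g, rfl, H⟩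

theorem mpSet_top (x : Vtx (Kc τ N c)) : τ.s ∈ mpSet y x := by
  obtain ⟨g, e⟩ := exists_vtx _ x
  exact ⟨g, e, fun b a d hd => τ.co_big _ _ (by split_ifs at hd <;> omega)⟩

theorem mp_sInf_le {x : Vtx (Kc τ N c)} {D : ℕ} : sInf (mpSet y x) ≤ D ↔ D ∈ mpSet y x := by
  constructor
  · intro h
    obtain ⟨g, e, H⟩ := Nat.sInf_mem ⟨_, mpSet_top y x⟩
    exact ⟨g, e, fun b => (H b).mono h⟩
  · exact Nat.sInf_le

theorem mp_bad_iff {x : Vtx (Kc τ N c)} :
    x ∈ BadP (τ := τ) c y ↔ sInf (mpSet y x) ≤ τ.s - 1 := by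
  have hs := τ.hs
  rw [mp_sInf_le]
  refine exists_congr fun g => and_congr_right fun _ => forall_congr' fun b => ?_
  constructor
  · intro h a e he
    by_cases hes : τ.s ≤ e
    · exact τ.co_big _ _ hes
    · split_ifs at he with ha
      · rw [show e = τ.s - 1 by omega]
        exact h a ha
      · omega
  · intro h a ha
    exact h a _ (by rw [if_pos ha])

theorem mp_sInf_pos (hy0 : ∀ b a, τ.co 0 (y b a) = 0) (hne : ∃ b, y b ≠ 0)
    (x : Vtx (Kc τ N c)) : 0 < sInf (mpSet y x) := by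
  by_contra h
  obtain ⟨g, -, H⟩ := (mp_sInf_le y).1 (not_lt.1 h)
  obtain ⟨b, hb⟩ := hne
  have h0 : (mat g⁻¹).mulVec (y b) = 0 := by
    funext a
    refine τ.ext0 _ fun e => ?_
    rcases Nat.eq_zero_or_pos e with rfl | he
    · rw [Matrix.mulVec, dotProduct, map_sum]
      exact Finset.sum_eq_zero fun d _ => by rw [τ.co0_mul, hy0, mul_zero]
    · exact H b a e (by split_ifs <;> omega)
  have h1 := congrArg (mat g).mulVec h0
  rw [Matrix.mulVec_mulVec, mat_mul_inv, Matrix.one_mulVec, Matrix.mulVec_zero] at h1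
  exact hb h1

end deg

/-- the leading vector lies in the subspace of the neighbour iff the degree drops. -/
theorem mpLc_mem_Eop {i j n D : ℕ} (hi : i < n) (hj : j < n) (hij : j ≠ i) {w : Fin N → R}
    (hw : ∀ a : Fin N, n ≤ (a : ℕ) → w a = 0) (h : mpLam τ i (D + 1) w) :
    mpLc τ i D w ∈ Eop F N i n j ↔ mpLam τ j (if i < j then D + 1 else D) w := by
  constructor
  · intro H a e he
    by_cases ha : n ≤ (a : ℕ)
    · rw [hw a ha, map_zero]
    by_cases h1 : (if (a : ℕ) < i then D + 1 else D + 1 + 1) ≤ e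
    · exact h a e h1
    · have h2 : e = if (a : ℕ) < i then D else D + 1 := by split_ifs at he h1 ⊢ <;> omega
      rw [h2]
      refine H a (Or.inr ?_)
      unfold pos
      split_ifs at he h1 h2 ⊢ <;> omega
  · intro H a ha
    by_cases ha' : n ≤ (a : ℕ)
    · rw [mpLc, hw a ha', map_zero]
    · refine H a _ ?_
      have h1 := ha.resolve_left ha'
      unfold pos at h1
      split_ifs at h1 ⊢ <;> omega

theorem morse_primal (hL : LinkHyp τ N c k) {n : ℕ} (hcn : c < n) (hnN : n ≤ N) {B : Type}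
    (y : B → Fin N → R) (hy : ∀ b (a : Fin N), n ≤ (a : ℕ) → y b a = 0)
    (hy0 : ∀ b a, τ.co 0 (y b a) = 0) (hne : ∃ b, y b ≠ 0) {j : ℕ} (hj : j < c) :
    RelAc k (XX τ N c n) (BadP (τ := τ) c y)ᶜ j := by
  have hs := τ.hs
  refine mp_abstract hL hcn hnN _ (fun x => sInf (mpSet y x) * (c + 1) + (c - x.1))
    (τ.s * (c + 1)) (fun x hx => ?_) (fun x _ z _ e => ?_) (fun i g₀ hg₀ hx => ?_) hj
  · have h1 := Nat.mul_le_mul_right (c + 1)
      (show sInf (mpSet y x) + 1 ≤ τ.s by have := (mp_bad_iff y).1 hx; omega)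
    rw [add_mul] at h1
    omega
  · have h1 := congrArg (· % (c + 1)) e
    simp only [Nat.mul_add_mod_of_lt (Nat.lt_succ_of_le (Nat.sub_le c _))] at h1
    have := x.1.2
    have := z.1.2
    exact Fin.ext (by omega)
  · obtain ⟨D, hD⟩ : ∃ D, sInf (mpSet y (vtx (Kc τ N c) i g₀)) = D + 1 :=
      ⟨_, (Nat.sub_add_cancel (mp_sInf_pos y hy0 hne _)).symm⟩
    have hDs : D + 1 < τ.s := by have := (mp_bad_iff y).1 hx; omega
    have hv := (mem_mpSet y).1 ((mp_sInf_le y).1 hD.le)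
    have hi := i.2
    refine ⟨Submodule.span F (Set.range fun b => mpLc τ (i + 1) D ((mat g₀⁻¹).mulVec (y b))), ⊥,
      fun h => ?_, fun h => ?_, fun g hK hG j hji => ?_⟩
    · have h1 : sInf (mpSet y (vtx (Kc τ N c) i g₀)) ≤ D := by
        refine (mp_sInf_le y).2 ((mem_mpSet y).2 fun b a e he => ?_)
        rcases he.eq_or_lt with rfl | he
        · exact congrFun (Submodule.span_eq_bot.1 h _ ⟨b, rfl⟩) a
        · exact hv b a e (by split_ifs at he ⊢ <;> omega)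
      omega
    · let a₀ : Fin N := ⟨0, by omega⟩
      have h1 : (Pi.single a₀ 1 : Fin N → F) ∈ Tn F N n := by
        intro a ha
        refine Pi.single_eq_of_ne ?_ _
        rintro rfl
        simp only [a₀] at ha
        omega
      simpa using congrFun (show (Pi.single a₀ 1 : Fin N → F) = 0 from h h1) a₀
    · have hj := j.2
      have hji' : (j : ℕ) ≠ i := fun e => hji (Fin.ext e)
      have hK' := Subgroup.inv_mem _ hK
      have key : Submodule.span F (Set.range fun b => mpLc τ (i + 1) D ((mat g₀⁻¹).mulVec (y b)))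
          ≤ Wsub (i + 1) n (j + 1) g ↔
          sInf (mpSet y (vtx (Kc τ N c) j (g₀ * g))) ≤ if (i : ℕ) + 1 < j + 1 then D + 1 else D := by
        rw [mp_sInf_le, mem_mpSet, Submodule.span_le, Set.range_subset_iff]
        refine forall_congr' fun b => ?_
        rw [SetLike.mem_coe, mp_mem_Wsub hK, ← mpLc_mulVec hDs _ hK', mul_inv_rev, mat_mul,
          ← Matrix.mulVec_mulVec]
        exact mpLc_mem_Eop (by omega) (by omega) (by omega)
          (mp_Gn_supp (Subgroup.inv_mem _ hG) (mp_Gn_supp (Subgroup.inv_mem _ hg₀) (hy b)))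
          ((hv b).mulVec hK')
      rw [key, mp_bad_iff, hD, and_iff_left (mp_Wsub_ne_bot (by omega) hnN hK)]
      simp only [vtx_fst]
      generalize sInf (mpSet y (vtx (Kc τ N c) j (g₀ * g))) = E
      rcases lt_trichotomy E (D + 1) with h | rfl | h
      · have h1 := Nat.mul_le_mul_right (c + 1) (Nat.succ_le_of_lt h)
        rw [Nat.succ_mul] at h1
        split_ifs <;> omega
      · split_ifs <;> omega
      · have h1 := Nat.mul_le_mul_right (c + 1) (Nat.succ_le_of_lt h)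
        rw [Nat.succ_mul] at h1
        split_ifs <;> omega

end Crest.Agent.R066
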