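import Crest.Agent.R066.Unip

/-! Row 66: the Morse argument for covectors. -/

set_option autoImplicit false
set_option linter.unusedSectionVars false

namespace Crest.Agent.R066

open Finset

variable {F R : Type} [Field F] [CommRing R] [Algebra F R] [Finite R] {τ : TR F R} {N c : ℕ}
  {k : Type} [Field k] [CharP k 2]

namespace MD

variable (τ) in
/-- covectors of degree below `D` at the boundary `i`. -/
def Lam (i D : ℕ) (η : Fin N → R) : Prop :=
  ∀ (a : Fin N) (e : ℕ), D ≤ (if i ≤ (a : ℕ) then e + 1 else e) → τ.co e (η a) = 0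

theorem Lam.mono {i D D' : ℕ} {η : Fin N → R} (h : Lam τ i D η) (hD : D ≤ D') : Lam τ i D' η :=
  fun a e he => h a e (hD.trans he)

theorem lam_top (i : ℕ) (η : Fin N → R) : Lam τ i (τ.s + 1) η := by
  intro a e he
  apply τ.co_big
  split_ifs at he <;> omega

theorem Lam.eq_zero {i : ℕ} {η : Fin N → R} (h : Lam τ i 0 η) : η = 0 := by
  funext a
  exact τ.ext0 _ fun e => h a e (Nat.zero_le _)

theorem co_t_mul_eq_zero {e : ℕ} {r : R} (h : ∀ e', e = e' + 1 → τ.co e' r = 0) :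
    τ.co e (τ.t * r) = 0 := by
  cases e with
  | zero => exact τ.co_zero_t r
  | succ e =>
    by_cases he : e + 1 < τ.s
    · rw [τ.co_succ_t _ _ he]; exact h e rfl
    · exact τ.co_big _ _ (by omega)

variable (τ) in
/-- the coefficient of order `E` of a covector at the boundary `i`. -/
def lead (i E : ℕ) (η : Fin N → R) : Fin N → F :=
  fun a => if i ≤ (a : ℕ) then τ.co E (τ.t * η a) else τ.co E (η a)

theorem co_vecMul_tw {i : ℕ} {m : Matrix (Fin N) (Fin N) F} (hm : ZP i m) (η : Fin N → R)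
    (e : ℕ) (b : Fin N) :
    τ.co e (Matrix.vecMul η (tw τ i m) b) =
      ∑ a : Fin N, (if (b : ℕ) < i ∧ i ≤ (a : ℕ) then τ.co e (τ.t * η a) else τ.co e (η a)) * m a b := by
  simp only [Matrix.vecMul, dotProduct, tw, Matrix.of_apply, map_sum]
  apply Finset.sum_congr rfl
  intro a _
  split_ifs with h
  · rw [← τ.co_mul_alg]; congr 1; ring
  · rw [← τ.co_mul_alg]; congr 1; ring

theorem Lam.vecMul_tw {i D : ℕ} {η : Fin N → R} (h : Lam τ i D η) {m : Matrix (Fin N) (Fin N) F}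
    (hm : ZP i m) : Lam τ i D (Matrix.vecMul η (tw τ i m)) := by
  intro b e he
  rw [co_vecMul_tw hm]
  apply Finset.sum_eq_zero
  intro a _
  by_cases hb : i ≤ (b : ℕ)
  · rw [if_pos hb] at he
    rw [if_neg (by omega)]
    by_cases ha : i ≤ (a : ℕ)
    · rw [h a e (by rw [if_pos ha]; exact he), zero_mul]
    · rw [hm a b (by omega) hb, mul_zero]
  · rw [if_neg hb] at he
    by_cases ha : i ≤ (a : ℕ)
    · rw [if_pos ⟨by omega, ha⟩, co_t_mul_eq_zero, zero_mul]
      intro e' he'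
      exact h a e' (by rw [if_pos ha]; omega)
    · rw [if_neg (by omega), h a e (by rw [if_neg ha]; exact he), zero_mul]

theorem Lam.vecMul_Kb {i D : ℕ} {η : Fin N → R} (h : Lam τ i D η) {g : Gp τ N c}
    (hg : g ∈ Kb τ N c i) : Lam τ i D (Matrix.vecMul η (mat g)) := by
  obtain ⟨m, hm, e⟩ := hg
  rw [e]; exact h.vecMul_tw hm

theorem lead_vecMul_tw {i : ℕ} (E : ℕ) (η : Fin N → R) {m : Matrix (Fin N) (Fin N) F}
    (hm : ZP i m) : lead τ i E (Matrix.vecMul η (tw τ i m)) = Matrix.vecMul (lead τ i E η) m := by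
  funext b
  by_cases hb : i ≤ (b : ℕ)
  · have : τ.t * Matrix.vecMul η (tw τ i m) b = Matrix.vecMul (fun a => τ.t * η a) (tw τ i m) b := by
      simp only [Matrix.vecMul, dotProduct, Finset.mul_sum, mul_assoc]
    simp only [lead, if_pos hb]
    rw [this, co_vecMul_tw hm]
    simp only [Matrix.vecMul, dotProduct]
    apply Finset.sum_congr rfl
    intro a _
    rw [if_neg (by omega)]
    by_cases ha : i ≤ (a : ℕ)
    · rw [lead, if_pos ha]
    · rw [hm a b (by omega) hb, mul_zero, mul_zero]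
  · simp only [lead, if_neg hb]
    rw [co_vecMul_tw hm]
    simp only [Matrix.vecMul, dotProduct]
    apply Finset.sum_congr rfl
    intro a _
    by_cases ha : i ≤ (a : ℕ)
    · rw [if_pos ⟨by omega, ha⟩, lead, if_pos ha]
    · rw [if_neg (by omega), lead, if_neg ha]

theorem lead_vecMul_Kb {i : ℕ} (E : ℕ) (η : Fin N → R) {g : Gp τ N c} (hg : g ∈ Kb τ N c i) :
    lead τ i E (Matrix.vecMul η (mat g)) = Matrix.vecMul (lead τ i E η) (untw τ i (mat g)) := by
  obtain ⟨m, hm, e⟩ := hg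
  rw [e, untw_tw]; exact lead_vecMul_tw E η hm

theorem vecMul_Gn {n : ℕ} {η : Fin N → R} (hη : ∀ a : Fin N, n ≤ (a : ℕ) → η a = 0)
    {g : Gp τ N c} (hg : g ∈ Gn τ N c n) (a : Fin N) (ha : n ≤ (a : ℕ)) :
    Matrix.vecMul η (mat g) a = 0 := by
  simp only [Matrix.vecMul, dotProduct]
  apply Finset.sum_eq_zero
  intro e _
  rw [mem_Gn.1 hg e a (Or.inr ha)]
  split_ifs with h
  · rw [h, hη a ha, zero_mul]
  · rw [mul_zero]

/-- lowering the degree at the same boundary. -/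
theorem lam_same {i n E : ℕ} (hE : E < τ.s) {η : Fin N → R}
    (hη : ∀ a : Fin N, n ≤ (a : ℕ) → η a = 0) (h : Lam τ i (E + 1) η)
    (hl : ∀ a : Fin N, (a : ℕ) < n → lead τ i E η a = 0) : Lam τ i E η := by
  intro a e he
  by_cases han : n ≤ (a : ℕ)
  · rw [hη a han, map_zero]
  have hl' := hl a (by omega)
  by_cases ha : i ≤ (a : ℕ)
  · rw [if_pos ha] at he
    by_cases h1 : E = e + 1
    · simp only [lead, if_pos ha] at hl'
      rwa [h1, τ.co_succ_t _ _ (by omega)] at hl'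
    · exact h a e (by rw [if_pos ha]; omega)
  · rw [if_neg ha] at he
    by_cases h1 : E = e
    · simp only [lead, if_neg ha] at hl'
      rwa [h1] at hl'
    · exact h a e (by rw [if_neg ha]; omega)

/-- the neighbours of larger boundary. -/
theorem lam_gt {i j n E : ℕ} (hij : i < j) (hjn : j < n) (hE : E < τ.s) {η : Fin N → R}
    (hη : ∀ a : Fin N, n ≤ (a : ℕ) → η a = 0) (h : Lam τ i (E + 1) η) :
    (∀ a : Fin N, ¬ (n ≤ (a : ℕ) ∨ pos i n a < pos i n j) → lead τ i E η a = 0) ↔ Lam τ j E η := by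
  constructor
  · intro hl a e he
    by_cases han : n ≤ (a : ℕ)
    · rw [hη a han, map_zero]
    by_cases ha : i ≤ (a : ℕ)
    · by_cases hj : j ≤ (a : ℕ)
      · rw [if_pos hj] at he
        by_cases h1 : E = e + 1
        · have hl' := hl a (by simp only [pos]; split_ifs <;> omega)
          simp only [lead, if_pos ha] at hl'
          rwa [h1, τ.co_succ_t _ _ (by omega)] at hl'
        · exact h a e (by rw [if_pos ha]; omega)
      · rw [if_neg hj] at he
        exact h a e (by rw [if_pos ha]; omega)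
    · rw [if_neg (by omega)] at he
      by_cases h1 : E = e
      · have hl' := hl a (by simp only [pos]; split_ifs <;> omega)
        simp only [lead, if_neg ha] at hl'
        rwa [h1] at hl'
      · exact h a e (by rw [if_neg ha]; omega)
  · intro hj a ha
    simp only [pos] at ha
    by_cases hia : i ≤ (a : ℕ)
    · simp only [lead, if_pos hia]
      apply co_t_mul_eq_zero
      intro e' he'
      have : j ≤ (a : ℕ) := by split_ifs at ha <;> omega
      exact hj a e' (by rw [if_pos this]; omega)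
    · simp only [lead, if_neg hia]
      exact hj a E (by rw [if_neg (by omega)])

/-- the neighbours of smaller boundary. -/
theorem lam_lt {i j n E : ℕ} (hij : j < i) (hin : i < n) {η : Fin N → R}
    (h : Lam τ i (E + 1) η) :
    (∀ a : Fin N, ¬ (n ≤ (a : ℕ) ∨ pos i n a < pos i n j) → lead τ i E η a = 0) ↔
      Lam τ j (E + 1) η := by
  constructor
  · intro hl a e he
    by_cases ha : i ≤ (a : ℕ)
    · rw [if_pos (by omega)] at he
      exact h a e (by rw [if_pos ha]; omega)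
    · by_cases hj : j ≤ (a : ℕ)
      · rw [if_pos hj] at he
        by_cases h1 : E = e
        · have hl' := hl a (by simp only [pos]; split_ifs <;> omega)
          simp only [lead, if_neg ha] at hl'
          rwa [h1] at hl'
        · exact h a e (by rw [if_neg ha]; omega)
      · rw [if_neg hj] at he
        exact h a e (by rw [if_neg ha]; omega)
  · intro hj a ha
    simp only [pos] at ha
    have hia : ¬ i ≤ (a : ℕ) := by split_ifs at ha <;> omega
    have hja : j ≤ (a : ℕ) := by split_ifs at ha <;> omega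
    simp only [lead, if_neg hia]
    exact hj a E (by rw [if_pos hja])

variable (F N) in
/-- the common kernel of a family of covectors. -/
def Hk {B : Type} (l : B → Fin N → F) : Submodule F (Fin N → F) where
  carrier := {w | ∀ b, l b ⬝ᵥ w = 0}
  add_mem' := fun {v w} hv hw b => by rw [dotProduct_add, hv b, hw b, add_zero]
  zero_mem' := fun b => dotProduct_zero _
  smul_mem' := fun x w hw b => by rw [dotProduct_smul, hw b, smul_zero]

theorem map_van_le_Hk {B : Type} (l : B → Fin N → F) (p : Fin N → Prop)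
    (M : Matrix (Fin N) (Fin N) F) :
    (Van F N p).map (Matrix.mulVecLin M) ≤ Hk F N l ↔
      ∀ b a, ¬ p a → Matrix.vecMul (l b) M a = 0 := by
  constructor
  · intro h b a ha
    have h1 : (Pi.single a 1 : Fin N → F) ∈ Van F N p := by
      intro a' ha'
      exact Pi.single_eq_of_ne (by rintro rfl; exact ha ha') _
    have h2 := h (Submodule.mem_map_of_mem h1) b
    rw [Matrix.mulVecLin_apply, Matrix.dotProduct_mulVec, dotProduct_single, mul_one] at h2
    exact h2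
  · rintro h _ ⟨w, hw, rfl⟩ b
    rw [Matrix.mulVecLin_apply, Matrix.dotProduct_mulVec]
    apply Finset.sum_eq_zero
    intro a _
    by_cases ha : p a
    · rw [hw a ha, mul_zero]
    · rw [h b a ha, zero_mul]

theorem van_le_Hk {B : Type} (l : B → Fin N → F) (p : Fin N → Prop) :
    Van F N p ≤ Hk F N l ↔ ∀ b a, ¬ p a → l b a = 0 := by
  have := map_van_le_Hk l p 1
  simpa using this

theorem Tn_ne_bot {n : ℕ} (hn : 0 < n) (hnN : n ≤ N) : Tn F N n ≠ ⊥ := by
  intro h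
  have h1 : (Pi.single (⟨0, by omega⟩ : Fin N) 1 : Fin N → F) ∈ Tn F N n := by
    intro a ha
    exact Pi.single_eq_of_ne (by rintro rfl; simp at ha; omega) _
  rw [h, Submodule.mem_bot] at h1
  have := congrFun h1 ⟨0, by omega⟩
  simp at this

theorem not_Tn_le_Wsub {i j n : ℕ} (hij : j ≠ i) (hin : i < n) (hnN : n ≤ N) {g : Gp τ N c}
    (hg : g ∈ Kb τ N c i) (hgn : g ∈ Gn τ N c n) : ¬ Tn F N n ≤ Wsub i n j g := by
  intro h
  set a₀ : Fin N := ⟨i, by omega⟩ with ha₀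
  have h1 : (untw τ i (mat g)).mulVec (Pi.single a₀ 1) ∈ Tn F N n := by
    intro a ha
    rw [Matrix.mulVec_single_one]
    have : mat g a a₀ = 0 := by
      rw [mem_Gn.1 hgn a a₀ (Or.inl ha), if_neg]
      rintro rfl
      simp only [ha₀] at ha; omega
    simp only [Matrix.col_apply, untw, Matrix.of_apply, this, map_zero, ite_self]
  obtain ⟨w, hw, e⟩ := h h1
  rw [Matrix.mulVecLin_apply] at e
  have hinv : untw τ i (mat g⁻¹) * untw τ i (mat g) = 1 := by
    rw [← untw_mul (Subgroup.inv_mem _ hg) hg, inv_mul_cancel, untw_one]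
  have e2 := congrArg (untw τ i (mat g⁻¹)).mulVec e
  rw [Matrix.mulVec_mulVec, Matrix.mulVec_mulVec, hinv, Matrix.one_mulVec, Matrix.one_mulVec] at e2
  have h3 : w a₀ = 0 := by
    apply hw a₀
    right
    simp only [pos, ha₀]
    split_ifs <;> omega
  rw [e2] at h3
  simp at h3

section deg
variable {B : Type} (ξ : B → Fin N → R)

variable (τ c) in
/-- the degree predicate of a vertex. -/
def P (x : Vtx (Kc τ N c)) (D : ℕ) : Prop :=
  ∃ g : Gp τ N c, x = vtx (Kc τ N c) x.1 g ∧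
    ∀ b, Lam τ ((x.1 : ℕ) + 1) D (Matrix.vecMul (ξ b) (mat g))

theorem P_vtx (i : Fin c) (g : Gp τ N c) (D : ℕ) :
    P τ c ξ (vtx (Kc τ N c) i g) D ↔ ∀ b, Lam τ ((i : ℕ) + 1) D (Matrix.vecMul (ξ b) (mat g)) := by
  constructor
  · rintro ⟨g', e, h⟩ b
    have hm : g'⁻¹ * g ∈ Kc τ N c i := (vtx_eq_iff _).1 e.symm
    have := (h b).vecMul_Kb hm
    rwa [Matrix.vecMul_vecMul, ← mat_mul, mul_inv_cancel_left] at this
  · intro h; exact ⟨g, rfl, h⟩

theorem P_top (x : Vtx (Kc τ N c)) : P τ c ξ x (τ.s + 1) := by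
  obtain ⟨g, hg⟩ := exists_vtx _ x
  exact ⟨g, hg, fun b => lam_top _ _⟩

open Classical in
variable (τ c) in
/-- the degree of a vertex. -/
noncomputable def dg (x : Vtx (Kc τ N c)) : ℕ := Nat.find ⟨_, P_top ξ x⟩

theorem dg_le_iff (x : Vtx (Kc τ N c)) (D : ℕ) : dg τ c ξ x ≤ D ↔ P τ c ξ x D := by
  classical
  constructor
  · intro h
    obtain ⟨g, hg, h'⟩ : P τ c ξ x (dg τ c ξ x) := Nat.find_spec (⟨_, P_top ξ x⟩ : ∃ D, P τ c ξ x D)
    exact ⟨g, hg, fun b => (h' b).mono h⟩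
  · intro h; exact Nat.find_min' _ h

theorem bad_iff (x : Vtx (Kc τ N c)) : x ∈ BadD (τ := τ) c ξ ↔ dg τ c ξ x ≤ τ.s := by
  rw [dg_le_iff]
  have hs := τ.hs
  constructor
  · rintro ⟨g, hg, h⟩
    refine ⟨g, hg, fun b a e he => ?_⟩
    by_cases h1 : τ.s ≤ e
    · exact τ.co_big _ _ h1
    · split_ifs at he with ha
      · have : e = τ.s - 1 := by omega
        rw [this]; exact h b a ha
      · omega
  · rintro ⟨g, hg, h⟩
    exact ⟨g, hg, fun b a ha => h b a _ (by rw [if_pos ha]; omega)⟩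

theorem dg_pos (hne : ∃ b, ξ b ≠ 0) (x : Vtx (Kc τ N c)) : 0 < dg τ c ξ x := by
  by_contra h
  obtain ⟨g, _, h'⟩ := (dg_le_iff ξ x 0).1 (by omega)
  obtain ⟨b, hb⟩ := hne
  apply hb
  have := congrArg (fun η => Matrix.vecMul η (mat g⁻¹)) (h' b).eq_zero
  simpa [Matrix.vecMul_vecMul] using this

variable (τ c) in
/-- the height function. -/
noncomputable def ht (x : Vtx (Kc τ N c)) : ℕ := dg τ c ξ x * (c + 1) + (x.1 : ℕ)

theorem ht_le_iff {x y : Vtx (Kc τ N c)} :
    ht τ c ξ y ≤ ht τ c ξ x ↔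
      dg τ c ξ y < dg τ c ξ x ∨ (dg τ c ξ y = dg τ c ξ x ∧ (y.1 : ℕ) ≤ x.1) := by
  have hx := x.1.2
  have hy := y.1.2
  simp only [ht]
  constructor
  · intro h
    rcases lt_trichotomy (dg τ c ξ y) (dg τ c ξ x) with h1 | h1 | h1
    · exact Or.inl h1
    · rw [h1] at h; exact Or.inr ⟨h1, by omega⟩
    · have := Nat.mul_le_mul_right (c + 1) (Nat.succ_le_of_lt h1)
      rw [Nat.succ_mul] at this; omega
  · rintro (h1 | ⟨h1, h2⟩)
    · have := Nat.mul_le_mul_right (c + 1) (Nat.succ_le_of_lt h1)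
      rw [Nat.succ_mul] at this; omega
    · rw [h1]; omega

/-- the key comparison between heights and subspaces. -/
theorem key {n : ℕ} (hcn : c < n) (hξ : ∀ b (a : Fin N), n ≤ (a : ℕ) → ξ b a = 0)
    {i j : Fin c} (hij : j ≠ i) {g₀ h : Gp τ N c} (hg₀ : g₀ ∈ Gn τ N c n) (hh : h ∈ Gn τ N c n)
    (hK : h ∈ Kb τ N c (i + 1)) {E : ℕ} (hE : dg τ c ξ (vtx (Kc τ N c) i g₀) = E + 1)
    (hEs : E < τ.s) :
    Wsub (i + 1) n (j + 1) h ≤
        Hk F N (fun b => lead τ (i + 1) E (Matrix.vecMul (ξ b) (mat g₀))) ↔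
      ¬ (vtx (Kc τ N c) j (g₀ * h) ∈ (BadD (τ := τ) c ξ)ᶜ ∨
        ht τ c ξ (vtx (Kc τ N c) i g₀) < ht τ c ξ (vtx (Kc τ N c) j (g₀ * h))) := by
  have hi := i.2
  have hj := j.2
  have hij' : (j : ℕ) ≠ i := fun e => hij (Fin.ext e)
  have hL : ∀ b, Lam τ (i + 1) (E + 1) (Matrix.vecMul (ξ b) (mat (g₀ * h))) := by
    intro b
    have := ((P_vtx ξ i g₀ _).1 ((dg_le_iff ξ _ _).1 hE.le) b).vecMul_Kb hK
    rwa [Matrix.vecMul_vecMul, ← mat_mul] at this
  have hz : ∀ b (a : Fin N), n ≤ (a : ℕ) → Matrix.vecMul (ξ b) (mat (g₀ * h)) a = 0 :=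
    fun b => vecMul_Gn (hξ b) (Subgroup.mul_mem _ hg₀ hh)
  have hl : ∀ b, Matrix.vecMul (lead τ (i + 1) E (Matrix.vecMul (ξ b) (mat g₀)))
      (untw τ (i + 1) (mat h)) = lead τ (i + 1) E (Matrix.vecMul (ξ b) (mat (g₀ * h))) := by
    intro b
    rw [← lead_vecMul_Kb E _ hK, Matrix.vecMul_vecMul, ← mat_mul]
  rw [Wsub, Eop, map_van_le_Hk, not_or, Set.notMem_compl_iff, not_lt, bad_iff, ht_le_iff, hE,
    vtx_fst, vtx_fst]
  simp only [hl]
  rcases lt_or_gt_of_ne hij' with hlt | hgt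
  · have h1 : (∀ b (a : Fin N), ¬ (n ≤ (a : ℕ) ∨ pos (i + 1) n a < pos (i + 1) n (j + 1)) →
        lead τ (i + 1) E (Matrix.vecMul (ξ b) (mat (g₀ * h))) a = 0) ↔
        dg τ c ξ (vtx (Kc τ N c) j (g₀ * h)) ≤ E + 1 := by
      rw [dg_le_iff, P_vtx]
      exact forall_congr' fun b => lam_lt (by omega) (by omega) (hL b)
    rw [h1]; omega
  · have h1 : (∀ b (a : Fin N), ¬ (n ≤ (a : ℕ) ∨ pos (i + 1) n a < pos (i + 1) n (j + 1)) →
        lead τ (i + 1) E (Matrix.vecMul (ξ b) (mat (g₀ * h))) a = 0) ↔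
        dg τ c ξ (vtx (Kc τ N c) j (g₀ * h)) ≤ E := by
      rw [dg_le_iff, P_vtx]
      exact forall_congr' fun b => lam_gt (by omega) (by omega) hEs (hz b) (hL b)
    rw [h1]; omega

theorem not_Tn_le_Hk {n : ℕ} (hξ : ∀ b (a : Fin N), n ≤ (a : ℕ) → ξ b a = 0)
    {i : Fin c} {g₀ : Gp τ N c} (hg₀ : g₀ ∈ Gn τ N c n) {E : ℕ}
    (hE : dg τ c ξ (vtx (Kc τ N c) i g₀) = E + 1) (hEs : E < τ.s) :
    ¬ Tn F N n ≤ Hk F N (fun b => lead τ (i + 1) E (Matrix.vecMul (ξ b) (mat g₀))) := by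
  intro h
  rw [Tn, van_le_Hk] at h
  have h1 : dg τ c ξ (vtx (Kc τ N c) i g₀) ≤ E := by
    rw [dg_le_iff, P_vtx]
    intro b
    exact lam_same hEs (vecMul_Gn (hξ b) hg₀) ((P_vtx ξ i g₀ _).1 ((dg_le_iff ξ _ _).1 hE.le) b)
      fun a ha => h b a (by omega)
  omega

end deg

end MD

theorem morse_dual (hL : LinkHyp τ N c k) {n : ℕ} (hcn : c < n) (hnN : n ≤ N) {B : Type}
    (ξ : B → Fin N → R) (hξ : ∀ b (a : Fin N), n ≤ (a : ℕ) → ξ b a = 0)
    (hne : ∃ b, ξ b ≠ 0) {j : ℕ} (hj : j < c) :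
    RelAc k (XX τ N c n) (BadD (τ := τ) c ξ)ᶜ j := by
  refine relAc_of_morse (Cx_down _ _ _) _ (MD.ht τ c ξ) ((τ.s + 1) * (c + 1)) ?_ ?_ ?_
  · intro x _ hx
    rw [Set.notMem_compl_iff, MD.bad_iff] at hx
    have h1 := Nat.mul_le_mul_right (c + 1) hx
    have h2 := x.1.2
    simp only [MD.ht]
    rw [Nat.succ_mul]; omega
  · intro x y hxy _ _ e
    have h1 := (MD.ht_le_iff ξ).1 e.le
    have h2 := (MD.ht_le_iff ξ).1 e.ge
    exact fst_injOn_of_mem_Cx _ hxy (by simp) (by simp) (Fin.ext (by simp only; omega))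
  · intro x hx hbad j' hj'
    rw [Set.notMem_compl_iff, MD.bad_iff] at hbad
    obtain ⟨g₀, hg₀, J₀, -, hJ₀⟩ := hx
    have hx0 : x = vtx (Kc τ N c) x.1 g₀ := by
      have : x ∈ face (Kc τ N c) g₀ J₀ := by rw [← hJ₀]; simp
      exact ((mem_face' _).1 this).2
    generalize x.1 = i at hx0
    subst hx0
    have hi := i.2
    obtain ⟨E, hE⟩ : ∃ E, MD.dg τ c ξ (vtx (Kc τ N c) i g₀) = E + 1 :=
      ⟨_, (Nat.succ_pred_eq_of_pos (MD.dg_pos ξ hne _)).symm⟩
    have hEs : E < τ.s := by omega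
    have hb := hL (i + 1) n (by omega) hcn hnN (univ.erase i)
      (fun j hj e => (Finset.mem_erase.1 hj).1 (Fin.ext (by omega))) (Tn F N n) _
      (MD.Tn_ne_bot (by omega) hnN) (MD.not_Tn_le_Hk ξ hξ hg₀ hE hEs) j'
      (by rw [Finset.card_erase_of_mem (Finset.mem_univ _), Finset.card_univ, Fintype.card_fin]
          omega)
    refine hb.smul g₀ ?_ ?_
    · rintro σ ⟨⟨hxσ, ⟨g, hg, J, -, hJ⟩, hσ⟩, hcard⟩
      refine ⟨?_, Finset.card_image_le.trans hcard⟩
      have hxg : vtx (Kc τ N c) i g₀ = vtx (Kc τ N c) i g := by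
        have : vtx (Kc τ N c) i g₀ ∈ face (Kc τ N c) g J := by rw [← hJ]; simp
        exact ((mem_face' _).1 this).2
      have hK : g₀⁻¹ * g ∈ Kb τ N c (i + 1) := (vtx_eq_iff (Kc τ N c)).1 hxg
      have hG : g₀⁻¹ * g ∈ Gn τ N c n := Subgroup.mul_mem _ (Subgroup.inv_mem _ hg₀) hg
      have hσ' : σ = face (Kc τ N c) g (J.erase i) := by
        rw [face_erase, ← hJ, ← hxg, Finset.erase_insert hxσ]
      refine ⟨g₀⁻¹ * g, hK, hG, by simp [KJ], J.erase i,
        Finset.erase_subset_erase _ (Finset.subset_univ _), fun j hj => ⟨?_, ?_⟩, ?_⟩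
      · exact MD.not_Tn_le_Wsub (fun e => (Finset.mem_erase.1 hj).1 (Fin.ext (by omega)))
          (by omega) hnN hK hG
      · rw [MD.key ξ hcn hξ (Finset.mem_erase.1 hj).1 hg₀ hG hK hE hEs, not_not,
          mul_inv_cancel_left]
        exact hσ _ (by rw [hσ']; exact vtx_mem_face _ hj)
      · rw [hσ', image_smul_face]
    · rintro σ ⟨⟨h, hK, hG, -, J, hJ, hW, rfl⟩, hcard⟩
      refine ⟨?_, Finset.card_image_le.trans hcard⟩
      rw [image_smul_face]
      have hiJ : i ∉ J := fun h' => (Finset.mem_erase.1 (hJ h')).1 rfl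
      refine ⟨fun h' => hiJ ((mem_face' _).1 h').1, ?_, ?_⟩
      · rw [← vtx_mul_mem (Kc τ N c) g₀ (h := h) hK, ← face_insert]
        exact face_mem_Cx _ (Subgroup.mul_mem _ hg₀ hG) (Finset.subset_univ _)
      · intro y hy
        obtain ⟨j, hj, rfl⟩ := (mem_face _).1 hy
        have := (hW j hj).2
        rwa [MD.key ξ hcn hξ (Finset.mem_erase.1 (hJ hj)).1 hg₀ hG hK hE hEs, not_not] at this

end Crest.Agent.R066
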