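import Crest.Agent.R066.Unip

/-! Row 66: the pieces of the covering. -/

set_option autoImplicit false
set_option linter.unusedSectionVars false
set_option linter.unusedVariables false

namespace Crest.Agent.R066

open Finset
open scoped Matrix

variable {F R : Type} [Field F] [CommRing R] [Algebra F R] [Finite R] {τ : TR F R} {N c : ℕ}

/-- the covering relation does not depend on the representative. -/
theorem move_rel_vtx (i : Fin c) (g : Gp τ N c) (v : Fin N → R) :
    rel c (vtx (Kc τ N c) i g) v ↔ ∀ a : Fin N,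
      ((a : ℕ) < (i : ℕ) + 1 → (mat g⁻¹).mulVec v a = 0) ∧
        ∃ u : F, (mat g⁻¹).mulVec v a = algebraMap F R u := by
  constructor
  · rintro ⟨g0, hg0, h⟩
    have hk : g⁻¹ * g0 ∈ Kb τ N c (i + 1) := (vtx_eq_iff (Kc τ N c) (i := i)).1 hg0
    obtain ⟨k, hk, e⟩ := hk
    have h1 : ∀ a : Fin N, (a : ℕ) < (i : ℕ) + 1 → (mat g0⁻¹).mulVec v a = 0 := fun a => (h a).1
    choose u hu using fun a => (h a).2
    have e2 : (mat g⁻¹).mulVec v = (tw τ (i + 1) k).mulVec ((mat g0⁻¹).mulVec v) := by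
      rw [← e, Matrix.mulVec_mulVec, ← mat_mul, mul_assoc, mul_inv_cancel, mul_one]
    have e3 : ∀ a : Fin N, (mat g⁻¹).mulVec v a =
        algebraMap F R (∑ b : Fin N, if (b : ℕ) < (i : ℕ) + 1 then 0 else k a b * u b) := by
      intro a
      rw [e2, Matrix.mulVec, dotProduct, map_sum]
      refine Finset.sum_congr rfl fun b _ => ?_
      split_ifs with hb
      · rw [h1 b hb, mul_zero, map_zero]
      · rw [hu b, tw, Matrix.of_apply, if_neg (fun h => hb h.1), mul_one, map_mul]
    intro a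
    refine ⟨fun ha => ?_, _, e3 a⟩
    rw [e3 a, Finset.sum_eq_zero, map_zero]
    intro b _
    split_ifs with hb
    · rfl
    · rw [hk a b ha (not_lt.1 hb), zero_mul]
  · intro h
    exact ⟨g, rfl, h⟩

theorem rel_smul (h : Gp τ N c) (x : Vtx (Kc τ N c)) (v : Fin N → R) :
    rel c (h • x) ((mat h).mulVec v) ↔ rel c x v := by
  obtain ⟨g, hg⟩ := exists_vtx _ x
  rw [hg, smul_vtx, move_rel_vtx, move_rel_vtx, Matrix.mulVec_mulVec, ← mat_mul, mul_inv_rev,
    mul_assoc, inv_mul_cancel, mul_one]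

theorem move_card_mid {p n : ℕ} (hnN : n ≤ N) :
    (univ.filter fun a : Fin N => p ≤ (a : ℕ) ∧ (a : ℕ) < n).card = n - p := by
  rw [← Nat.card_Ico, ← Finset.card_map Fin.valEmbedding]
  congr 1
  ext x
  simp only [Finset.mem_map, Finset.mem_filter, Finset.mem_univ, true_and, Fin.valEmbedding_apply,
    Finset.mem_Ico]
  constructor
  · rintro ⟨a, ha, rfl⟩; exact ha
  · intro hx; exact ⟨⟨x, by omega⟩, hx, rfl⟩

/-- a coordinate subspace is a space of functions on the remaining coordinates -/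
def moveVanEquiv (p : Fin N → Prop) [DecidablePred p] :
    Van F N p ≃ₗ[F] ({a : Fin N // ¬ p a} → F) where
  toFun w a := w.1 a.1
  map_add' _ _ := rfl
  map_smul' _ _ := rfl
  invFun f := ⟨fun a => if h : p a then 0 else f ⟨a, h⟩, fun a ha => dif_pos ha⟩
  left_inv w := by
    ext a
    by_cases h : p a
    · simp only [dif_pos h]; exact (w.2 a h).symm
    · simp only [dif_neg h]
  right_inv f := by
    ext a
    simp only [dif_neg a.2]

theorem finrank_Van_mid {n : ℕ} (hcn : c ≤ n) (hnN : n ≤ N) :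
    Module.finrank F (Van F N fun a => (a : ℕ) < c ∨ n ≤ (a : ℕ)) = n - c := by
  rw [(moveVanEquiv _).finrank_eq, Module.finrank_fintype_fun_eq_card, Fintype.card_subtype,
    ← move_card_mid (p := c) hnN]
  congr 1
  ext a
  simp only [Finset.mem_filter, Finset.mem_univ, true_and]
  omega

/-- extend an independent family inside a subspace. -/
theorem move_extend {V ι : Type} [AddCommGroup V] [Module F V] [DecidableEq ι] (T : Submodule F V)
    [FiniteDimensional F T] (S : Finset ι) (hS : S.card ≤ Module.finrank F T) (d : ℕ) :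
    ∀ (s : Finset ι) (u : ι → V), s ⊆ S → s.card + d = S.card → (∀ b ∈ s, u b ∈ T) →
      LinearIndepOn F u (s : Set ι) →
      ∃ u' : ι → V, (∀ b ∈ s, u' b = u b) ∧ (∀ b ∈ S, u' b ∈ T) ∧ LinearIndepOn F u' (S : Set ι) := by
  classical
  induction d with
  | zero =>
    intro s u hs hc hT hu
    obtain rfl : s = S := Finset.eq_of_subset_of_card_le hs (by omega)
    exact ⟨u, fun _ _ => rfl, hT, hu⟩
  | succ d ih =>
    intro s u hs hc hT hu
    obtain ⟨b0, hb0S, hb0⟩ := Finset.exists_mem_notMem_of_card_lt_card (s := s) (t := S) (by omega)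
    have hlt : ¬ T ≤ Submodule.span F (u '' (s : Set ι)) := by
      intro hle
      have h1 : Module.finrank F (Submodule.span F (u '' (s : Set ι))) ≤ s.card := by
        have := finrank_span_finset_le_card (R := F) (s.image u)
        rw [Finset.coe_image] at this
        exact this.trans Finset.card_image_le
      have : FiniteDimensional F (Submodule.span F (u '' (s : Set ι))) :=
        FiniteDimensional.span_of_finite F (s.finite_toSet.image u)
      have h2 := Submodule.finrank_mono hle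
      omega
    obtain ⟨w, hwT, hw⟩ := SetLike.not_le_iff_exists.1 hlt
    have heq : ∀ b ∈ s, Function.update u b0 w b = u b := fun b hb =>
      Function.update_of_ne (by rintro rfl; exact hb0 hb) _ _
    obtain ⟨u', h1, h2, h3⟩ := ih (insert b0 s) (Function.update u b0 w)
      (Finset.insert_subset hb0S hs) (by rw [Finset.card_insert_of_notMem hb0]; omega)
      (by
        intro b hb
        rcases Finset.mem_insert.1 hb with rfl | hb
        · rwa [Function.update_self]
        · rw [heq b hb]; exact hT b hb)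
      (by
        rw [Finset.coe_insert]
        refine LinearIndepOn.insert (hu.congr fun b hb => (heq b hb).symm) ?_
        rwa [Function.update_self, Set.image_congr heq])
    exact ⟨u', fun b hb => (h1 b (Finset.mem_insert_of_mem hb)).trans (heq b hb), h2, h3⟩

theorem move_det_ne (S : Finset (Fin N)) (P : Matrix (Fin N) (Fin N) F) (u : Fin N → Fin N → F)
    (h1 : ∀ a b, b ∉ S → P a b = if a = b then 1 else 0) (h2 : ∀ a ∈ S, ∀ b ∈ S, P a b = u b a)
    (h3 : ∀ a, a ∉ S → ∀ b ∈ S, u b a = 0) (hu : LinearIndepOn F u (S : Set (Fin N))) :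
    P.det ≠ 0 := by
  intro h0
  obtain ⟨x, hx, hP⟩ := Matrix.exists_mulVec_eq_zero_iff.2 h0
  have hS : ∀ b ∈ S, x b = 0 := by
    refine linearIndepOn_finset_iff.1 hu x ?_
    ext a
    rw [Finset.sum_apply, Pi.zero_apply]
    by_cases ha : a ∈ S
    · have := congrFun hP a
      rw [Matrix.mulVec, dotProduct, Pi.zero_apply,
        ← Finset.sum_subset (Finset.subset_univ S)] at this
      · rw [← this]
        refine Finset.sum_congr rfl fun b hb => ?_
        rw [h2 a ha b hb, Pi.smul_apply, smul_eq_mul, mul_comm]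
      · intro b _ hb
        rw [h1 a b hb, if_neg (by rintro rfl; exact hb ha), zero_mul]
    · refine Finset.sum_eq_zero fun b hb => ?_
      rw [Pi.smul_apply, h3 a ha b hb, smul_zero]
  apply hx
  ext a
  by_cases ha : a ∈ S
  · exact hS a ha
  · have := congrFun hP a
    rw [Matrix.mulVec, dotProduct, Finset.sum_eq_single a, h1 a a ha, if_pos rfl, one_mul] at this
    · exact this
    · intro b _ hba
      by_cases hb : b ∈ S
      · rw [hS b hb, mul_zero]
      · rw [h1 a b hb, if_neg (Ne.symm hba), zero_mul]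
    · simp

/-- the key lemma: complete a partial basis by constant vectors. -/
theorem move_key {m n : ℕ} (hcm : c ≤ m) (hmn : m ≤ n) (hnN : n ≤ N) (u : Fin N → Fin N → R)
    (hu : LinearIndepOn F (fun b => prj τ c n (u b)) {b : Fin N | m ≤ (b : ℕ) ∧ (b : ℕ) < n}) :
    ∃ W : Matrix (Fin N) (Fin N) F,
      (∀ a b : Fin N, ((a : ℕ) < c ∨ n ≤ (a : ℕ)) ∨ ((b : ℕ) < c ∨ n ≤ (b : ℕ)) →
        W a b = if a = b then 1 else 0) ∧
      (Matrix.of fun a b : Fin N =>
        if m ≤ (b : ℕ) ∧ (b : ℕ) < n then τ.co 0 (u b a) else W a b).det ≠ 0 := by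
  obtain ⟨u', h1, h2, h3⟩ := move_extend (Van F N fun a => (a : ℕ) < c ∨ n ≤ (a : ℕ))
    (univ.filter fun a : Fin N => c ≤ (a : ℕ) ∧ (a : ℕ) < n)
    (by rw [finrank_Van_mid (hcm.trans hmn) hnN, move_card_mid hnN]) (m - c)
    (univ.filter fun a : Fin N => m ≤ (a : ℕ) ∧ (a : ℕ) < n) (fun b => prj τ c n (u b))
    (by
      intro a
      simp only [Finset.mem_filter, Finset.mem_univ, true_and]
      omega)
    (by rw [move_card_mid hnN, move_card_mid hnN]; omega)
    (fun b _ a ha => if_neg (by omega))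
    (by simpa only [Finset.coe_filter, Finset.mem_univ, true_and] using hu)
  simp only [Finset.mem_filter, Finset.mem_univ, true_and] at h1 h2
  refine ⟨Matrix.of fun a b => if c ≤ (b : ℕ) ∧ (b : ℕ) < n then u' b a else
    if a = b then 1 else 0, ?_, ?_⟩
  · intro a b hab
    rw [Matrix.of_apply]
    by_cases hb : c ≤ (b : ℕ) ∧ (b : ℕ) < n
    · have ha : (a : ℕ) < c ∨ n ≤ (a : ℕ) := by omega
      rw [if_pos hb, h2 b hb a ha, if_neg]
      rintro rfl
      omega
    · rw [if_neg hb]
  · refine move_det_ne _ _ u' ?_ ?_ ?_ h3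
    · intro a b hb
      simp only [Finset.mem_filter, Finset.mem_univ, true_and] at hb
      simp only [Matrix.of_apply]
      rw [if_neg (by omega), if_neg hb]
    · intro a ha b hb
      simp only [Finset.mem_filter, Finset.mem_univ, true_and] at ha hb
      simp only [Matrix.of_apply]
      split_ifs with h
      · rw [h1 b h]
        exact (if_pos ha).symm
      · rfl
    · intro a ha b hb
      simp only [Finset.mem_filter, Finset.mem_univ, true_and] at ha hb
      exact h2 b hb a (by omega)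

/-- a partial basis can be moved to the standard position. -/
theorem exists_move (hc : 0 < c) {m n : ℕ} (hcm : c ≤ m) (hnN : n ≤ N) {T : Finset (Fin N → R)}
    (hT : T ∈ YY τ N c n) (hcard : m + T.card = n) :
    ∃ h ∈ Gn τ N c n, ∀ v, v ∈ T ↔
      ∃ b : Fin N, m ≤ (b : ℕ) ∧ (b : ℕ) < n ∧ v = (mat h).mulVec (Pi.single b 1) := by
  classical
  obtain ⟨hT1, hT2⟩ := hT
  have hmn : m ≤ n := by omega
  have hcardeq : Fintype.card {b : Fin N // m ≤ (b : ℕ) ∧ (b : ℕ) < n} = Fintype.card T := by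
    rw [Fintype.card_subtype, move_card_mid hnN, Fintype.card_coe]
    omega
  let e := Fintype.equivOfCardEq hcardeq
  let u : Fin N → Fin N → R := fun b =>
    if h : m ≤ (b : ℕ) ∧ (b : ℕ) < n then (e ⟨b, h⟩ : Fin N → R) else 0
  have hue : ∀ b : {b : Fin N // m ≤ (b : ℕ) ∧ (b : ℕ) < n}, u b = e b := fun b => dif_pos b.2
  obtain ⟨W, hW, hdet⟩ := move_key (τ := τ) hcm hmn hnN u (by
    have h1 := hT2.comp e e.injective
    have h2 : ((fun v : T => prj τ c n v) ∘ e) =
        fun b : {b : Fin N // m ≤ (b : ℕ) ∧ (b : ℕ) < n} => prj τ c n (u b) :=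
      funext fun b => (congrArg (prj τ c n) (hue b)).symm
    rw [h2] at h1
    exact h1)
  let M : Matrix (Fin N) (Fin N) R := Matrix.of fun a b : Fin N =>
    if m ≤ (b : ℕ) ∧ (b : ℕ) < n then u b a else algebraMap F R (W a b)
  have hM : IsUnit M.det := by
    apply τ.isUnit_of_co0
    rw [← τ.red_apply, RingHom.map_det]
    convert hdet using 2
    ext a b
    simp only [M, RingHom.mapMatrix_apply, Matrix.map_apply, Matrix.of_apply, TR.red_apply]
    split_ifs
    · rfl
    · rw [τ.co_alg, if_pos rfl]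
  obtain ⟨d, hd⟩ := hM
  let z : Fin N := ⟨0, by omega⟩
  let D : Fin N → R := fun b => if b = z then ((d⁻¹ : Rˣ) : R) else 1
  have hMD : ∀ a b : Fin N, (b : ℕ) < c ∨ n ≤ (b : ℕ) → a ≠ b → (M * Matrix.diagonal D) a b = 0 := by
    intro a b hb hab
    rw [Matrix.mul_diagonal]
    simp only [M, Matrix.of_apply]
    rw [if_neg (by omega), hW a b (Or.inr hb), if_neg hab, map_zero, zero_mul]
  have hMD' : ∀ a b : Fin N, c ≤ (b : ℕ) → (M * Matrix.diagonal D) a b = M a b := by
    intro a b hb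
    rw [Matrix.mul_diagonal]
    simp only [D]
    rw [if_neg, mul_one]
    rintro rfl
    simp only [z] at hb
    omega
  refine ⟨mkG τ c (M * Matrix.diagonal D) (fun a b hb hab => ?_) ⟨1, one_ne_zero, ?_⟩, ?_, ?_⟩
  · rw [hMD a b (Or.inl hb) (ne_of_gt hab), map_zero]
  · rw [Matrix.det_mul, Matrix.det_diagonal, ← hd, map_one]
    simp only [D]
    rw [Finset.prod_ite_eq' univ z (fun _ => ((d⁻¹ : Rˣ) : R)), if_pos (Finset.mem_univ _),
      Units.mul_inv]
  · intro a b hab
    rw [mat_mkG]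
    by_cases hb : c ≤ (b : ℕ)
    · rw [hMD' a b hb]
      simp only [M, Matrix.of_apply]
      by_cases hb' : m ≤ (b : ℕ) ∧ (b : ℕ) < n
      · have ha : n ≤ (a : ℕ) := by omega
        rw [if_pos hb', if_neg (by rintro rfl; omega), hue ⟨b, hb'⟩]
        exact hT1 _ (e ⟨b, hb'⟩).2 a ha
      · rw [if_neg hb', hW a b (by omega)]
        split_ifs <;> simp
    · have hne : a ≠ b := by rintro rfl; omega
      rw [hMD a b (Or.inl (by omega)) hne, if_neg hne]
  · have hcol : ∀ b : {b : Fin N // m ≤ (b : ℕ) ∧ (b : ℕ) < n},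
        (M * Matrix.diagonal D).mulVec (Pi.single b.1 1) = e b := by
      intro b
      ext a
      rw [Matrix.mulVec_single_one, Matrix.col_apply, hMD' a b (by have := b.2; omega), ← hue]
      exact if_pos b.2
    intro v
    rw [mat_mkG]
    constructor
    · intro hv
      obtain ⟨b, hb⟩ := e.surjective ⟨v, hv⟩
      exact ⟨b.1, b.2.1, b.2.2, by rw [hcol, hb]⟩
    · rintro ⟨b, hb1, hb2, rfl⟩
      rw [hcol ⟨b, hb1, hb2⟩]
      exact (e _).2

/-- reduction of the action modulo `t` -/
theorem move_co_mulVec (g : Gp τ N c) (v : Fin N → R) (a : Fin N) :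
    τ.co 0 ((mat g).mulVec v a) = ∑ b, τ.co 0 (mat g a b) * τ.co 0 (v b) := by
  rw [Matrix.mulVec, dotProduct, map_sum]
  exact Finset.sum_congr rfl fun b _ => τ.co0_mul _ _

theorem move_co_flag (g : Gp τ N c) {v : Fin N → R} (hv : ∀ b : Fin N, c ≤ (b : ℕ) → τ.co 0 (v b) = 0)
    {a : Fin N} (ha : c ≤ (a : ℕ)) : τ.co 0 ((mat g).mulVec v a) = 0 := by
  rw [move_co_mulVec]
  refine Finset.sum_eq_zero fun b _ => ?_
  by_cases hb : c ≤ (b : ℕ)
  · rw [hv b hb, mul_zero]
  · rw [mat_flag g a b (by omega) (by rw [Fin.lt_def]; omega), zero_mul]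

theorem move_mulVec_Gn {n : ℕ} {g : Gp τ N c} (hg : g ∈ Gn τ N c n) (v : Fin N → R) {a : Fin N}
    (ha : n ≤ (a : ℕ)) : (mat g).mulVec v a = v a := by
  rw [Matrix.mulVec, dotProduct, Finset.sum_eq_single a, hg a a (Or.inl ha), if_pos rfl, one_mul]
  · intro b _ hb
    rw [hg a b (Or.inl ha), if_neg (Ne.symm hb), zero_mul]
  · simp

theorem move_indep {m n : ℕ} (hcm : c ≤ m) {g : Gp τ N c} (hg : g ∈ Gn τ N c n) :
    LinearIndepOn F (fun b : Fin N => prj τ c n ((mat g).mulVec (Pi.single b 1)))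
      {b : Fin N | m ≤ (b : ℕ) ∧ (b : ℕ) < n} := by
  have hset : {b : Fin N | m ≤ (b : ℕ) ∧ (b : ℕ) < n} =
      ((univ.filter fun a : Fin N => m ≤ (a : ℕ) ∧ (a : ℕ) < n : Finset (Fin N)) : Set (Fin N)) := by
    simp only [Finset.coe_filter, Finset.mem_univ, true_and]
  rw [hset, linearIndepOn_finset_iff]
  intro x hx b0 hb0
  let y : Fin N → R := fun b => if m ≤ (b : ℕ) ∧ (b : ℕ) < n then algebraMap F R (x b) else 0
  have h1 : ∀ a : Fin N, c ≤ (a : ℕ) → τ.co 0 ((mat g).mulVec y a) = 0 := by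
    intro a ha
    by_cases han : n ≤ (a : ℕ)
    · rw [move_mulVec_Gn hg y han]
      simp only [y]
      rw [if_neg (by omega), map_zero]
    · have := congrFun hx a
      rw [Finset.sum_apply, Pi.zero_apply, Finset.sum_filter] at this
      rw [move_co_mulVec, ← this]
      refine Finset.sum_congr rfl fun b _ => ?_
      simp only [y]
      split_ifs
      · rw [Pi.smul_apply, prj, if_pos ⟨ha, by omega⟩, Matrix.mulVec_single_one, Matrix.col_apply,
          τ.co_alg, if_pos rfl, smul_eq_mul, mul_comm]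
      · rw [map_zero, mul_zero]
  simp only [Finset.mem_filter, Finset.mem_univ, true_and] at hb0
  have h2 := move_co_flag g⁻¹ h1 (a := b0) (by omega)
  rw [Matrix.mulVec_mulVec, mat_inv_mul, Matrix.one_mulVec] at h2
  simp only [y] at h2
  rwa [if_pos hb0, τ.co_alg, if_pos rfl] at h2

variable (τ c) in
/-- unipotent elements below the boundary `m`. -/
noncomputable def moveLow (m : ℕ) (Y : Matrix (Fin N) (Fin N) R)
    (h1 : ∀ a b : Fin N, ¬ (m ≤ (a : ℕ) ∧ (b : ℕ) < m) → Y a b = 0)
    (h2 : ∀ a b : Fin N, (b : ℕ) < c → τ.co 0 (Y a b) = 0) : Gp τ N c :=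
  mkG τ c (1 - Y)
    (fun a b hb hab => by
      rw [Matrix.sub_apply, Matrix.one_apply_ne (ne_of_gt hab), zero_sub, map_neg, h2 a b hb,
        neg_zero])
    ⟨1, one_ne_zero, by
      rw [map_one, Matrix.det_of_isLowerTriangular]
      · apply Finset.prod_eq_one
        intro a _
        rw [Matrix.sub_apply, h1 a a (by omega)]; simp
      · intro a b hab
        have h : a < b := hab
        rw [Matrix.sub_apply, h1 a b (by omega), Matrix.one_apply_ne (ne_of_lt h)]; simp⟩

theorem mat_moveLow (m : ℕ) (Y : Matrix (Fin N) (Fin N) R) (h1) (h2) :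
    mat (moveLow τ c m Y h1 h2) = 1 - Y := rfl

/-- constant elements respecting the boundary `j` stabilise the base vertex. -/
theorem move_mem_Kb {j : ℕ} {g : Gp τ N c} (k : Matrix (Fin N) (Fin N) F)
    (e : ∀ a b, mat g a b = algebraMap F R (k a b)) (h1 : ZP j k)
    (h2 : ∀ a b : Fin N, (b : ℕ) < j → j ≤ (a : ℕ) → k a b = 0) : g ∈ Kb τ N c j := by
  refine ⟨k, h1, ?_⟩
  ext a b
  rw [e, tw, Matrix.of_apply]
  split_ifs with h
  · rw [h2 a b h.1 h.2, map_zero, zero_mul]
  · rw [mul_one]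

/-- elements fixing the standard vectors of the middle rows. -/
theorem move_decomp {m n : ℕ} (hcm : c ≤ m) (hmn : m ≤ n) {g : Gp τ N c} (hg : g ∈ Gn τ N c n)
    (hfix : ∀ a b : Fin N, m ≤ (b : ℕ) → mat g a b = if a = b then 1 else 0) :
    ∃ (X : RowA τ N m n) (g' k : Gp τ N c), g' ∈ Gn τ N c m ∧ (∀ i, k ∈ Kc τ N c i) ∧
      g * k = rowEl c X * g' := by
  let C : Matrix (Fin N) (Fin N) R := Matrix.of fun a b =>
    if m ≤ (a : ℕ) ∧ (b : ℕ) < m then mat g a b else 0
  let C0 : Matrix (Fin N) (Fin N) R := Matrix.of fun a b => algebraMap F R (τ.co 0 (C a b))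
  have hC1 : ∀ a b : Fin N, ¬ (m ≤ (a : ℕ) ∧ (b : ℕ) < m) → C a b = 0 := fun a b h => if_neg h
  have hC2 : ∀ a b : Fin N, (b : ℕ) < c → τ.co 0 (C a b) = 0 := by
    intro a b hb
    simp only [C, Matrix.of_apply]
    split_ifs with h
    · exact mat_flag g a b hb (by rw [Fin.lt_def]; omega)
    · exact map_zero _
  have hC3 : ∀ a b : Fin N, n ≤ (a : ℕ) → C a b = 0 := by
    intro a b ha
    simp only [C, Matrix.of_apply]
    split_ifs with h
    · rw [hg a b (Or.inl ha), if_neg (by rintro rfl; omega)]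
    · rfl
  have hD1 : ∀ a b : Fin N, ¬ (m ≤ (a : ℕ) ∧ (b : ℕ) < m) → C0 a b = 0 := by
    intro a b h
    simp only [C0, Matrix.of_apply]
    rw [hC1 a b h, map_zero, map_zero]
  have hD2 : ∀ a b : Fin N, (b : ℕ) < c → τ.co 0 (C0 a b) = 0 := by
    intro a b h
    simp only [C0, Matrix.of_apply]
    rw [hC2 a b h, map_zero, map_zero]
  have hmul : ∀ Y : Matrix (Fin N) (Fin N) R,
      (∀ a b : Fin N, ¬ (m ≤ (a : ℕ) ∧ (b : ℕ) < m) → Y a b = 0) → mat g * Y = Y := by
    intro Y hY
    ext a b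
    rw [Matrix.mul_apply]
    have : ∀ e : Fin N, mat g a e * Y e b = if a = e then Y e b else 0 := by
      intro e
      by_cases he : m ≤ (e : ℕ)
      · rw [hfix a e he]; split_ifs <;> simp
      · rw [hY e b (fun h => he h.1)]; simp
    simp only [this, Finset.sum_ite_eq, Finset.mem_univ, if_true]
  let g' := g * moveLow τ c m C hC1 hC2
  have hg' : mat g' = mat g - C := by
    rw [mat_mul, mat_moveLow, Matrix.mul_sub, Matrix.mul_one, hmul C hC1]
  have hg'm : g' ∈ Gn τ N c m := by
    intro a b hab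
    rw [hg', Matrix.sub_apply]
    by_cases hb : m ≤ (b : ℕ)
    · rw [hfix a b hb, hC1 a b (by omega), sub_zero]
    · simp only [C, Matrix.of_apply]
      rw [if_pos (by omega), sub_self, if_neg (by rintro rfl; omega)]
  have hX : (C - C0) * mat g'⁻¹ ∈ RowA τ N m n := by
    intro a b
    rw [Matrix.mul_apply]
    constructor
    · rw [map_sum]
      refine Finset.sum_eq_zero fun e _ => ?_
      rw [τ.co0_mul, Matrix.sub_apply, map_sub]
      simp only [C0, Matrix.of_apply]
      rw [τ.co_alg, if_pos rfl, sub_self, zero_mul]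
    · intro h
      refine Finset.sum_eq_zero fun e _ => ?_
      rw [Matrix.sub_apply]
      by_cases h1 : m ≤ (a : ℕ) ∧ (e : ℕ) < m
      · by_cases h2 : n ≤ (a : ℕ)
        · simp only [C0, Matrix.of_apply]
          rw [hC3 a e h2, map_zero, map_zero, sub_self, zero_mul]
        · rw [(Gn τ N c m).inv_mem hg'm e b (Or.inr (by omega)), if_neg (by rintro rfl; omega),
            mul_zero]
      · rw [hC1 a e h1, hD1 a e h1, sub_self, zero_mul]
  refine ⟨⟨_, hX⟩, g', moveLow τ c m C0 hD1 hD2, hg'm, fun i => ?_, mat_inj ?_⟩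
  · have hi := i.2
    refine move_mem_Kb (1 - Matrix.of fun a b => τ.co 0 (C a b)) (fun a b => ?_)
      (fun a b ha hb => ?_) (fun a b hb ha => ?_)
    · rw [mat_moveLow, Matrix.sub_apply, Matrix.sub_apply, map_sub, Matrix.one_apply,
        Matrix.one_apply]
      congr 1
      split_ifs <;> simp
    · rw [Matrix.sub_apply, Matrix.of_apply, hC1 a b (by omega), map_zero, sub_zero,
        Matrix.one_apply_ne (by rintro rfl; omega)]
    · rw [Matrix.sub_apply, Matrix.of_apply, hC2 a b (by omega), sub_zero,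
        Matrix.one_apply_ne (by rintro rfl; omega)]
  · rw [mat_mul, mat_mul, mat_moveLow, mat_rowEl, Matrix.mul_sub, Matrix.mul_one, hmul C0 hD1,
      Matrix.add_mul, Matrix.one_mul, Matrix.mul_assoc, mat_inv_mul, Matrix.mul_one, hg']
    abel

/-- the simplices related to the standard vectors form the orbit of the smaller complex under the
row group. -/
theorem std_iff {m n : ℕ} (hcm : c ≤ m) (hmn : m ≤ n) (hnN : n ≤ N)
    (σ : Finset (Vtx (Kc τ N c))) :
    (σ ∈ XX τ N c n ∧ ∀ x ∈ σ, ∀ b : Fin N, m ≤ (b : ℕ) → (b : ℕ) < n → rel c x (Pi.single b 1)) ↔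
      σ ∈ Orb (fun X : RowA τ N m n => rowEl c X) (XX τ N c m) := by
  constructor
  · rintro ⟨⟨g, hg, J, -, rfl⟩, h⟩
    rcases J.eq_empty_or_nonempty with rfl | ⟨i0, hi0⟩
    · exact ⟨0, face _ 1 ∅, face_mem_Cx _ (Subgroup.one_mem (Gn τ N c m)) (Finset.subset_univ _),
        by rw [image_smul_face, face_empty, face_empty]⟩
    have hgi : g⁻¹ ∈ Gn τ N c n := (Gn τ N c n).inv_mem hg
    have hrel := fun i (hi : i ∈ J) (b : Fin N) (h1 : m ≤ (b : ℕ)) (h2 : (b : ℕ) < n) =>
      (move_rel_vtx i g _).1 (h _ (vtx_mem_face _ hi) b h1 h2)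
    obtain ⟨W, hW, hdet⟩ := move_key hcm hmn hnN _ (move_indep hcm hgi)
    set P : Matrix (Fin N) (Fin N) F := Matrix.of fun a b : Fin N =>
      if m ≤ (b : ℕ) ∧ (b : ℕ) < n then τ.co 0 ((mat g⁻¹).mulVec (Pi.single b 1) a) else W a b
      with hP
    have hPa : ∀ a b : Fin N, ¬ (m ≤ (b : ℕ) ∧ (b : ℕ) < n) → P a b = W a b :=
      fun a b hb => if_neg hb
    have hPb : ∀ a b : Fin N, m ≤ (b : ℕ) → (b : ℕ) < n →
        algebraMap F R (P a b) = (mat g⁻¹).mulVec (Pi.single b 1) a := by
      intro a b h1 h2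
      obtain ⟨u, hu⟩ := (hrel i0 hi0 b h1 h2 a).2
      rw [hP, Matrix.of_apply, if_pos ⟨h1, h2⟩, hu, τ.co_alg, if_pos rfl]
    let k : Gp τ N c := mkG τ c ((algebraMap F R).mapMatrix P)
      (fun a b hb hab => by
        rw [RingHom.mapMatrix_apply, Matrix.map_apply, hPa a b (by omega),
          hW a b (Or.inr (Or.inl hb)), if_neg (ne_of_gt hab), map_zero, map_zero])
      ⟨P.det, hdet, (RingHom.map_det _ _).symm⟩
    have hk : ∀ a b, mat k a b = algebraMap F R (P a b) := fun _ _ => rfl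
    have hkn : k ∈ Gn τ N c n := by
      intro a b hab
      rw [hk]
      by_cases hb : m ≤ (b : ℕ) ∧ (b : ℕ) < n
      · rw [hPb a b hb.1 hb.2, move_mulVec_Gn hgi _ (by omega), Pi.single_apply]
      · rw [hPa a b hb, hW a b (by omega)]
        split_ifs <;> simp
    have hkJ : ∀ i ∈ J, k ∈ Kc τ N c i := by
      intro i hi
      have hic := i.2
      refine move_mem_Kb P hk (fun a b ha hb => ?_) (fun a b hb ha => ?_)
      · by_cases hb' : m ≤ (b : ℕ) ∧ (b : ℕ) < n
        · apply τ.alg_injective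
          rw [hPb a b hb'.1 hb'.2, (hrel i hi b hb'.1 hb'.2 a).1 ha, map_zero]
        · rw [hPa a b hb', hW a b (by omega), if_neg (by rintro rfl; omega)]
      · rw [hPa a b (by omega), hW a b (by omega), if_neg (by rintro rfl; omega)]
    have hgk : g * k ∈ Gn τ N c n := (Gn τ N c n).mul_mem hg hkn
    obtain ⟨X, g', k2, hg', hk2, e⟩ := move_decomp hcm hmn hgk (fun a b hb => by
      by_cases hbn : (b : ℕ) < n
      · have : mat (g * k) a b = (mat g).mulVec ((mat g⁻¹).mulVec (Pi.single b 1)) a := by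
          rw [mat_mul, Matrix.mul_apply, Matrix.mulVec, dotProduct]
          exact Finset.sum_congr rfl fun e _ => by rw [hk, hPb e b hb hbn]
        rw [this, Matrix.mulVec_mulVec, mat_mul_inv, Matrix.one_mulVec, Pi.single_apply]
      · exact hgk a b (Or.inr (by omega)))
    refine ⟨X, face _ g' J, face_mem_Cx _ hg' (Finset.subset_univ _), ?_⟩
    rw [image_smul_face, ← e, face_eq_iff]
    refine ⟨rfl, fun i hi => ?_⟩
    rw [mul_assoc, inv_mul_cancel_left]
    exact Subgroup.mul_mem _ (hkJ i hi) (hk2 i)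
  · rintro ⟨X, _, ⟨g, hg, J, -, rfl⟩, rfl⟩
    rw [image_smul_face]
    refine ⟨face_mem_Cx _ ((Gn τ N c n).mul_mem (rowEl_mem_Gn c hmn X) (Gn_mono hmn hg))
      (Finset.subset_univ _), fun x hx b hb1 hb2 => ?_⟩
    obtain ⟨i, -, rfl⟩ := (mem_face _).1 hx
    have hic := i.2
    have h1 : (mat (rowEl c X * g)).mulVec (Pi.single b 1) = Pi.single b 1 := by
      have e1 : (mat g).mulVec (Pi.single b 1) = Pi.single b 1 := by
        ext a
        rw [Matrix.mulVec_single_one, Matrix.col_apply, hg a b (Or.inr hb1), Pi.single_apply]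
      rw [mat_mul, ← Matrix.mulVec_mulVec, e1]
      ext a
      rw [Matrix.mulVec_single_one, Matrix.col_apply, mat_rowEl, Matrix.add_apply,
        (X.2 a b).2 (by omega), add_zero, Matrix.one_apply, Pi.single_apply]
    have h2 : (mat (rowEl c X * g)⁻¹).mulVec (Pi.single b 1) = Pi.single b 1 := by
      conv_lhs => rw [← h1]
      rw [Matrix.mulVec_mulVec, mat_inv_mul, Matrix.one_mulVec]
    rw [move_rel_vtx, h2]
    intro a
    refine ⟨fun ha => Pi.single_eq_of_ne (by rintro rfl; omega) _, if a = b then 1 else 0, ?_⟩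
    rw [Pi.single_apply]
    split_ifs <;> simp

/-- the vectors related to all vertices of a simplex project onto the middle block. -/
theorem rel_surj {n : ℕ} (hcn : c ≤ n) {σ : Finset (Vtx (Kc τ N c))} (hσ : σ ∈ XX τ N c n)
    (w : Fin N → F) (hw : w ∈ Van F N fun a => (a : ℕ) < c ∨ n ≤ (a : ℕ)) :
    ∃ v : Fin N → R, ((∀ a : Fin N, n ≤ (a : ℕ) → v a = 0) ∧ ∀ x ∈ σ, rel c x v) ∧
      prj τ c n v = w := by
  obtain ⟨g, hg, J, -, rfl⟩ := hσ
  let y : Fin N → R := (mat g⁻¹).mulVec fun a => algebraMap F R (w a)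
  let u : Fin N → R := fun a => algebraMap F R (if c ≤ (a : ℕ) then τ.co 0 (y a) else 0)
  refine ⟨(mat g).mulVec u, ⟨fun a ha => ?_, fun x hx => ?_⟩, ?_⟩
  · rw [move_mulVec_Gn hg u ha]
    simp only [u, y]
    rw [if_pos (by omega), move_mulVec_Gn ((Gn τ N c n).inv_mem hg) _ ha, hw a (Or.inr ha),
      map_zero, map_zero, map_zero]
  · obtain ⟨i, -, rfl⟩ := (mem_face _).1 hx
    have hic := i.2
    rw [move_rel_vtx, Matrix.mulVec_mulVec, mat_inv_mul, Matrix.one_mulVec]
    intro a
    refine ⟨fun ha => ?_, _, rfl⟩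
    simp only [u]
    rw [if_neg (by omega), map_zero]
  · ext a
    rw [prj]
    split_ifs with ha
    · have h1 := move_co_flag g (v := y - u) (a := a) (fun b hb => by
        simp only [u, Pi.sub_apply]
        rw [if_pos hb, map_sub, τ.co_alg, if_pos rfl, sub_self]) ha.1
      rw [Matrix.mulVec_sub, Pi.sub_apply, map_sub, sub_eq_zero] at h1
      rw [← h1]
      simp only [y]
      rw [Matrix.mulVec_mulVec, mat_mul_inv, Matrix.one_mulVec, τ.co_alg, if_pos rfl]
    · exact (hw a (by omega)).symm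

end Crest.Agent.R066
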