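import Crest.Agent.R066.Unip

/-! Row 66: stabilisers in the row and column groups, and completeness of the characters. -/

set_option autoImplicit false
set_option linter.unusedSectionVars false

namespace Crest.Agent.R066

open Finset

variable {F R : Type} [Field F] [CommRing R] [Algebra F R] [Finite R] {τ : TR F R} {N c : ℕ}
  {k : Type} [Field k]

theorem stab_co_pow (τ : TR F R) (r : R) (e j : ℕ) (h : e + j < τ.s) :
    τ.co (e + j) (τ.t ^ j * r) = τ.co e r := by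
  induction j with
  | zero => simp
  | succ j ih => rw [pow_succ', mul_assoc, ← add_assoc, τ.co_succ_t (e + j) _ h, ih (by omega)]

theorem stab_exists_top (τ : TR F R) {r : R} (hr : r ≠ 0) (β : F) :
    ∃ u : R, τ.co (τ.s - 1) (r * u) = β := by
  obtain ⟨e, he⟩ : ∃ e, τ.co e r ≠ 0 := by
    by_contra h
    push Not at h
    exact hr (τ.ext0 r h)
  have hes : e < τ.s := by
    by_contra h
    exact he (τ.co_big e r (not_lt.1 h))
  refine ⟨algebraMap F R (β / τ.co e r) * τ.t ^ (τ.s - 1 - e), ?_⟩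
  have h1 := stab_co_pow τ r e (τ.s - 1 - e) (by omega)
  rw [show e + (τ.s - 1 - e) = τ.s - 1 by omega] at h1
  rw [mul_left_comm, τ.co_alg_mul, mul_comm r, h1, div_mul_cancel₀ _ he]

theorem stab_psi_ne_one {ψ : AddChar F k} {A : AddSubgroup (Matrix (Fin N) (Fin N) R)}
    {y : Matrix (Fin N) (Fin N) R} (h : chi τ ψ A y ≠ 1) : ∃ β, ψ β ≠ 1 := by
  obtain ⟨X, hX⟩ := AddChar.ne_one_iff.1 h
  exact ⟨_, hX⟩

theorem sum_chi [Fintype (Matrix (Fin N) (Fin N) R)] {ψ : AddChar F k} (hψ : ψ ≠ 1)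
    (A : AddSubgroup (Matrix (Fin N) (Fin N) R)) (X : A) (hX : X ≠ 0) :
    ∑ y, chi τ ψ A y X = 0 := by
  let p : Matrix (Fin N) (Fin N) R →+ F :=
    { toFun := fun y => τ.co (τ.s - 1) (∑ a, ∑ b, (X : Matrix (Fin N) (Fin N) R) a b * y a b)
      map_zero' := by simp
      map_add' := fun y y' => by simp [mul_add, Finset.sum_add_distrib] }
  refine AddChar.sum_eq_zero_of_ne_one (ψ := ψ.compAddMonoidHom p) (AddChar.ne_one_iff.2 ?_)
  obtain ⟨β, hβ⟩ := AddChar.ne_one_iff.1 hψ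
  obtain ⟨a, b, hab⟩ : ∃ a b, (X : Matrix (Fin N) (Fin N) R) a b ≠ 0 := by
    by_contra h
    push Not at h
    exact hX (Subtype.ext (Matrix.ext h))
  obtain ⟨u, hu⟩ := stab_exists_top τ hab β
  refine ⟨Matrix.single a b u, ?_⟩
  change ψ (τ.co (τ.s - 1)
    (∑ a', ∑ b', (X : Matrix (Fin N) (Fin N) R) a' b' * Matrix.single a b u a' b')) ≠ 1
  rw [Finset.sum_eq_single a, Finset.sum_eq_single b, Matrix.single_apply_same, hu]
  · exact hβ
  · intro b' _ hb'
    rw [Matrix.single_apply_of_col_ne _ _ hb'.symm, mul_zero]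
  · simp
  · intro a' _ ha'
    exact Finset.sum_eq_zero fun b' _ => by rw [Matrix.single_apply_of_row_ne ha'.symm, mul_zero]
  · simp

theorem rowVec_ne_zero {ψ : AddChar F k} {m n : ℕ} {y : Matrix (Fin N) (Fin N) R}
    (h : chi τ ψ (RowA τ N m n) y ≠ 1) : ∃ b, rowVec τ m n y b ≠ 0 := by
  by_contra hc
  push Not at hc
  obtain ⟨X, hX⟩ := AddChar.ne_one_iff.1 h
  apply hX
  rw [chi_apply, Finset.sum_eq_zero, map_zero, AddChar.map_zero_eq_one]
  refine fun a _ => Finset.sum_eq_zero fun b _ => ?_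
  by_cases hab : m ≤ (a : ℕ) ∧ (a : ℕ) < n ∧ (b : ℕ) < m
  · obtain ⟨r, hr⟩ := τ.exists_eq_t_mul (X.2 a b).1
    have h1 := congrFun (hc a) b
    rw [rowVec, if_pos hab, Pi.zero_apply] at h1
    rw [hr, mul_comm τ.t, mul_assoc, h1, mul_zero]
  · rw [(X.2 a b).2 hab, zero_mul]

theorem colVec_ne_zero {ψ : AddChar F k} {m n : ℕ} {y : Matrix (Fin N) (Fin N) R}
    (h : chi τ ψ (ColA R N m n) y ≠ 1) : ∃ b, colVec m n y b ≠ 0 := by
  by_contra hc
  push Not at hc
  obtain ⟨X, hX⟩ := AddChar.ne_one_iff.1 h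
  apply hX
  rw [chi_apply, Finset.sum_eq_zero, map_zero, AddChar.map_zero_eq_one]
  refine fun a _ => Finset.sum_eq_zero fun b _ => ?_
  by_cases hab : (a : ℕ) < m ∧ m ≤ (b : ℕ) ∧ (b : ℕ) < n
  · have h1 := congrFun (hc b) a
    rw [colVec, if_pos hab, Pi.zero_apply] at h1
    rw [h1, mul_zero]
  · rw [X.2 a b hab, zero_mul]

theorem stab_Gn_mul {m : ℕ} {g : Gp τ N c} (hg : g ∈ Gn τ N c m) {Z : Matrix (Fin N) (Fin N) R}
    (hZ : ∀ a b : Fin N, (a : ℕ) < m → Z a b = 0) : mat g * Z = Z := by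
  ext a b
  rw [Matrix.mul_apply, Finset.sum_eq_single a]
  · by_cases ha : (a : ℕ) < m
    · rw [hZ a b ha, mul_zero]
    · rw [mem_Gn.1 hg a a (Or.inl (not_lt.1 ha)), if_pos rfl, one_mul]
  · intro e _ he
    by_cases hm : (e : ℕ) < m
    · rw [hZ e b hm, mul_zero]
    · rw [mem_Gn.1 hg a e (Or.inr (not_lt.1 hm)), if_neg he.symm, zero_mul]
  · simp

theorem stab_mul_Gn {m : ℕ} {g : Gp τ N c} (hg : g ∈ Gn τ N c m) {Z : Matrix (Fin N) (Fin N) R}
    (hZ : ∀ a b : Fin N, (b : ℕ) < m → Z a b = 0) : Z * mat g = Z := by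
  ext a b
  rw [Matrix.mul_apply, Finset.sum_eq_single b]
  · by_cases hb : (b : ℕ) < m
    · rw [hZ a b hb, zero_mul]
    · rw [mem_Gn.1 hg b b (Or.inl (not_lt.1 hb)), if_pos rfl, mul_one]
  · intro e _ he
    by_cases hm : (e : ℕ) < m
    · rw [hZ a e hm, zero_mul]
    · rw [mem_Gn.1 hg e b (Or.inl (not_lt.1 hm)), if_neg he, mul_zero]
  · simp

theorem stab_row_mul {m n : ℕ} (X : RowA τ N m n) (M : Matrix (Fin N) (Fin N) R) (a b : Fin N)
    (ha : ¬ (m ≤ (a : ℕ) ∧ (a : ℕ) < n)) : ((X : Matrix (Fin N) (Fin N) R) * M) a b = 0 := by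
  rw [Matrix.mul_apply]
  exact Finset.sum_eq_zero fun e _ => by rw [(X.2 a e).2 (by tauto), zero_mul]

theorem stab_mem_Kb_single {j : ℕ} {h : Gp τ N c} {a b : Fin N} (ha : j ≤ (a : ℕ)) (α : F)
    (e : mat h = 1 + Matrix.single a b
      (algebraMap F R α * if (b : ℕ) < j ∧ j ≤ (a : ℕ) then τ.t else 1)) : h ∈ Kb τ N c j := by
  refine mem_Kb.2 ⟨1 + Matrix.single a b α, fun a' b' ha' hb' => ?_, ?_⟩
  · rw [Matrix.add_apply, ZP.one j a' b' ha' hb', Matrix.single_apply_of_row_ne, add_zero]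
    rintro rfl
    omega
  · rw [e, ← tw_one (τ := τ) j]
    ext a' b'
    simp only [tw, Matrix.add_apply, Matrix.of_apply, map_add, add_mul]
    congr 1
    by_cases hab : a = a' ∧ b = b'
    · obtain ⟨rfl, rfl⟩ := hab
      rw [Matrix.single_apply_same, Matrix.single_apply_same]
    · rw [Matrix.single_apply_of_ne _ _ _ _ _ hab, Matrix.single_apply_of_ne _ _ _ _ _ hab,
        map_zero, zero_mul]

theorem stab_mat_conj {m n : ℕ} {g g' : Gp τ N c} (hg' : g' ∈ Gn τ N c m) (X : RowA τ N m n) :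
    mat (g'⁻¹ * (rowEl c X * g)) = mat (g'⁻¹ * g) + (X : Matrix (Fin N) (Fin N) R) * mat g := by
  rw [mat_mul, mat_mul, mat_mul, mat_rowEl, add_mul, one_mul, mul_add,
    stab_Gn_mul ((Gn τ N c m).inv_mem hg') fun a b ha => stab_row_mul X _ a b (by omega)]

theorem stab_mulVec_rowVec {m n : ℕ} {g : Gp τ N c} (hg : g ∈ Gn τ N c m)
    (y : Matrix (Fin N) (Fin N) R) {a b : Fin N} (ha : (a : ℕ) < m)
    (hb : m ≤ (b : ℕ) ∧ (b : ℕ) < n) :
    (mat g).mulVec (rowVec τ m n y b) a = τ.t * ∑ e, mat g a e * y b e := by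
  rw [Matrix.mulVec, dotProduct, Finset.mul_sum]
  refine Finset.sum_congr rfl fun e _ => ?_
  by_cases he : (e : ℕ) < m
  · rw [rowVec, if_pos ⟨hb.1, hb.2, he⟩]; ring
  · rw [mem_Gn.1 hg a e (Or.inr (not_lt.1 he)), if_neg (by rintro rfl; exact he ha)]
    simp

theorem row_good {ψ : AddChar F k} {m n : ℕ} (hcm : c ≤ m) {y : Matrix (Fin N) (Fin N) R}
    (h : chi τ ψ (RowA τ N m n) y ≠ 1) {σ : Finset (Vtx (Kc τ N c))} (hσ : σ ∈ XX τ N c m)
    (hg : ∀ x ∈ σ, x ∈ (BadP (τ := τ) c (rowVec τ m n y))ᶜ) :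
    ∃ X : RowA τ N m n, (σ.image fun x => rowEl c X • x) = σ ∧ chi τ ψ (RowA τ N m n) y X ≠ 1 := by
  obtain ⟨g, hgm, J, -, rfl⟩ := hσ
  rcases J.eq_empty_or_nonempty with rfl | hJ
  · obtain ⟨X, hX⟩ := AddChar.ne_one_iff.1 h
    exact ⟨X, by simp [face_empty], hX⟩
  obtain ⟨β, hβ⟩ := stab_psi_ne_one h
  have hgi : g⁻¹ ∈ Gn τ N c m := (Gn τ N c m).inv_mem hgm
  set j := J.min' hJ with hj
  have h1 := hg _ (vtx_mem_face (Kc τ N c) (g := g) (J.min'_mem hJ))
  simp only [Set.mem_compl_iff, BadP, Set.mem_ofPred_eq, not_exists, not_and, not_forall] at h1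
  obtain ⟨b, a, ha, hκ⟩ := h1 g rfl
  rw [vtx_fst, ← hj] at ha
  have hjc := j.2
  have ham : (a : ℕ) < m := by omega
  have hb : m ≤ (b : ℕ) ∧ (b : ℕ) < n := by
    by_contra hb
    apply hκ
    have : rowVec τ m n y b = 0 := funext fun e => if_neg (by tauto)
    rw [this, Matrix.mulVec_zero, Pi.zero_apply, map_zero]
  set κ := τ.co (τ.s - 1) ((mat g⁻¹).mulVec (rowVec τ m n y b) a) with hκd
  have hX : ∀ b' e, (Matrix.single b a (algebraMap F R (β / κ) * τ.t) * mat g⁻¹) b' e =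
      if b = b' then algebraMap F R (β / κ) * τ.t * mat g⁻¹ a e else 0 := by
    intro b' e
    split_ifs with hb'
    · rw [← hb', Matrix.single_mul_apply_same]
    · rw [Matrix.single_mul_apply_of_ne _ _ _ _ _ (Ne.symm hb')]
  refine ⟨⟨Matrix.single b a (algebraMap F R (β / κ) * τ.t) * mat g⁻¹, fun b' e => ?_⟩, ?_, ?_⟩
  · rw [hX]
    split_ifs with hb'
    · refine ⟨by rw [mul_assoc, τ.co_alg_mul, τ.co_zero_t, mul_zero], fun hn => ?_⟩
      subst hb'
      rw [mem_Gn.1 hgi a e (Or.inr (by omega)), if_neg (by rintro rfl; omega), mul_zero]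
    · simp
  · rw [image_smul_face, eq_comm, face_eq_iff]
    refine ⟨rfl, fun i hi => ?_⟩
    have hji : j ≤ i := J.min'_le i hi
    have hji' : (j : ℕ) ≤ i := hji
    have hic := i.2
    refine stab_mem_Kb_single (a := b) (b := a) (by omega) (β / κ) ?_
    rw [stab_mat_conj hgm, inv_mul_cancel, mat_one, if_pos (by omega), mul_assoc, mat_inv_mul,
      mul_one]
  · rw [chi_apply]
    simp only [hX, ite_mul, zero_mul, Finset.sum_ite_irrel, Finset.sum_const_zero,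
      Finset.sum_ite_eq, Finset.mem_univ, if_true, mul_assoc, ← Finset.mul_sum]
    rw [τ.co_alg_mul, ← stab_mulVec_rowVec hgi y ham hb, ← hκd, div_mul_cancel₀ _ hκ]
    exact hβ

theorem stab_badP {B : Type} {y : B → Fin N → R} {j : Fin c} {g : Gp τ N c}
    (h : vtx (Kc τ N c) j g ∈ BadP (τ := τ) c y) (b : B) (a : Fin N) (ha : (a : ℕ) < (j : ℕ) + 1) :
    τ.co (τ.s - 1) ((mat g⁻¹).mulVec (y b) a) = 0 := by
  obtain ⟨g', hg', hb⟩ := h
  rw [vtx_fst] at hg' hb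
  obtain ⟨k, hk, e⟩ := mem_Kb.1 ((vtx_eq_iff (Kc τ N c)).1 hg')
  have h1 : mat g⁻¹ = tw τ (j + 1) k * mat g'⁻¹ := by
    rw [← e, ← mat_mul, mul_inv_cancel_right]
  rw [h1, ← Matrix.mulVec_mulVec, Matrix.mulVec, dotProduct, map_sum]
  refine Finset.sum_eq_zero fun e _ => ?_
  simp only [tw, Matrix.of_apply]
  rw [if_neg (by omega), mul_one, τ.co_alg_mul]
  by_cases he : (e : ℕ) < (j : ℕ) + 1
  · rw [hb b e he, mul_zero]
  · rw [hk a e ha (not_lt.1 he), zero_mul]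

theorem row_bad {ψ : AddChar F k} {m n : ℕ} (hcm : c ≤ m) (y : Matrix (Fin N) (Fin N) R)
    {σ : Finset (Vtx (Kc τ N c))} (hσ : σ ∈ XX τ N c m) {x : Vtx (Kc τ N c)} (hx : x ∈ σ)
    (hb : x ∈ BadP (τ := τ) c (rowVec τ m n y)) (X : RowA τ N m n)
    (hX : (σ.image fun x => rowEl c X • x) = σ) : chi τ ψ (RowA τ N m n) y X = 1 := by
  obtain ⟨g, hgm, J, -, rfl⟩ := hσ
  obtain ⟨j, hj, rfl⟩ := (mem_face _).1 hx
  have hgi : g⁻¹ ∈ Gn τ N c m := (Gn τ N c m).inv_mem hgm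
  rw [image_smul_face, eq_comm, face_eq_iff] at hX
  obtain ⟨k', -, e⟩ := mem_Kb.1 (hX.2 j hj)
  rw [stab_mat_conj hgm, inv_mul_cancel, mat_one] at e
  set Z := (X : Matrix (Fin N) (Fin N) R) * mat g with hZ
  have hXZ : (X : Matrix (Fin N) (Fin N) R) = Z * mat g⁻¹ := by
    rw [hZ, mul_assoc, mat_mul_inv, mul_one]
  have hjc := j.2
  rw [chi_apply, map_sum, Finset.sum_eq_zero, AddChar.map_zero_eq_one]
  intro b _
  by_cases hb' : m ≤ (b : ℕ) ∧ (b : ℕ) < n
  swap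
  · rw [Finset.sum_eq_zero fun e _ => by rw [(X.2 b e).2 (by tauto), zero_mul], map_zero]
  have h1 : ∑ e, (X : Matrix (Fin N) (Fin N) R) b e * y b e =
      ∑ a, Z b a * ∑ e, mat g⁻¹ a e * y b e := by
    rw [hXZ]
    simp only [Matrix.mul_apply, Finset.sum_mul, Finset.mul_sum, mul_assoc]
    exact Finset.sum_comm
  rw [h1, map_sum]
  refine Finset.sum_eq_zero fun a _ => ?_
  have h2 := congrFun (congrFun e b) a
  simp only [tw, Matrix.add_apply, Matrix.of_apply] at h2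
  by_cases ha : (a : ℕ) < (j : ℕ) + 1
  · rw [if_pos ⟨ha, by omega⟩, Matrix.one_apply_ne (by rintro rfl; omega), zero_add] at h2
    rw [h2, mul_assoc, τ.co_alg_mul, ← stab_mulVec_rowVec hgi y (by omega) hb',
      stab_badP hb b a ha, mul_zero]
  · rw [if_neg (by omega), mul_one] at h2
    have h3 : Z b a = algebraMap F R (k' b a - (1 : Matrix (Fin N) (Fin N) F) b a) := by
      rw [map_sub, ← h2]
      simp [Matrix.one_apply, apply_ite (algebraMap F R)]
    have h4 : τ.co 0 (Z b a) = 0 := by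
      rw [hZ, Matrix.mul_apply, map_sum]
      exact Finset.sum_eq_zero fun e _ => by rw [τ.co0_mul, (X.2 b e).1, zero_mul]
    rw [h3, τ.co_alg, if_pos rfl] at h4
    rw [h3, h4, map_zero, zero_mul, map_zero]

theorem row_inj {m n : ℕ} (hcm : c ≤ m) {σ : Finset (Vtx (Kc τ N c))} (hσ : σ ∈ XX τ N c m)
    (X : RowA τ N m n) (h : (σ.image fun x => rowEl c X • x) ∈ XX τ N c m) :
    (σ.image fun x => rowEl c X • x) = σ := by
  obtain ⟨g, hgm, J, -, rfl⟩ := hσ
  obtain ⟨g', hgm', J', -, e⟩ := h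
  rw [e]
  rw [image_smul_face, eq_comm, face_eq_iff] at e
  obtain ⟨rfl, e⟩ := e
  refine (face_eq_iff _).2 ⟨rfl, fun i hi => ?_⟩
  obtain ⟨k', hk', e'⟩ := mem_Kb.1 (e i hi)
  rw [stab_mat_conj hgm'] at e'
  have hic := i.2
  have hM : g'⁻¹ * g ∈ Gn τ N c m := (Gn τ N c m).mul_mem ((Gn τ N c m).inv_mem hgm') hgm
  refine mem_Kb.2 ⟨fun a b => if (a : ℕ) < m then k' a b else (1 : Matrix (Fin N) (Fin N) F) a b,
    fun a b ha hb => ?_, ?_⟩
  · simp only
    rw [if_pos (by omega), hk' a b ha hb]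
  · ext a b
    by_cases ha : (a : ℕ) < m
    · have h2 := congrFun (congrFun e' a) b
      rw [Matrix.add_apply, stab_row_mul X _ a b (by omega), add_zero] at h2
      rw [h2]
      simp only [tw, Matrix.of_apply, if_pos ha]
    · rw [mem_Gn.1 hM a b (Or.inl (not_lt.1 ha)), ← Matrix.one_apply, ← tw_one (τ := τ) (i + 1)]
      simp only [tw, Matrix.of_apply, if_neg ha]

theorem col_good {ψ : AddChar F k} {m n : ℕ} (hcm : c ≤ m) {y : Matrix (Fin N) (Fin N) R}
    (h : chi τ ψ (ColA R N m n) y ≠ 1) {σ : Finset (Vtx (Kc τ N c))} (hσ : σ ∈ XX τ N c m)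
    (hg : ∀ x ∈ σ, x ∈ (BadD (τ := τ) c (colVec m n y))ᶜ) :
    ∃ X : ColA R N m n, (σ.image fun x => colEl τ c X • x) = σ ∧ chi τ ψ (ColA R N m n) y X ≠ 1 := by
  obtain ⟨g, hgm, J, -, rfl⟩ := hσ
  rcases J.eq_empty_or_nonempty with rfl | hJ
  · obtain ⟨X, hX⟩ := AddChar.ne_one_iff.1 h
    exact ⟨X, by simp [face_empty], hX⟩
  obtain ⟨β, hβ⟩ := stab_psi_ne_one h
  set j := J.max' hJ with hj
  have h1 := hg _ (vtx_mem_face (Kc τ N c) (g := g) (J.max'_mem hJ))
  simp only [Set.mem_compl_iff, BadD, Set.mem_ofPred_eq, not_exists, not_and, not_forall] at h1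
  obtain ⟨b, a, ha, hκ⟩ := h1 g rfl
  rw [vtx_fst, ← hj] at ha
  have hb : m ≤ (b : ℕ) ∧ (b : ℕ) < n := by
    by_contra hb
    apply hκ
    have : colVec m n y b = 0 := funext fun e => if_neg (by tauto)
    rw [this, Matrix.zero_vecMul, Pi.zero_apply, map_zero]
  have ham : (a : ℕ) < m := by
    by_contra ham
    apply hκ
    rw [Matrix.vecMul, dotProduct, Finset.sum_eq_zero, map_zero]
    intro e _
    rw [mem_Gn.1 hgm e a (Or.inr (not_lt.1 ham))]
    split_ifs with hea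
    · rw [colVec, if_neg (by rw [hea]; tauto), zero_mul]
    · rw [mul_zero]
  have hge : ∀ e : Fin N, ¬ (e : ℕ) < m → mat g e a = 0 := fun e he => by
    rw [mem_Gn.1 hgm e a (Or.inl (not_lt.1 he)), if_neg (by rintro rfl; exact he ham)]
  set κ := τ.co (τ.s - 1) (Matrix.vecMul (colVec m n y b) (mat g) a) with hκd
  have hX : ∀ e b', (mat g * Matrix.single a b (algebraMap F R (β / κ))) e b' =
      if b = b' then mat g e a * algebraMap F R (β / κ) else 0 := by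
    intro e b'
    split_ifs with hb'
    · rw [← hb', Matrix.mul_single_apply_same]
    · rw [Matrix.mul_single_apply_of_ne _ _ _ _ _ (Ne.symm hb')]
  refine ⟨⟨mat g * Matrix.single a b (algebraMap F R (β / κ)), fun e b' hn => ?_⟩, ?_, ?_⟩
  · rw [hX]
    split_ifs with hb'
    · subst hb'
      rw [hge e (by tauto), zero_mul]
    · rfl
  · rw [image_smul_face, eq_comm, face_eq_iff]
    refine ⟨rfl, fun i hi => ?_⟩
    have hji : i ≤ j := J.le_max' i hi
    have hji' : (i : ℕ) ≤ j := hji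
    have hic := i.2
    refine stab_mem_Kb_single (a := a) (b := b) (by omega) (β / κ) ?_
    rw [mat_mul, mat_mul, mat_colEl, add_mul, one_mul, mul_add, mat_inv_mul, if_neg (by omega),
      mul_one, mul_assoc, ← mul_assoc, mat_inv_mul, one_mul, stab_mul_Gn hgm]
    intro a' b' hb'
    exact Matrix.single_apply_of_col_ne _ _ (by rintro rfl; omega) _
  · rw [chi_apply]
    simp only [hX, ite_mul, zero_mul, Finset.sum_ite_eq, Finset.mem_univ, if_true]
    have h2 : ∑ e, mat g e a * algebraMap F R (β / κ) * y e b =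
        algebraMap F R (β / κ) * Matrix.vecMul (colVec m n y b) (mat g) a := by
      rw [Matrix.vecMul, dotProduct, Finset.mul_sum]
      refine Finset.sum_congr rfl fun e _ => ?_
      by_cases he : (e : ℕ) < m
      · rw [colVec, if_pos ⟨he, hb⟩]; ring
      · rw [hge e he]; simp
    rw [h2, τ.co_alg_mul, ← hκd, div_mul_cancel₀ _ hκ]
    exact hβ

end Crest.Agent.R066
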