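import Crest.Agent.R066.Grp
import Crest.Agent.R066.Fourier

/-! Row 66: row and column groups, their characters, bad vertices, the covering relation. -/

set_option autoImplicit false
set_option linter.unusedSectionVars false

namespace Crest.Agent.R066

open Finset

variable {F R : Type} [Field F] [CommRing R] [Algebra F R] [Finite R] (τ : TR F R) (N c : ℕ)

/-- matrices divisible by `t`, supported in the rows `[m, n)` and the columns `< m`. -/
def RowA (m n : ℕ) : AddSubgroup (Matrix (Fin N) (Fin N) R) where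
  carrier := {X | ∀ a b : Fin N, τ.co 0 (X a b) = 0 ∧
    (¬ (m ≤ (a : ℕ) ∧ (a : ℕ) < n ∧ (b : ℕ) < m) → X a b = 0)}
  add_mem' := fun {X Y} hX hY a b =>
    ⟨by simp [(hX a b).1, (hY a b).1], fun h => by simp [(hX a b).2 h, (hY a b).2 h]⟩
  zero_mem' := fun a b => by simp
  neg_mem' := fun {X} hX a b => ⟨by simp [(hX a b).1], fun h => by simp [(hX a b).2 h]⟩

variable (R) in
/-- matrices supported in the rows `< m` and the columns `[m, n)`. -/
def ColA (m n : ℕ) : AddSubgroup (Matrix (Fin N) (Fin N) R) where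
  carrier := {X | ∀ a b : Fin N, ¬ ((a : ℕ) < m ∧ m ≤ (b : ℕ) ∧ (b : ℕ) < n) → X a b = 0}
  add_mem' := fun {X Y} hX hY a b h => by simp [hX a b h, hY a b h]
  zero_mem' := fun a b => by simp
  neg_mem' := fun {X} hX a b h => by simp [hX a b h]

noncomputable instance (m n : ℕ) : Fintype (RowA τ N m n) := Fintype.ofFinite _
noncomputable instance (m n : ℕ) : Fintype (ColA R N m n) := Fintype.ofFinite _

variable {τ N}

theorem det_row {m n : ℕ} (X : RowA τ N m n) : (1 + (X : Matrix (Fin N) (Fin N) R)).det = 1 := by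
  rw [Matrix.det_of_isLowerTriangular]
  · apply Finset.prod_eq_one
    intro a _
    rw [Matrix.add_apply, (X.2 a a).2 (by omega)]; simp
  · intro a b hab
    have h : a < b := hab
    rw [Matrix.add_apply, (X.2 a b).2 (by omega), Matrix.one_apply_ne (ne_of_lt h)]; simp

theorem det_col {m n : ℕ} (X : ColA R N m n) : (1 + (X : Matrix (Fin N) (Fin N) R)).det = 1 := by
  rw [Matrix.det_of_isUpperTriangular]
  · apply Finset.prod_eq_one
    intro a _
    rw [Matrix.add_apply, X.2 a a (by omega)]; simp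
  · intro a b hab
    have h : b < a := hab
    rw [Matrix.add_apply, X.2 a b (by omega), Matrix.one_apply_ne (ne_of_gt h)]; simp

/-- the row group. -/
noncomputable def rowEl {m n : ℕ} (X : RowA τ N m n) : Gp τ N c :=
  mkG τ c (1 + (X : Matrix (Fin N) (Fin N) R))
    (fun a b _ hab => by
      rw [Matrix.add_apply, Matrix.one_apply_ne (ne_of_gt hab), zero_add]; exact (X.2 a b).1)
    ⟨1, one_ne_zero, by rw [det_row, map_one]⟩

variable (τ) in
/-- the column group. -/
noncomputable def colEl {m n : ℕ} (X : ColA R N m n) : Gp τ N c :=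
  mkG τ c (1 + (X : Matrix (Fin N) (Fin N) R))
    (fun a b _ hab => by
      rw [Matrix.add_apply, Matrix.one_apply_ne (ne_of_gt hab), zero_add, X.2 a b (by omega)]
      simp)
    ⟨1, one_ne_zero, by rw [det_col, map_one]⟩

@[simp] theorem mat_rowEl {m n : ℕ} (X : RowA τ N m n) :
    mat (rowEl c X) = 1 + (X : Matrix (Fin N) (Fin N) R) := rfl

@[simp] theorem mat_colEl {m n : ℕ} (X : ColA R N m n) :
    mat (colEl τ c X) = 1 + (X : Matrix (Fin N) (Fin N) R) := rfl

theorem row_mul_row {m n : ℕ} (X Y : RowA τ N m n) :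
    (X : Matrix (Fin N) (Fin N) R) * (Y : Matrix (Fin N) (Fin N) R) = 0 := by
  ext a b
  rw [Matrix.mul_apply]
  apply Finset.sum_eq_zero
  intro e _
  by_cases he : (e : ℕ) < m
  · rw [(Y.2 e b).2 (by omega), mul_zero]
  · rw [(X.2 a e).2 (by omega), zero_mul]

theorem col_mul_col {m n : ℕ} (X Y : ColA R N m n) :
    (X : Matrix (Fin N) (Fin N) R) * (Y : Matrix (Fin N) (Fin N) R) = 0 := by
  ext a b
  rw [Matrix.mul_apply]
  apply Finset.sum_eq_zero
  intro e _
  by_cases he : (e : ℕ) < m
  · rw [X.2 a e (by omega), zero_mul]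
  · rw [Y.2 e b (by omega), mul_zero]

theorem rowEl_add {m n : ℕ} (X Y : RowA τ N m n) : rowEl c (X + Y) = rowEl c X * rowEl c Y := by
  apply mat_inj
  simp only [mat_mul, mat_rowEl, AddSubgroup.coe_add, add_mul, mul_add, row_mul_row, one_mul,
    mul_one]
  abel

theorem colEl_add {m n : ℕ} (X Y : ColA R N m n) :
    colEl τ c (X + Y) = colEl τ c X * colEl τ c Y := by
  apply mat_inj
  simp only [mat_mul, mat_colEl, AddSubgroup.coe_add, add_mul, mul_add, col_mul_col, one_mul,
    mul_one]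
  abel

theorem rowEl_mem_Gn {m n : ℕ} (h : m ≤ n) (X : RowA τ N m n) : rowEl c X ∈ Gn τ N c n := by
  intro a b hab
  rw [mat_rowEl, Matrix.add_apply, (X.2 a b).2 (by omega), add_zero, Matrix.one_apply]

theorem colEl_mem_Gn {m n : ℕ} (h : m ≤ n) (X : ColA R N m n) : colEl τ c X ∈ Gn τ N c n := by
  intro a b hab
  rw [mat_colEl, Matrix.add_apply, X.2 a b (by omega), add_zero, Matrix.one_apply]

variable (τ) in
/-- the residue pairing of two matrices. -/
def pairing (A : AddSubgroup (Matrix (Fin N) (Fin N) R)) (y : Matrix (Fin N) (Fin N) R) : A →+ F where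
  toFun X := τ.co (τ.s - 1) (∑ a, ∑ b, (X : Matrix (Fin N) (Fin N) R) a b * y a b)
  map_zero' := by simp
  map_add' X Y := by simp [add_mul, Finset.sum_add_distrib]

variable (τ) in
/-- the characters of a group of matrices. -/
def chi {k : Type} [Field k] (ψ : AddChar F k) (A : AddSubgroup (Matrix (Fin N) (Fin N) R))
    (y : Matrix (Fin N) (Fin N) R) : AddChar A k := ψ.compAddMonoidHom (pairing τ A y)

theorem chi_apply {k : Type} [Field k] (ψ : AddChar F k)
    (A : AddSubgroup (Matrix (Fin N) (Fin N) R)) (y : Matrix (Fin N) (Fin N) R) (X : A) :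
    chi τ ψ A y X =
      ψ (τ.co (τ.s - 1) (∑ a, ∑ b, (X : Matrix (Fin N) (Fin N) R) a b * y a b)) := rfl

/-- vertices whose stabiliser in the row group is killed by the character of the vectors `y`. -/
def BadP {B : Type} (y : B → Fin N → R) : Set (Vtx (Kc τ N c)) :=
  {x | ∃ g : Gp τ N c, x = vtx (Kc τ N c) x.1 g ∧
    ∀ b (a : Fin N), (a : ℕ) < (x.1 : ℕ) + 1 → τ.co (τ.s - 1) ((mat g⁻¹).mulVec (y b) a) = 0}

/-- vertices whose stabiliser in the column group is killed by the character of the covectors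
`ξ`. -/
def BadD {B : Type} (ξ : B → Fin N → R) : Set (Vtx (Kc τ N c)) :=
  {x | ∃ g : Gp τ N c, x = vtx (Kc τ N c) x.1 g ∧
    ∀ b (a : Fin N), (x.1 : ℕ) + 1 ≤ (a : ℕ) → τ.co (τ.s - 1) (Matrix.vecMul (ξ b) (mat g) a) = 0}

variable (τ) in
/-- the vectors attached to a character of the row group. -/
def rowVec (m n : ℕ) (y : Matrix (Fin N) (Fin N) R) : Fin N → Fin N → R :=
  fun b a => if m ≤ (b : ℕ) ∧ (b : ℕ) < n ∧ (a : ℕ) < m then τ.t * y b a else 0

/-- the covectors attached to a character of the column group. -/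
def colVec (m n : ℕ) (y : Matrix (Fin N) (Fin N) R) : Fin N → Fin N → R :=
  fun b a => if (a : ℕ) < m ∧ m ≤ (b : ℕ) ∧ (b : ℕ) < n then y a b else 0

/-- the covering relation between vertices and vectors. -/
def rel (x : Vtx (Kc τ N c)) (v : Fin N → R) : Prop :=
  ∃ g : Gp τ N c, x = vtx (Kc τ N c) x.1 g ∧ ∀ a : Fin N,
    ((a : ℕ) < (x.1 : ℕ) + 1 → (mat g⁻¹).mulVec v a = 0) ∧
      ∃ u : F, (mat g⁻¹).mulVec v a = algebraMap F R u

variable (τ) in
/-- reduction modulo `t` and modulo the first `c` coordinates. -/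
def prj (n : ℕ) (v : Fin N → R) : Fin N → F :=
  fun a => if c ≤ (a : ℕ) ∧ (a : ℕ) < n then τ.co 0 (v a) else 0

variable (τ N) in
/-- the complex of partial bases in general position. -/
def YY (n : ℕ) : Set (Finset (Fin N → R)) :=
  Ind (F := F) {v | ∀ a : Fin N, n ≤ (a : ℕ) → v a = 0} (prj τ c n)

variable (τ N) in
/-- the congruence subgroup of level `t` in rank `n`. -/
def Gam (n : ℕ) : Subgroup (Gp τ N c) :=
  ofMul {g | g ∈ Gn τ N c n ∧ ∀ a b, τ.co 0 (mat g a b) = if a = b then 1 else 0}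
    ⟨Subgroup.one_mem _, fun a b => by
      by_cases h : a = b
      · subst h; simp [τ.co_one]
      · simp [Matrix.one_apply_ne h, h]⟩
    (by
      rintro g ⟨hg, hg'⟩ h ⟨hh, hh'⟩
      refine ⟨Subgroup.mul_mem _ hg hh, fun a b => ?_⟩
      rw [mat_mul, Matrix.mul_apply, map_sum]
      simp [τ.co0_mul, hg', hh'])

variable (F R N) in
/-- acyclicity of the independence complexes that occur. -/
def IndHyp (k : Type) [Field k] [DecidableEq (Fin N → R)] : Prop :=
  ∀ (S : Set (Fin N → R)) (pr : (Fin N → R) → Fin N → F) (T : Submodule F (Fin N → F)),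
    (∀ w ∈ T, ∃ v ∈ S, pr v = w) → ∀ j < Module.finrank F T,
      Bounds k (Le (Ind (F := F) S pr) j) (Le (Ind (F := F) S pr) (j + 1))

end Crest.Agent.R066
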