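import Crest.Agent.R066.Cover
import Crest.Agent.R066.Morse
import Crest.Agent.R066.MorseD
import Crest.Agent.R066.Stab
import Crest.Agent.R066.Move
import Crest.Agent.R066.Gamma

/-! Row 66: vanishing of the homology of the coset complexes in low degrees. -/

set_option autoImplicit false
set_option linter.unusedSectionVars false

namespace Crest.Agent.R066

open Finset

variable {F R : Type} [Field F] [CommRing R] [Algebra F R] [Finite R] {τ : TR F R} {N c : ℕ}
  {k : Type} [Field k] [CharP k 2]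

theorem XX_down (n : ℕ) : Down (XX τ N c n) := Cx_down _ _ _

theorem XX_mono {m n : ℕ} (h : m ≤ n) : XX τ N c m ⊆ XX τ N c n :=
  Cx_mono _ (Gn_mono h) subset_rfl

theorem smul_mem_XX {n : ℕ} {h : Gp τ N c} (hh : h ∈ Gn τ N c n) {σ : Finset (Vtx (Kc τ N c))}
    (hσ : σ ∈ XX τ N c n) : (σ.image fun x => h • x) ∈ XX τ N c n := by
  obtain ⟨g, hg, J, hJ, rfl⟩ := hσ
  rw [image_smul_face]
  exact face_mem_Cx _ (Subgroup.mul_mem _ hh hg) hJ

theorem smul_mem_Le_XX {n j : ℕ} {h : Gp τ N c} (hh : h ∈ Gn τ N c n)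
    {σ : Finset (Vtx (Kc τ N c))} (hσ : σ ∈ Le (XX τ N c n) j) :
    (σ.image fun x => h • x) ∈ Le (XX τ N c n) j :=
  ⟨smul_mem_XX hh hσ.1, Finset.card_image_le.trans hσ.2⟩

theorem natCard_ne_zero_of_char {p : ℕ} (hp : p.Prime) (hp2 : p ≠ 2) {A : Type} [AddCommGroup A]
    [Finite A] (hA : ∀ a : A, p • a = 0) : (Nat.card A : k) ≠ 0 := by
  have : Fact p.Prime := ⟨hp⟩
  have hP : IsPGroup p (Multiplicative A) := by
    intro g
    refine ⟨1, ?_⟩
    rw [pow_one]
    exact hA g.toAdd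
  obtain ⟨n, hn⟩ := hP.exists_card_eq
  have e : Nat.card A = p ^ n := hn
  rw [e, Nat.cast_pow]
  refine pow_ne_zero _ ?_
  rw [Ne, CharP.cast_eq_zero_iff k 2]
  intro h
  exact hp2 ((Nat.prime_dvd_prime_iff_eq Nat.prime_two hp).1 h).symm

section
variable {p : ℕ} [CharP F p] (hp : p.Prime) (hp2 : p ≠ 2) {ψ : AddChar F k} (hψ : ψ ≠ 1)
  (hL : LinkHyp τ N c k)

theorem p_smul_matrix (X : Matrix (Fin N) (Fin N) R) (F : Type) [Field F] [Algebra F R] (p : ℕ)
    [CharP F p] : p • X = 0 := by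
  ext a b
  rw [Matrix.smul_apply, nsmul_eq_mul, ← map_natCast (algebraMap F R), CharP.cast_eq_zero F p]
  simp

include hp hp2 in
theorem card_matrix_ne (F : Type) [Field F] [Algebra F R] [CharP F p]
    [Fintype (Matrix (Fin N) (Fin N) R)] :
    (Fintype.card (Matrix (Fin N) (Fin N) R) : k) ≠ 0 := by
  rw [← Nat.card_eq_fintype_card]
  exact natCard_ne_zero_of_char hp hp2 fun X => p_smul_matrix X F p

include hp hp2 hψ hL in
theorem row_bounds {m n : ℕ} (hcm : c < m) (hmn : m ≤ n) (hnN : n ≤ N) {j : ℕ} (hj : j < c)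
    {ℬ : Set (Finset (Vtx (Kc τ N c)))}
    (hℬ : Orb (fun X : RowA τ N m n => rowEl c X) (Le (XX τ N c m) (j + 1)) ⊆ ℬ)
    (h : Bounds k (Le (XX τ N c m) j) ℬ) :
    Bounds k (Orb (fun X : RowA τ N m n => rowEl c X) (Le (XX τ N c m) j)) ℬ := by
  have := Fintype.ofFinite (Matrix (Fin N) (Fin N) R)
  refine fourier_bounds _ (rowEl_add c) (chi τ ψ (RowA τ N m n)) (fun X hX => sum_chi hψ _ X hX)
    (card_matrix_ne hp hp2 F) ?_ (XX_down m) (fun y => (BadP (τ := τ) c (rowVec τ m n y))ᶜ)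
    (fun y hy => morse_primal hL hcm (hmn.trans hnN) _ ?_ ?_ (rowVec_ne_zero hy) hj)
    (fun y hy σ hσ hg => row_good hcm.le hy hσ hg)
    (fun y σ hσ x hx hb X hX => row_bad hcm.le y hσ hx (not_not.1 hb) X hX)
    (fun σ hσ X h => row_inj hcm.le hσ X h) hℬ h
  · rw [← Nat.card_eq_fintype_card]
    exact natCard_ne_zero_of_char hp hp2 fun X => Subtype.ext (p_smul_matrix X.1 F p)
  · intro b a ha
    simp only [rowVec]; rw [if_neg (by omega)]
  · intro b a
    simp only [rowVec]; split_ifs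
    · exact τ.co_zero_t _
    · exact map_zero _

include hp hp2 hψ hL in
theorem top_bounds {m : ℕ} (hcm : c < m) (hmN : m < N) {j : ℕ} (hj : j < c) :
    Bounds k (Le (XX τ N c m) j) (Le (XX τ N c (m + 1)) (j + 1)) := by
  have := Fintype.ofFinite (Matrix (Fin N) (Fin N) R)
  intro z hz hb
  -- the subgroup of elements fixing the class of `z`
  let P : Subgroup (Gp τ N c) := ofMul {g | g ∈ Gn τ N c (m + 1) ∧
      ∃ w ∈ Sup k (Le (XX τ N c (m + 1)) (j + 1)), bd k w = act k g z + z}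
    ⟨Subgroup.one_mem _, 0, Submodule.zero_mem _, by rw [act_one, add_self_ch, map_zero]⟩
    (by
      rintro g ⟨hg, w, hw, e⟩ h ⟨hh, w', hw', e'⟩
      refine ⟨Subgroup.mul_mem _ hg hh, act k g w' + w, Submodule.add_mem _
        (push_mem_sup _ (fun σ hσ => smul_mem_Le_XX hg hσ) hw') hw, ?_⟩
      rw [map_add, bd_act, e', e, map_add, act_act, add_assoc, ← add_assoc (act k g z),
        add_self_ch, zero_add])
  have horb : ∀ {A : Type} (ρ : A → Gp τ N c), (∀ a, ρ a ∈ Gn τ N c (m + 1)) →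
      Orb ρ (Le (XX τ N c m) (j + 1)) ⊆ Le (XX τ N c (m + 1)) (j + 1) := by
    rintro A ρ hρ _ ⟨a, σ, hσ, rfl⟩
    exact smul_mem_Le_XX (hρ a) ⟨XX_mono (Nat.le_succ m) hσ.1, hσ.2⟩
  have hP : Gam τ N c m ≤ P := by
    refine (Gam_le_closure hmN).trans ((Subgroup.closure_le _).2 ?_)
    rintro _ (⟨X, rfl⟩ | ⟨X, rfl⟩)
    · obtain ⟨w, hw, e⟩ := fourier_fix (fun X : RowA τ N m (m + 1) => rowEl c X) (rowEl_add c)
        (chi τ ψ (RowA τ N m (m + 1))) (fun X hX => sum_chi hψ _ X hX)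
        (card_matrix_ne hp hp2 F) (fun y => (BadP (τ := τ) c (rowVec τ m (m + 1) y))ᶜ)
        (fun y hy => morse_primal hL hcm hmN.le _ (by
            intro b a ha
            simp only [rowVec]; rw [if_neg (by omega)]) (by
            intro b a
            simp only [rowVec]; split_ifs
            · exact τ.co_zero_t _
            · exact map_zero _) (rowVec_ne_zero hy) hj)
        (fun y hy σ hσ hg => row_good hcm.le hy hσ hg) hz hb X
      exact ⟨rowEl_mem_Gn c (Nat.le_succ m) X, w,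
        sup_mono (horb _ (rowEl_mem_Gn c (Nat.le_succ m))) hw, e⟩
    · obtain ⟨w, hw, e⟩ := fourier_fix (fun X : ColA R N m (m + 1) => colEl τ c X) (colEl_add c)
        (chi τ ψ (ColA R N m (m + 1))) (fun X hX => sum_chi hψ _ X hX)
        (card_matrix_ne hp hp2 F) (fun y => (BadD (τ := τ) c (colVec m (m + 1) y))ᶜ)
        (fun y hy => morse_dual hL hcm hmN.le _ (by
            intro b a ha
            simp only [colVec]; rw [if_neg (by omega)]) (colVec_ne_zero hy) hj)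
        (fun y hy σ hσ hg => col_good hcm.le hy hσ hg) hz hb X
      exact ⟨colEl_mem_Gn c (Nat.le_succ m) X, w,
        sup_mono (horb _ (colEl_mem_Gn c (Nat.le_succ m))) hw, e⟩
  have := Fintype.ofFinite (Gam τ N c m)
  obtain ⟨w₀, hw₀, e₀⟩ := Gam_sum_bounds hL hcm hmN.le hj hz hb
  choose w hw e using fun γ : Gam τ N c m => (hP γ.2).2
  have hcard : (Nat.card (Gam τ N c m) : k) ≠ 0 := card_Gam_ne_zero hp hp2 m
  refine ⟨(Nat.card (Gam τ N c m) : k)⁻¹ • (w₀ + ∑ γ, w γ), Submodule.smul_mem _ _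
    (Submodule.add_mem _ (sup_mono (fun σ hσ => And.intro (XX_mono (Nat.le_succ m) hσ.1) hσ.2) hw₀)
      (Submodule.sum_mem _ fun γ _ => hw γ)), ?_⟩
  rw [map_smul, map_add, map_sum, e₀]
  simp only [e]
  rw [Finset.sum_add_distrib, ← add_assoc, add_self_ch, zero_add, Finset.sum_const,
    Finset.card_univ, ← Nat.card_eq_fintype_card, ← Nat.cast_smul_eq_nsmul k, smul_smul,
    inv_mul_cancel₀ hcard, one_smul]

theorem mem_orb_le {G α A : Type} [Group G] [DecidableEq α] [MulAction G α] (ρ : A → G)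
    (X : Set (Finset α)) (j : ℕ) (σ : Finset α) :
    σ ∈ Orb ρ (Le X j) ↔ σ ∈ Orb ρ X ∧ σ.card ≤ j := by
  constructor
  · rintro ⟨a, σ', hσ', rfl⟩
    exact ⟨⟨a, σ', hσ'.1, rfl⟩, Finset.card_image_le.trans hσ'.2⟩
  · rintro ⟨⟨a, σ', hσ', rfl⟩, h⟩
    rw [Finset.card_image_of_injective _ (MulAction.injective (ρ a))] at h
    exact ⟨a, σ', ⟨hσ', h⟩, rfl⟩

/-- the piece of the covering attached to a partial basis is a translate of a row orbit. -/
theorem piece_iff (hc : 0 < c) {m n : ℕ} (hcm : c ≤ m) (hnN : n ≤ N) {T : Finset (Fin N → R)}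
    (hT : T ∈ YY τ N c n) (hcard : m + T.card = n) :
    ∃ h ∈ Gn τ N c n, ∀ σ : Finset (Vtx (Kc τ N c)),
      (σ ∈ XX τ N c n ∧ ∀ x ∈ σ, ∀ v ∈ T, rel c x v) ↔
        (σ.image fun x => h⁻¹ • x) ∈ Orb (fun X : RowA τ N m n => rowEl c X) (XX τ N c m) := by
  obtain ⟨h, hh, hT'⟩ := exists_move hc hcm hnN hT hcard
  refine ⟨h, hh, fun σ => ?_⟩
  rw [← std_iff hcm (by omega) hnN]
  constructor
  · rintro ⟨h1, h2⟩
    refine ⟨smul_mem_XX (Subgroup.inv_mem _ hh) h1, ?_⟩
    intro x hx b hb hb'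
    obtain ⟨y, hy, rfl⟩ := Finset.mem_image.1 hx
    rw [← rel_smul h, smul_inv_smul]
    exact h2 y hy _ ((hT' _).2 ⟨b, hb, hb', rfl⟩)
  · rintro ⟨h1, h2⟩
    constructor
    · have := smul_mem_XX hh h1
      simpa [Finset.image_image, Function.comp_def] using this
    · intro x hx v hv
      obtain ⟨b, hb, hb', rfl⟩ := (hT' v).1 hv
      have := (rel_smul h _ _).2 (h2 _ (Finset.mem_image_of_mem _ hx) b hb hb')
      rwa [smul_inv_smul] at this

include hp hp2 hψ hL in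
theorem vanish [DecidableEq (Fin N → R)] (hI : IndHyp F R N k) (hc : 0 < c) (j : ℕ) :
    j < c → ∀ n, c + 1 + (j + 1) ^ 2 ≤ n → n ≤ N →
      Bounds k (Le (XX τ N c n) j) (Le (XX τ N c n) (j + 1)) := by
  induction j using Nat.strong_induction_on with
  | _ j ih =>
  intro hj n hn hnN
  have hsq : (j + 1) ^ 2 = j * j + 2 * j + 1 := by ring
  have hYd : Down (YY τ N c n) := fun σ hσ T hT =>
    ⟨fun v hv => hσ.1 v (hT hv), hσ.2.comp (fun v : T => (⟨v.1, hT v.2⟩ : σ))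
      (fun _ _ e => Subtype.ext (congrArg (fun x : σ => x.1) e))⟩
  refine bounds_of_cover (XX_down n) hYd ⟨by simp, linearIndependent_empty_type⟩ (rel c) j
    ?_ ?_ ?_
  · intro σ hσ j' hj'
    have e : {T | T ∈ YY τ N c n ∧ ∀ x ∈ σ, ∀ y ∈ T, rel c x y} =
        Ind (F := F) {v | (∀ a : Fin N, n ≤ (a : ℕ) → v a = 0) ∧ ∀ x ∈ σ, rel c x v}
          (prj τ c n) := by
      ext T
      constructor
      · rintro ⟨⟨h1, h2⟩, h3⟩
        exact ⟨fun v hv => ⟨h1 v hv, fun x hx => h3 x hx v hv⟩, h2⟩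
      · rintro ⟨h1, h2⟩
        exact ⟨⟨fun v hv => (h1 v hv).1, h2⟩, fun x hx v hv => (h1 v hv).2 x hx⟩
    rw [e]
    refine hI _ _ (Van F N fun a => (a : ℕ) < c ∨ n ≤ (a : ℕ))
      (fun w hw => rel_surj (by omega) hσ w hw) j' ?_
    rw [finrank_Van_mid (by omega) hnN]
    omega
  · intro T hT h2 j' hj'
    have hjj : j' * j' ≤ (j - 1) * (j - 1) := Nat.mul_le_mul (by omega) (by omega)
    have hj1 : (j - 1) * (j - 1) + 2 * (j - 1) + 1 = j * j := by
      obtain ⟨i, rfl⟩ : ∃ i, j = i + 1 := ⟨j - 1, by omega⟩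
      simp; ring
    have hsq' : (j' + 1) ^ 2 = j' * j' + 2 * j' + 1 := by ring
    obtain ⟨h, hh, hiff⟩ := piece_iff (τ := τ) hc (m := n - T.card) (by omega) hnN hT (by omega)
    have hb := row_bounds hp hp2 hψ hL (m := n - T.card) (n := n) (j := j') (by omega) (by omega)
      hnN (by omega) subset_rfl ((ih j' (by omega) (by omega) (n - T.card) (by omega)
        (by omega)).mono subset_rfl (fun σ hσ => ⟨0, σ, hσ, by
          have : rowEl c (0 : RowA τ N (n - T.card) n) = 1 := mat_inj (by simp)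
          simp [this]⟩))
    refine hb.smul h ?_ ?_
    · intro σ hσ
      exact (mem_orb_le _ _ _ _).2 ⟨(hiff σ).1 hσ.1, Finset.card_image_le.trans hσ.2⟩
    · intro σ hσ
      rw [mem_orb_le] at hσ
      refine ⟨(hiff _).2 ?_, Finset.card_image_le.trans hσ.2⟩
      simpa [Finset.image_image, Function.comp_def] using hσ.1
  · intro y hy
    obtain ⟨m, rfl⟩ : ∃ m, n = m + 1 := ⟨n - 1, by omega⟩
    obtain ⟨h, hh, hiff⟩ := piece_iff (τ := τ) hc (m := m) (by omega) hnN hy (by simp)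
    have hb := row_bounds hp hp2 hψ hL (m := m) (n := m + 1) (j := j) (by omega) (by omega)
      hnN hj (ℬ := Le (XX τ N c (m + 1)) (j + 1)) (by
        rintro _ ⟨a, σ, hσ, rfl⟩
        exact smul_mem_Le_XX (rowEl_mem_Gn c (Nat.le_succ m) a) ⟨XX_mono (Nat.le_succ m) hσ.1, hσ.2⟩)
      (top_bounds hp hp2 hψ hL (by omega) (by omega) hj)
    refine hb.smul h ?_ (fun σ hσ => smul_mem_Le_XX hh hσ)
    intro σ hσ
    refine (mem_orb_le _ _ _ _).2 ⟨(hiff σ).1 ⟨hσ.1.1, ?_⟩, Finset.card_image_le.trans hσ.2⟩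
    intro x hx v hv
    rw [Finset.mem_singleton.1 hv]
    exact hσ.1.2 x hx

end

end Crest.Agent.R066
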